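import Vale.Agent.P168.Conc.Palm

/-!
P168: basic properties of the perturbed system: probability laws, the energy of one kind,
measurability, bounds and the change of the energy under a change of the root data.
-/

open MeasureTheory ProbabilityTheory Filter Topology
open scoped NNReal ENNReal

noncomputable section

namespace Vale.Agent.P168

instance u01_prob : IsProbabilityMeasure u01 := ⟨by simp [u01]⟩

instance labLaw_prob : IsProbabilityMeasure labLaw := by unfold labLaw; infer_instance

instance u12_prob : IsProbabilityMeasure (volume.restrict (Set.Icc (1 : ℝ) 2)) :=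
  ⟨by norm_num⟩

instance xLaw_prob : IsProbabilityMeasure xLaw := by unfold xLaw; infer_instance

instance unif_prob (T : Type*) [Fintype T] [Nonempty T] [MeasurableSpace T]
    [MeasurableSingletonClass T] : IsProbabilityMeasure (unif T) := by
  constructor
  have h : (Fintype.card T : ℝ≥0) ≠ 0 := Nat.cast_ne_zero.2 Fintype.card_ne_zero
  rw [unif, Measure.smul_apply, Measure.count_apply_finite _ Set.finite_univ,
    Set.Finite.toFinset_univ, Finset.card_univ, ENNReal.smul_def, smul_eq_mul, ENNReal.coe_inv h]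
  simp [ENNReal.inv_mul_cancel]

instance kindLaw_prob : IsProbabilityMeasure kindLaw := by
  constructor
  rw [kindLaw, Measure.sum_apply _ MeasurableSet.univ]
  simp only [Measure.smul_apply, measure_univ, smul_eq_mul, mul_one, ENNReal.inv_pow]
  rw [ENNReal.tsum_geometric_add_one, ENNReal.one_sub_inv_two, inv_inv]
  exact ENNReal.inv_mul_cancel (by norm_num) (by norm_num)

theorem kindLaw_real (j : ℕ) : kindLaw.real {j} = ((2 : ℝ) ^ (j + 1))⁻¹ := by
  rw [measureReal_def, kindLaw, Measure.sum_apply _ (measurableSet_singleton j),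
    tsum_eq_single j fun i hi => by simp [hi]]
  simp

variable {Kc N K : ℕ}

/-- The inverse strength of a kind. -/
def beta (j : ℕ) : ℝ := (((pkind j).2.2.1 : ℝ) + 1)⁻¹

theorem beta_pos (j : ℕ) : 0 < beta j := by unfold beta; positivity

theorem beta_le (j : ℕ) : beta j ≤ 1 := by
  unfold beta
  exact inv_le_one_of_one_le₀ (by simp)

/-- The sign of one perturbing clause of kind `j` at the site `i`. -/
def kS (j i : ℕ) (s : Fin N) (y : Fin K → Lab) (σ : Fin N → Bool) : ℝ :=
  flag (pkind j) i y * if (pkind j).2.2.2 then sgn (σ s) else 1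

theorem abs_flag (P : PKind) (i : ℕ) (y : Fin K → Lab) : |flag P i y| = 1 := by
  unfold flag
  split_ifs <;> simp

theorem abs_kS (j i : ℕ) (s : Fin N) (y : Fin K → Lab) (σ : Fin N → Bool) :
    |kS j i s y σ| = 1 := by
  unfold kS
  rw [abs_mul, abs_flag, one_mul]
  split_ifs
  · cases σ s <;> simp [sgn]
  · exact abs_one

/-- The energy of the perturbing clauses of kind `j`, per unit of parameter. -/
def kE (j : ℕ) (p : Pert N) (y : Fin K → Lab) (σ : Fin N → Bool) : ℝ :=
  ∑ i : Fin p.1, if (p.2 i).1 = j then beta j * kS j i (p.2 i).2 y σ else 0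

theorem pertE_eq (x : ℕ → ℝ) (p : Pert N) (y : Fin K → Lab) (σ : Fin N → Bool) :
    pertE x p y σ = ∑ i : Fin p.1, x (p.2 i).1 * (beta (p.2 i).1 * kS (p.2 i).1 i (p.2 i).2 y σ) := by
  simp only [pertE, beta, kS, mul_assoc]

theorem pertE_update (x : ℕ → ℝ) (j : ℕ) (t : ℝ) (p : Pert N) (y : Fin K → Lab)
    (σ : Fin N → Bool) :
    pertE (Function.update x j t) p y σ = pertE x p y σ + (t - x j) * kE j p y σ := by
  rw [pertE_eq, pertE_eq, kE, Finset.mul_sum, ← Finset.sum_add_distrib]
  refine Finset.sum_congr rfl fun i _ => ?_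
  by_cases h : (p.2 i).1 = j
  · simp only [h, Function.update_self, if_true]
    ring
  · simp [h]

/-- The sum of the weights at a leaf. -/
def Y0 (x : ℕ → ℝ) (z : Base Kc N × Pert N) (y : Fin K → Lab) : ℝ := ∑ σ, sysY x z y σ

theorem Y0_pos (x : ℕ → ℝ) (z : Base Kc N × Pert N) (y : Fin K → Lab) : 0 < Y0 x z y :=
  Finset.sum_pos (fun _ _ => Real.exp_pos _) Finset.univ_nonempty

theorem sum_sysW {n : ℕ} (x : ℕ → ℝ) (z : Base Kc N × Pert N)
    (W : P157.Casc.Node K n → ℝ) (ξ : P157.Casc.Node K n → Lab) :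
    Real.log (∑ st : P157.Casc.Leaf K n × (Fin N → Bool), sysW x z W ξ st) =
      P157.Casc.logS (P157.Casc.mlev K) (Y0 x z) W ξ := by
  simp only [P157.Casc.logS, Fintype.sum_prod_type, sysW, Y0, Finset.mul_sum]

/-! ### Measurability -/

theorem measurable_flag (P : PKind) (i : ℕ) : Measurable (flag (K := K) P i) := by
  classical
  refine Measurable.ite ?_ measurable_const ?_
  · have h : Measurable fun (y : Fin K → Lab) (l : Fin K) =>
        ⌊(P.1 : ℝ) * y l (Nat.pair i 0)⌋₊ :=
      measurable_pi_lambda _ fun l => Nat.measurable_floor.comp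
        (show Measurable fun y : Fin K → Lab => (P.1 : ℝ) * y l (Nat.pair i 0) by fun_prop)
    exact h (DiscreteMeasurableSpace.forall_measurableSet
      {v : Fin K → ℕ | List.ofFn v ∈ P.2.1})
  · split_ifs with h
    · exact Measurable.ite (measurableSet_lt ((measurable_pi_apply _).comp (measurable_pi_apply _))
        measurable_const) measurable_const measurable_const
    · exact measurable_const

theorem measurable_kS (j i : ℕ) (s : Fin N) (σ : Fin N → Bool) :
    Measurable fun y : Fin K → Lab => kS j i s y σ :=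
  (measurable_flag _ _).mul_const _

theorem measurable_pertE (σ : Fin N → Bool) :
    Measurable fun q : ((ℕ → ℝ) × Pert N) × (Fin K → Lab) => pertE q.1.1 q.1.2 q.2 σ := by
  have e : (fun q : ((ℕ → ℝ) × Pert N) × (Fin K → Lab) => pertE q.1.1 q.1.2 q.2 σ) =
      (fun u : Pert N × ((ℕ → ℝ) × (Fin K → Lab)) => pertE u.2.1 u.1 u.2.2 σ) ∘
        fun q => (q.1.2, (q.1.1, q.2)) := rfl
  rw [e]
  refine Measurable.comp ?_ ((measurable_snd.comp measurable_fst).prodMk
    ((measurable_fst.comp measurable_fst).prodMk measurable_snd))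
  refine measurable_pl_prod fun k => ?_
  simp only [pertE_eq]
  refine Finset.measurable_sum Finset.univ fun i _ => ?_
  have h : Measurable fun u : (ℕ × Fin N) × ((ℕ → ℝ) × (Fin K → Lab)) =>
      u.2.1 u.1.1 * (beta u.1.1 * kS u.1.1 i u.1.2 u.2.2 σ) :=
    measurable_from_prod_countable_right fun a => by
      show Measurable fun u : (ℕ → ℝ) × (Fin K → Lab) => u.1 a.1 * (beta a.1 * kS a.1 i a.2 u.2 σ)
      exact ((measurable_pi_apply a.1).comp measurable_fst).mul
        (((measurable_kS a.1 i a.2 σ).comp measurable_snd).const_mul (beta a.1))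
  exact Measurable.comp (g := fun u : (ℕ × Fin N) × ((ℕ → ℝ) × (Fin K → Lab)) =>
      u.2.1 u.1.1 * (beta u.1.1 * kS u.1.1 i u.1.2 u.2.2 σ))
    (f := fun q : (Fin k → ℕ × Fin N) × ((ℕ → ℝ) × (Fin K → Lab)) => (q.1 i, q.2)) h
    (((measurable_pi_apply i).comp measurable_fst).prodMk measurable_snd)

theorem measurable_kE (j : ℕ) (σ : Fin N → Bool) :
    Measurable fun q : Pert N × (Fin K → Lab) => kE j q.1 q.2 σ := by
  refine measurable_pl_prod fun k => Finset.measurable_sum Finset.univ
    (f := fun (i : Fin k) (q : (Fin k → ℕ × Fin N) × (Fin K → Lab)) =>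
      if (q.1 i).1 = j then beta j * kS j i (q.1 i).2 q.2 σ else 0) fun i _ => ?_
  have h : Measurable fun u : (ℕ × Fin N) × (Fin K → Lab) =>
      if u.1.1 = j then beta j * kS j i u.1.2 u.2 σ else 0 :=
    measurable_from_prod_countable_right fun a => by
      by_cases ha : a.1 = j
      · simp only [ha, if_true]
        exact ((measurable_kS j i a.2 σ).const_mul _)
      · simp only [ha, if_false]
        exact measurable_const
  exact Measurable.comp (g := fun u : (ℕ × Fin N) × (Fin K → Lab) =>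
      if u.1.1 = j then beta j * kS j i u.1.2 u.2 σ else 0)
    (f := fun q : (Fin k → ℕ × Fin N) × (Fin K → Lab) => (q.1 i, q.2)) h
    (((measurable_pi_apply i).comp measurable_fst).prodMk measurable_snd)

theorem measurable_ham (σ : Fin N → Bool) :
    Measurable fun b : Base Kc N => ham b.1.2 b.2 σ := by
  refine measurable_pl_prod fun k => ?_
  unfold ham
  refine Measurable.add (Finset.measurable_sum Finset.univ
    (f := fun (i : Fin k) (q : (Fin k → Term Kc N) × (Fin N → ℝ)) =>
      (q.1 i).1 fun p => σ ((q.1 i).2 p)) fun i _ => ?_)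
    (Finset.measurable_sum Finset.univ fun i _ =>
      ((measurable_pi_apply i).comp measurable_snd).mul_const _)
  have h : Measurable fun u : Term Kc N => u.1 fun p => σ (u.2 p) :=
    measurable_from_prod_countable_left fun s => by
      show Measurable fun θ : Clause Kc => θ fun p => σ (s p)
      exact measurable_pi_apply (X := fun _ : Fin Kc → Bool => ℝ) fun p => σ (s p)
  exact h.comp ((measurable_pi_apply i).comp measurable_fst)

theorem measurable_sysY (σ : Fin N → Bool) :
    Measurable fun q : ((ℕ → ℝ) × (Base Kc N × Pert N)) × (Fin K → Lab) =>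
      sysY q.1.1 q.1.2 q.2 σ :=
  Real.measurable_exp.comp (((measurable_ham σ).comp
    (measurable_fst.comp (measurable_snd.comp measurable_fst))).add
      ((measurable_pertE σ).comp (((measurable_fst.comp measurable_fst).prodMk
        (measurable_snd.comp (measurable_snd.comp measurable_fst))).prodMk measurable_snd)))

theorem measurable_Y0 :
    Measurable fun q : ((ℕ → ℝ) × (Base Kc N × Pert N)) × (Fin K → Lab) =>
      Y0 q.1.1 q.1.2 q.2 :=
  Finset.measurable_sum _ fun σ _ => measurable_sysY σ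

/-! ### Logarithms of sums of exponentials -/

theorem abs_log_sum_exp_le {T : Type*} [Fintype T] [Nonempty T] {H : T → ℝ} {B : ℝ}
    (hB : ∀ t, |H t| ≤ B) :
    |Real.log (∑ t, Real.exp (H t))| ≤ Real.log (Fintype.card T) + B := by
  have hc : (1 : ℝ) ≤ Fintype.card T := by exact_mod_cast Fintype.card_pos
  have h0 : 0 < ∑ t, Real.exp (H t) :=
    Finset.sum_pos (fun _ _ => Real.exp_pos _) Finset.univ_nonempty
  refine abs_le.2 ⟨?_, ?_⟩
  · obtain ⟨t⟩ := ‹Nonempty T›
    have := Real.log_le_log (Real.exp_pos (H t))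
      (Finset.single_le_sum (f := fun t => Real.exp (H t)) (fun t _ => (Real.exp_pos _).le)
        (Finset.mem_univ t))
    rw [Real.log_exp] at this
    linarith [(abs_le.1 (hB t)).1, Real.log_nonneg hc]
  · have := Real.log_le_log h0 (Finset.sum_le_card_nsmul Finset.univ (fun t => Real.exp (H t))
      (Real.exp B) fun t _ => Real.exp_le_exp.2 (abs_le.1 (hB t)).2)
    rw [Finset.card_univ, nsmul_eq_mul, Real.log_mul (by positivity) (Real.exp_pos _).ne',
      Real.log_exp] at this
    exact this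

theorem log_sum_exp_lip {T : Type*} [Fintype T] [Nonempty T] {H H' : T → ℝ} {D : ℝ}
    (hD : ∀ t, H t ≤ H' t + D) :
    Real.log (∑ t, Real.exp (H t)) ≤ Real.log (∑ t, Real.exp (H' t)) + D := by
  have h0 : ∀ G : T → ℝ, 0 < ∑ t, Real.exp (G t) := fun G =>
    Finset.sum_pos (fun _ _ => Real.exp_pos _) Finset.univ_nonempty
  rw [← Real.log_exp D, ← Real.log_mul (h0 _).ne' (Real.exp_pos _).ne', Finset.sum_mul]
  refine Real.log_le_log (h0 _) (Finset.sum_le_sum fun t _ => ?_)
  rw [← Real.exp_add]
  exact Real.exp_le_exp.2 (hD t)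

/-! ### Bounds -/

/-- Truncation to an interval. -/
def cl (a b v : ℝ) : ℝ := max a (min b v)

theorem cl_mem {a b : ℝ} (h : a ≤ b) (v : ℝ) : cl a b v ∈ Set.Icc a b :=
  ⟨le_max_left _ _, max_le h (min_le_left _ _)⟩

theorem cl_eq {a b v : ℝ} (h : v ∈ Set.Icc a b) : cl a b v = v := by
  simp [cl, h.1, h.2]

theorem abs_cl {L : ℝ} (hL : 0 ≤ L) (v : ℝ) : |cl (-L) L v| ≤ L :=
  abs_le.2 (cl_mem (by linarith) v)

/-- Clauses and fields truncated at `L`. -/
def clB (L : ℝ) (b : Base Kc N) : Base Kc N :=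
  (⟨b.1.1, fun j => (fun σ => cl (-L) L ((b.1.2 j).1 σ), (b.1.2 j).2)⟩, fun i => cl (-L) L (b.2 i))

/-- Root data with bounded clauses and fields. -/
def clZ (L : ℝ) (z : Base Kc N × Pert N) : Base Kc N × Pert N := (clB L z.1, z.2)

/-- Parameters truncated to `[0, 3]`. -/
def clX (x : ℕ → ℝ) : ℕ → ℝ := fun j => cl 0 3 (x j)

theorem abs_ham_le {L : ℝ} (hL : 0 ≤ L) (b : Base Kc N) (σ : Fin N → Bool) :
    |ham (clB L b).1.2 (clB L b).2 σ| ≤ L * ((b.1.1 : ℝ) + N) := by
  refine (abs_add_le _ _).trans ?_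
  rw [mul_add]
  refine add_le_add ((Finset.abs_sum_le_sum_abs _ _).trans
    ((Finset.sum_le_card_nsmul _ _ L fun j _ => abs_cl hL _).trans_eq ?_))
    ((Finset.abs_sum_le_sum_abs _ _).trans
      ((Finset.sum_le_card_nsmul _ _ L fun i _ => ?_).trans_eq ?_))
  · rw [Finset.card_univ, Fintype.card_fin, nsmul_eq_mul, mul_comm]
    rfl
  · rw [abs_mul, show |sgn (σ i)| = 1 by cases σ i <;> simp [sgn], mul_one]
    exact abs_cl hL _
  · rw [Finset.card_univ, Fintype.card_fin, nsmul_eq_mul, mul_comm]

theorem abs_pert_summand (x : ℕ → ℝ) (j i : ℕ) (s : Fin N) (y : Fin K → Lab)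
    (σ : Fin N → Bool) : |clX x j * (beta j * kS j i s y σ)| ≤ 3 := by
  rw [abs_mul, abs_mul, abs_kS, mul_one, abs_of_pos (beta_pos j)]
  have h := cl_mem (a := 0) (b := 3) (by norm_num) (x j)
  rw [show |clX x j| = clX x j from abs_of_nonneg h.1]
  nlinarith [beta_pos j, beta_le j, h.1, h.2, show clX x j = cl 0 3 (x j) from rfl]

theorem abs_pertE_le (x : ℕ → ℝ) (p : Pert N) (y : Fin K → Lab) (σ : Fin N → Bool) :
    |pertE (clX x) p y σ| ≤ 3 * p.1 := by
  rw [pertE_eq]
  refine (Finset.abs_sum_le_sum_abs _ _).trans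
    ((Finset.sum_le_card_nsmul _ _ 3 fun i _ => abs_pert_summand x _ _ _ y σ).trans_eq ?_)
  rw [Finset.card_univ, Fintype.card_fin, nsmul_eq_mul, mul_comm]

theorem abs_kE_le (j : ℕ) (p : Pert N) (y : Fin K → Lab) (σ : Fin N → Bool) :
    |kE j p y σ| ≤ cnt {t : ℕ × Fin N | t.1 = j} p := by
  refine (Finset.abs_sum_le_sum_abs _ _).trans (Finset.sum_le_sum fun i _ => ?_)
  by_cases h : (p.2 i).1 = j
  · rw [if_pos h, Set.indicator_of_mem (by exact h), abs_mul, abs_kS, mul_one,
      abs_of_pos (beta_pos j)]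
    exact beta_le j
  · rw [if_neg h, abs_zero]
    exact Set.indicator_nonneg (fun _ _ => zero_le_one) _

/-- The envelope of the logarithm of the sum at a leaf. -/
def env (L : ℝ) (z : Base Kc N × Pert N) : ℝ :=
  N * Real.log 2 + (L * ((z.1.1.1 : ℝ) + N) + 3 * z.2.1)

theorem abs_log_Y0_le {L : ℝ} (hL : 0 ≤ L) (x : ℕ → ℝ) (z : Base Kc N × Pert N)
    (y : Fin K → Lab) : |Real.log (Y0 (clX x) (clZ L z) y)| ≤ env L z := by
  refine (abs_log_sum_exp_le fun σ => (abs_add_le _ _).trans
    (add_le_add (abs_ham_le hL z.1 σ) (abs_pertE_le x z.2 y σ))).trans_eq ?_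
  simp [env, Real.log_pow]

theorem Y0_mem {L : ℝ} (hL : 0 ≤ L) (x : ℕ → ℝ) (z : Base Kc N × Pert N) (y : Fin K → Lab) :
    Real.exp (-env L z) ≤ Y0 (clX x) (clZ L z) y ∧
      Y0 (clX x) (clZ L z) y ≤ Real.exp (env L z) := by
  have h := abs_le.1 (abs_log_Y0_le hL x z y)
  constructor
  · exact (Real.exp_le_exp.2 h.1).trans_eq (Real.exp_log (Y0_pos _ _ _))
  · exact (Real.exp_log (Y0_pos _ _ _)).symm.trans_le (Real.exp_le_exp.2 h.2)

theorem measurable_clB (L : ℝ) : Measurable (clB (Kc := Kc) (N := N) L) := by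
  have hc : Measurable (cl (-L) L) := by unfold cl; fun_prop
  refine Measurable.prodMk ((measurable_pl (f := fun q : PL (Term Kc N) =>
    (⟨q.1, fun j => (fun σ => cl (-L) L ((q.2 j).1 σ), (q.2 j).2)⟩ : PL (Term Kc N))) fun k => ?_).comp
    measurable_fst)
    (measurable_pi_lambda _ fun i => hc.comp ((measurable_pi_apply i).comp measurable_snd))
  refine (measurable_mk k).comp (measurable_pi_lambda _ fun j => Measurable.prodMk ?_ ?_)
  · exact measurable_pi_lambda _ fun σ =>
      hc.comp ((measurable_pi_apply σ).comp (measurable_fst.comp (measurable_pi_apply j)))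
  · exact measurable_snd.comp (measurable_pi_apply j)

theorem measurable_clZ (L : ℝ) : Measurable (clZ (Kc := Kc) (N := N) L) :=
  ((measurable_clB L).comp measurable_fst).prodMk measurable_snd

theorem measurable_clX : Measurable clX :=
  measurable_pi_lambda _ fun j => by simp only [clX, cl]; fun_prop

theorem measurable_Y0_cl (L : ℝ) :
    Measurable fun q : ((ℕ → ℝ) × (Base Kc N × Pert N)) × (Fin K → Lab) =>
      Y0 (clX q.1.1) (clZ L q.1.2) q.2 :=
  Measurable.comp
    (g := fun q : ((ℕ → ℝ) × (Base Kc N × Pert N)) × (Fin K → Lab) => Y0 q.1.1 q.1.2 q.2)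
    (f := fun q : ((ℕ → ℝ) × (Base Kc N × Pert N)) × (Fin K → Lab) =>
      ((clX q.1.1, clZ L q.1.2), q.2)) measurable_Y0
    (((measurable_clX.comp (measurable_fst.comp measurable_fst)).prodMk
      ((measurable_clZ L).comp (measurable_snd.comp measurable_fst))).prodMk measurable_snd)

theorem measurable_env (L : ℝ) : Measurable (env (Kc := Kc) (N := N) L) := by
  have h1 : Measurable fun z : Base Kc N × Pert N => (z.1.1.1 : ℝ) :=
    (measurable_pl (f := fun q : PL (Term Kc N) => (q.1 : ℝ)) fun k =>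
      measurable_const (a := (k : ℝ))).comp
      (measurable_fst.comp measurable_fst)
  have h2 : Measurable fun z : Base Kc N × Pert N => (z.2.1 : ℝ) :=
    (measurable_pl (f := fun q : Pert N => (q.1 : ℝ)) fun k =>
      measurable_const (a := (k : ℝ))).comp measurable_snd
  unfold env
  fun_prop

end Vale.Agent.P168
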