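import Vale.Agent.P166.Pen.BddDiff
import Vale.Agent.P168.Conc.Root

/-!
P168: bounded differences on Poisson lists, the deviation of the recursion of the system in its
root data and the concentration of the logarithm of the partition function.
-/

open MeasureTheory ProbabilityTheory Filter Topology
open scoped NNReal ENNReal

noncomputable section

namespace Vale.Agent.P168

section General

variable {T : Type} [MeasurableSpace T] {c : ℝ≥0} {τ : Measure T} [IsProbabilityMeasure τ]

/-- Functions bounded by a summable function of the length are integrable. -/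
theorem integrable_plaw_of {G : PL T → ℝ} (hG : Measurable G) {g : ℕ → ℝ}
    (hg : Summable fun k => pw c k * g k) (hb : ∀ p, |G p| ≤ g p.1) : Integrable G (plaw c τ) := by
  have hk : ∀ k, Integrable (fun v : Fin k → T => G ⟨k, v⟩) (Measure.pi fun _ => τ) := fun k =>
    (integrable_const (g k)).mono' (hG.comp (measurable_mk k)).aestronglyMeasurable
      (ae_of_all _ fun v => hb ⟨k, v⟩)
  rw [plaw, integrable_sum_measure_iff]
  refine ⟨fun k => ((integrable_map_measure hG.aestronglyMeasurable
    (measurable_mk k).aemeasurable).2 (hk k)).smul_measure (measure_ne_top _ _), ?_⟩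
  refine Summable.of_nonneg_of_le (fun k => integral_nonneg fun p => norm_nonneg _) (fun k => ?_) hg
  rw [integral_smul_measure, smul_eq_mul, pw_smul_toReal,
    integral_map (measurable_mk k).aemeasurable hG.norm.aestronglyMeasurable]
  refine mul_le_mul_of_nonneg_left ?_ (pw_nonneg c k)
  exact (integral_mono (hk k).norm (integrable_const (g k)) fun v => hb ⟨k, v⟩).trans_eq (by simp)

/-- The length of a Poisson list has exponential moments. -/
theorem integrable_exp_len (a : ℝ) :
    Integrable (fun p : PL T => Real.exp (a * p.1)) (plaw c τ) := by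
  refine integrable_plaw_of (g := fun k : ℕ => Real.exp (a * k))
    (measurable_pl fun k => measurable_const (a := Real.exp (a * k))) ?_ fun p => (abs_of_pos (Real.exp_pos _)).le
  refine ((Real.summable_pow_div_factorial ((c : ℝ) * Real.exp a)).mul_left
    (Real.exp (-c))).congr fun k => ?_
  rw [pw_eq, mul_pow, ← Real.exp_nat_mul, mul_comm a]
  ring

omit [MeasurableSpace T] in
theorem cnt_univ (p : PL T) : cnt Set.univ p = p.1 := by simp [cnt]

theorem dev_len : ∫ p : PL T, |(p.1 : ℝ) - c| ∂plaw c τ ≤ √c := by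
  simpa [cnt_univ] using dev_cnt (c := c) (τ := τ) MeasurableSet.univ

theorem mean_len : ∫ p : PL T, (p.1 : ℝ) ∂plaw c τ = c := by
  simpa [cnt_univ] using mean_cnt (c := c) (τ := τ) MeasurableSet.univ

/-- A function of Poisson lists with bounded differences deviates by the root of the mean
length. -/
theorem dev_plaw {F : PL T → ℝ} (hF : Measurable F) {A : ℝ}
    (hA : ∀ p, |F p| ≤ A * ((p.1 : ℝ) + 1)) {d : ℝ} (hd0 : 0 ≤ d)
    (hu : ∀ k (v : Fin k → T) i t, |F ⟨k, Function.update v i t⟩ - F ⟨k, v⟩| ≤ d)
    (ha : ∀ t p, |F (PL.add t p) - F p| ≤ d) :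
    ∫ p, |F p - ∫ q, F q ∂plaw c τ| ∂plaw c τ ≤ 3 * d * √c := by
  set g : ℕ → ℝ := fun k => ∫ v : Fin k → T, F ⟨k, v⟩ ∂(Measure.pi fun _ => τ) with hg
  have hFk : ∀ k, Integrable (fun v : Fin k → T => F ⟨k, v⟩) (Measure.pi fun _ => τ) := fun k =>
    (integrable_const (A * ((k : ℝ) + 1))).mono' (hF.comp (measurable_mk k)).aestronglyMeasurable
      (ae_of_all _ fun v => hA ⟨k, v⟩)
  have hgb : ∀ k, |g k| ≤ A * ((k : ℝ) + 1) := fun k =>
    (norm_integral_le_of_norm_le_const (f := fun v : Fin k → T => F ⟨k, v⟩)
      (C := A * ((k : ℝ) + 1)) (ae_of_all _ fun v => hA ⟨k, v⟩)).trans (by simp)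
  have hstep : ∀ k, |g (k + 1) - g k| ≤ d := fun k => by
    have hm := (measurePreserving_piFinSuccAbove (fun _ : Fin (k + 1) => τ) 0).symm
    have hi : Integrable (fun q : T × (Fin k → T) => F ⟨k + 1, Fin.cons q.1 q.2⟩)
        (τ.prod (Measure.pi fun _ => τ)) :=
      (integrable_const (A * (((k + 1 : ℕ) : ℝ) + 1))).mono'
        (hF.comp ((measurable_mk (k + 1)).comp (measurable_cons' k))).aestronglyMeasurable
        (ae_of_all _ fun v => hA ⟨k + 1, _⟩)
    have hi' : Integrable (fun q : T × (Fin k → T) => F ⟨k, q.2⟩)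
        (τ.prod (Measure.pi fun _ => τ)) := (hFk k).comp_snd τ
    have e : g (k + 1) = ∫ q : T × (Fin k → T), F ⟨k + 1, Fin.cons q.1 q.2⟩
        ∂τ.prod (Measure.pi fun _ => τ) := by
      show ∫ v : Fin (k + 1) → T, F ⟨k + 1, v⟩ ∂(Measure.pi fun _ => τ) = _
      rw [← hm.integral_comp' (fun v => F ⟨k + 1, v⟩)]
      refine integral_congr_ae (ae_of_all _ fun q => ?_)
      congr 2
      simp [MeasurableEquiv.piFinSuccAbove]
      rfl
    have e' : g k = ∫ q : T × (Fin k → T), F ⟨k, q.2⟩ ∂τ.prod (Measure.pi fun _ => τ) := by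
      rw [integral_prod_symm _ hi']
      simp [g]
    rw [e, e', ← integral_sub hi hi']
    exact (norm_integral_le_of_norm_le_const (C := d)
      (f := fun q : T × (Fin k → T) => F ⟨k + 1, Fin.cons q.1 q.2⟩ - F ⟨k, q.2⟩)
      (ae_of_all _ fun q => ha q.1 ⟨k, q.2⟩)).trans (by simp)
  have hlip : ∀ k l : ℕ, |g l - g k| ≤ d * (|(k : ℝ) - c| + |(l : ℝ) - c|) := by
    intro k l
    have h1 : ∀ n k, |g (k + n) - g k| ≤ d * n := by
      intro n
      induction n with
      | zero => simp
      | succ n ih =>
        intro k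
        refine (abs_sub_le _ (g (k + n)) _).trans ((add_le_add (hstep (k + n)) (ih k)).trans_eq ?_)
        push_cast
        ring
    have h2 : |g l - g k| ≤ d * |(l : ℝ) - k| := by
      rcases le_total k l with h | h
      · obtain ⟨n, rfl⟩ := Nat.le.dest h
        simpa using h1 n k
      · obtain ⟨n, rfl⟩ := Nat.le.dest h
        rw [abs_sub_comm]
        simpa using h1 n l
    refine h2.trans (mul_le_mul_of_nonneg_left ?_ hd0)
    rw [abs_sub_comm (k : ℝ), add_comm]
    exact abs_sub_le _ _ _
  have hGm : Measurable fun p : PL T => g p.1 :=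
    measurable_pl fun k => measurable_const (a := g k)
  have hGi : Integrable (fun p : PL T => g p.1) (plaw c τ) :=
    integrable_plaw (A := A) (n := 1) hGm fun p => by simpa using hgb p.1
  have hFi : Integrable F (plaw c τ) :=
    integrable_plaw (A := A) (n := 1) hF fun p => by simpa using hA p
  have hmean : ∫ q, F q ∂plaw c τ = ∫ q, g q.1 ∂plaw c τ := by
    refine (hasSum_plaw hF hFi).unique ((hasSum_plaw hGm hGi).congr_fun fun k => ?_)
    simp [g]
  have hlen : Integrable (fun p : PL T => (p.1 : ℝ)) (plaw c τ) :=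
    integrable_plaw (A := 1) (n := 1) (measurable_pl fun k => measurable_const (a := (k : ℝ))) fun p => by simp
  have hdl : Integrable (fun p : PL T => |(p.1 : ℝ) - c|) (plaw c τ) :=
    (hlen.sub (integrable_const _)).abs
  set M := ∫ q, g q.1 ∂plaw c τ
  have hG2 : ∀ p : PL T, |g p.1 - M| ≤ d * (|(p.1 : ℝ) - c| + √c) := fun p => by
    have hi : Integrable (fun q : PL T => |g p.1 - g q.1|) (plaw c τ) :=
      ((integrable_const _).sub hGi).abs
    have e : g p.1 - M = ∫ q, (g p.1 - g q.1) ∂plaw c τ := by
      rw [integral_sub (integrable_const _) hGi]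
      simp [M]
    rw [e]
    refine abs_integral_le_integral_abs.trans ((integral_mono hi
      (((integrable_const |(p.1 : ℝ) - c|).add hdl).const_mul d) fun q => ?_).trans ?_)
    · simp only [Pi.add_apply]
      rw [add_comm]
      exact hlip q.1 p.1
    · rw [integral_const_mul]
      refine mul_le_mul_of_nonneg_left ?_ hd0
      rw [integral_add' (integrable_const _) hdl, integral_const, probReal_univ, one_smul]
      exact add_le_add le_rfl dev_len
  have hdm : Measurable fun p : PL T => |F p - g p.1| := (hF.sub hGm).norm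
  have hdi : Integrable (fun p : PL T => |F p - g p.1|) (plaw c τ) := (hFi.sub hGi).abs
  have h1 : ∫ p, |F p - g p.1| ∂plaw c τ ≤ d * √c := by
    have hsm : Measurable fun p : PL T => √(p.1 : ℝ) :=
      measurable_pl fun k => measurable_const (a := √(k : ℝ))
    have hsi : Integrable (fun p : PL T => √(p.1 : ℝ)) (plaw c τ) :=
      integrable_plaw (A := 1) (n := 1) hsm fun p => by
        rw [abs_of_nonneg (Real.sqrt_nonneg _), one_mul, pow_one, Real.sqrt_le_iff]
        constructor <;> nlinarith [p.1.cast_nonneg (α := ℝ)]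
    have h2 : ∫ p, |F p - g p.1| ∂plaw c τ ≤ d * ∫ p : PL T, √(p.1 : ℝ) ∂plaw c τ := by
      rw [← integral_const_mul]
      refine hasSum_le (fun k => ?_) (hasSum_plaw hdm hdi)
        (hasSum_plaw (hsm.const_mul d) (hsi.const_mul d))
      refine mul_le_mul_of_nonneg_left ?_ (pw_nonneg c k)
      refine (P166.Pen.dev_le_of_diff (μ := τ) (C := A * ((k : ℝ) + 1))
        (hF.comp (measurable_mk k)) (fun v => hA ⟨k, v⟩) hd0 (hu k)).trans_eq ?_
      simp [mul_comm]
    refine h2.trans (mul_le_mul_of_nonneg_left ?_ hd0)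
    rcases eq_or_lt_of_le c.coe_nonneg with h0 | h0
    · refine (integral_mono hsi hlen fun p => ?_).trans (by rw [mean_len, ← h0, Real.sqrt_zero])
      rcases Nat.eq_zero_or_pos p.1 with h | h
      · simp [h]
      · rw [Real.sqrt_le_iff]
        have : (1 : ℝ) ≤ p.1 := by exact_mod_cast h
        exact ⟨by positivity, by nlinarith⟩
    · have hpos : 0 < √(c : ℝ) := Real.sqrt_pos.2 h0
      refine (integral_mono hsi ((hlen.div_const (2 * √(c : ℝ))).add
        (integrable_const (√(c : ℝ) / 2))) fun p => ?_).trans_eq ?_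
      · simp only [Pi.add_apply]
        rw [div_add_div _ _ (by positivity) two_ne_zero, le_div_iff₀ (by positivity)]
        nlinarith [sq_nonneg (√(p.1 : ℝ) - √(c : ℝ)), Real.sq_sqrt h0.le,
          Real.sq_sqrt (p.1.cast_nonneg (α := ℝ))]
      · rw [integral_add' (hlen.div_const _) (integrable_const _), integral_div, mean_len]
        simp only [integral_const, probReal_univ, one_smul]
        field_simp
        linarith [Real.sq_sqrt h0.le]
  have hG3i : Integrable (fun p : PL T => |g p.1 - M|) (plaw c τ) :=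
    (hGi.sub (integrable_const _)).abs
  rw [hmean]
  refine (integral_mono (hFi.sub (integrable_const _)).abs (hdi.add hG3i) fun p => ?_).trans ?_
  · exact abs_sub_le _ _ _
  · rw [integral_add' hdi hG3i]
    have h3 : ∫ p, |g p.1 - M| ∂plaw c τ ≤ d * (2 * √c) := by
      refine (integral_mono hG3i ((hdl.add (integrable_const _)).const_mul d) hG2).trans ?_
      rw [integral_const_mul]
      refine mul_le_mul_of_nonneg_left ?_ hd0
      rw [integral_add' hdl (integrable_const _), integral_const, probReal_univ, one_smul, two_mul]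
      exact add_le_add dev_len le_rfl
    linarith

/-- Deviations of a function of two independent variables add up. -/
theorem dev_prod {X Y : Type*} [MeasurableSpace X] [MeasurableSpace Y] {α : Measure X}
    {β : Measure Y} [IsProbabilityMeasure α] [IsProbabilityMeasure β] {F : X × Y → ℝ}
    (hF : Integrable F (α.prod β)) {a b : ℝ}
    (ha : ∀ y, ∫ x, |F (x, y) - ∫ x', F (x', y) ∂α| ∂α ≤ a)
    (hb : ∫ y, |(∫ x, F (x, y) ∂α) - ∫ y', ∫ x, F (x, y') ∂α ∂β| ∂β ≤ b) :
    ∫ q, |F q - ∫ q', F q' ∂α.prod β| ∂α.prod β ≤ a + b := by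
  have hG : Integrable (fun y => ∫ x, F (x, y) ∂α) β := hF.integral_prod_right
  rw [integral_prod_symm F hF]
  set M := ∫ y', ∫ x, F (x, y') ∂α ∂β
  have hdi : Integrable (fun q => |F q - M|) (α.prod β) := (hF.sub (integrable_const _)).abs
  rw [integral_prod_symm _ hdi]
  refine (integral_mono_of_nonneg (ae_of_all _ fun y => integral_nonneg fun x => abs_nonneg _)
    ((integrable_const a).add (hG.sub (integrable_const M)).abs) ?_).trans ?_
  · filter_upwards [hF.prod_left_ae] with y hy
    refine (integral_mono (hy.sub (integrable_const _)).abs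
      ((hy.sub (integrable_const _)).abs.add (integrable_const _)) fun x =>
        abs_sub_le _ (∫ x', F (x', y) ∂α) _).trans ?_
    rw [integral_add' (hy.sub (integrable_const _)).abs (integrable_const _), integral_const,
      probReal_univ, one_smul]
    exact add_le_add (ha y) le_rfl
  · rw [integral_add' (integrable_const _) (hG.sub (integrable_const M)).abs, integral_const,
      probReal_univ, one_smul]
    exact add_le_add le_rfl hb

/-- Products with fields with bounded differences. -/
theorem dev_pi {X : Type*} [MeasurableSpace X] {α : Measure X} [IsProbabilityMeasure α] {n : ℕ}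
    {F : (Fin n → X) → ℝ} (hF : Measurable F) {C : ℝ} (hC : ∀ x, |F x| ≤ C) {d : ℝ} (hd0 : 0 ≤ d)
    (hd : ∀ x i y, |F (Function.update x i y) - F x| ≤ d) :
    ∫ x, |F x - ∫ y, F y ∂Measure.pi fun _ : Fin n => α| ∂Measure.pi (fun _ : Fin n => α) ≤
      √(n : ℝ) * d :=
  P166.Pen.dev_le_of_diff hF hC hd0 hd

end General

end Vale.Agent.P168
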