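import Vale.Agent.P157.Casc.Conc
import Vale.Agent.P168.Conc.Dev

/-!
P168: the recursion of the perturbed system in its root data, its deviation, and the concentration
of the logarithm of the total weight on trees.
-/

open MeasureTheory ProbabilityTheory Filter Topology
open scoped NNReal ENNReal

noncomputable section

namespace Vale.Agent.P168

open P157.Casc (casc mlev cst logS)

variable {Kc N K : ℕ}

instance rootLaw_prob [NeZero N] (μ : Measure (Clause Kc)) (ν : Measure ℝ)
    [IsProbabilityMeasure μ] [IsProbabilityMeasure ν] (c s : ℝ≥0) :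
    IsProbabilityMeasure (rootLaw μ ν N c s) := by unfold rootLaw; infer_instance

/-- Renumbering of the labels when a clause is put in front. -/
def shiftI (k : ℕ) : ℕ := Nat.pair (k.unpair.1 + 1) k.unpair.2

theorem shiftI_pair (i e : ℕ) : shiftI (Nat.pair i e) = Nat.pair (i + 1) e := by
  simp [shiftI]

theorem shiftI_injective : Function.Injective shiftI := fun a b h => by
  have h' := congrArg Nat.unpair h
  simp only [shiftI, Nat.unpair_pair, Prod.mk.injEq, add_left_inj] at h'
  rw [← Nat.pair_unpair a, ← Nat.pair_unpair b, h'.1, h'.2]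

/-- Labels renumbered along an injective map keep their law. -/
theorem labLaw_reindex {f : ℕ → ℕ} (hf : Function.Injective f) :
    MeasurePreserving (fun (l : Lab) k => l (f k)) labLaw labLaw := by
  have hm : Measurable fun (l : Lab) k => l (f k) :=
    measurable_pi_lambda _ fun k => measurable_pi_apply (f k)
  refine ⟨hm, Measure.eq_infinitePi _ fun s t ht => ?_⟩
  classical
  rw [Measure.map_apply hm (MeasurableSet.pi s.countable_toSet fun i _ => ht i)]
  have e : (fun (l : Lab) k => l (f k)) ⁻¹' (Set.pi (s : Set ℕ) t)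
      = Set.pi (s.image f : Set ℕ) fun i => t (Function.invFun f i) := by
    ext l
    simp only [Set.mem_preimage, Set.mem_pi, Finset.coe_image, Set.mem_image]
    constructor
    · rintro h i ⟨k, hk, rfl⟩
      rw [Function.leftInverse_invFun hf k]
      exact h k hk
    · intro h k hk
      have := h (f k) ⟨k, hk, rfl⟩
      rwa [Function.leftInverse_invFun hf k] at this
  rw [labLaw, e, Measure.infinitePi_pi _ fun i _ => ht _, Finset.prod_image hf.injOn]
  simp only [Function.leftInverse_invFun hf _]

/-- The recursion is invariant under maps preserving the law of the labels. -/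
theorem casc_map {X : Type} [MeasurableSpace X] {ν : Measure X} [IsProbabilityMeasure ν] {φ : X → X}
    (hφ : MeasurePreserving φ ν ν) :
    ∀ (K : ℕ) (m : Fin K → ℝ) {H : (Fin K → X) → ℝ}, Measurable H →
      casc ν K m (fun y => H fun l => φ (y l)) = casc ν K m H
  | 0, _, H, _ => congrArg H (funext fun l => l.elim0)
  | K + 1, m, H, hH => by
    have hm : Measurable fun x => Real.exp (m 0 * casc ν K (fun l => m l.succ)
        (fun y => H (Fin.cons x y))) := by
      have h := P157.Casc.measurable_casc_param (ν := ν) K (fun l => m l.succ)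
        (H := fun (x : X) y => H (Fin.cons x y)) (hH.comp P157.Casc.Rec.measurable_cons)
      exact Real.measurable_exp.comp (h.const_mul _)
    simp only [casc]
    congr 2
    refine Eq.trans ?_ ((integral_map hφ.measurable.aemeasurable hm.aestronglyMeasurable).symm.trans
      (by rw [hφ.map_eq]))
    refine integral_congr_ae (ae_of_all _ fun x => ?_)
    have e : ∀ y : Fin K → X, H (fun l => φ ((Fin.cons x y : Fin (K + 1) → X) l))
        = H (Fin.cons (φ x) fun l => φ (y l)) := fun y => by
      congr 1
      funext l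
      refine Fin.cases ?_ (fun l => ?_) l <;> simp
    simp only [e]
    rw [casc_map hφ K (fun l => m l.succ) (H := fun y => H (Fin.cons (φ x) y))
      (hH.comp (P157.Casc.Rec.measurable_cons.comp (measurable_const.prodMk measurable_id)))]

theorem casc_const {X : Type} [MeasurableSpace X] {ν : Measure X} [IsProbabilityMeasure ν]
    (a : ℝ) : ∀ (K : ℕ) {m : Fin K → ℝ}, P157.Casc.Grid m → casc ν K m (fun _ => a) = a
  | 0, _, _ => rfl
  | K + 1, m, hm => by
    have h0 := hm.pos 0
    simp only [casc, casc_const a K hm.tail, integral_const, probReal_univ, one_smul,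
      Real.log_exp]
    field_simp

theorem measurable_logY (x : ℕ → ℝ) (z : Base Kc N × Pert N) :
    Measurable fun y : Fin K → Lab => Real.log (Y0 x z y) :=
  Real.measurable_log.comp (Measurable.comp
    (g := fun q : ((ℕ → ℝ) × (Base Kc N × Pert N)) × (Fin K → Lab) => Y0 q.1.1 q.1.2 q.2)
    (f := fun y : Fin K → Lab => ((x, z), y)) measurable_Y0
    (measurable_const.prodMk measurable_id))

/-- The recursion of the truncated system in its root data. -/
def rroot (K : ℕ) (L : ℝ) (x : ℕ → ℝ) (z : Base Kc N × Pert N) : ℝ :=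
  casc labLaw K (mlev K) fun y => Real.log (Y0 (clX x) (clZ L z) y)

theorem measurable_rroot (L : ℝ) :
    Measurable fun q : (ℕ → ℝ) × (Base Kc N × Pert N) => rroot K L q.1 q.2 := by
  have h : Measurable fun p : ((ℕ → ℝ) × (Base Kc N × Pert N)) × (Fin K → Lab) =>
      Real.log (Y0 (clX p.1.1) (clZ L p.1.2) p.2) :=
    Real.measurable_log.comp (measurable_Y0_cl L)
  exact P157.Casc.measurable_casc_param (ν := labLaw) K (mlev K)
    (H := fun (q : (ℕ → ℝ) × (Base Kc N × Pert N)) y => Real.log (Y0 (clX q.1) (clZ L q.2) y)) h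

theorem integrable_Y0 {L : ℝ} (hL : 0 ≤ L) (x : ℕ → ℝ) (z : Base Kc N × Pert N) :
    Integrable (fun y => Real.exp (Real.log (Y0 (clX x) (clZ L z) y)))
      (Measure.pi fun _ : Fin K => labLaw) :=
  (integrable_const (Real.exp (env L z))).mono'
    (Real.measurable_exp.comp (measurable_logY (clX x) (clZ L z))).aestronglyMeasurable
    (ae_of_all _ fun y => by
      rw [Real.norm_eq_abs, abs_of_pos (Real.exp_pos _), Real.exp_log (Y0_pos _ _ _)]
      exact (Y0_mem hL x z y).2)

/-- Root data whose energies differ by at most `D` after renumbering have recursions within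
`D`. -/
theorem rroot_sub_le {L : ℝ} (hL : 0 ≤ L) (x : ℕ → ℝ) (z z' : Base Kc N × Pert N) {D : ℝ}
    {φ : Lab → Lab} (hφ : MeasurePreserving φ labLaw labLaw)
    (h : ∀ (y : Fin K → Lab) σ,
      |(ham (clZ L z).1.1.2 (clZ L z).1.2 σ + pertE (clX x) z.2 y σ) -
        (ham (clZ L z').1.1.2 (clZ L z').1.2 σ + pertE (clX x) z'.2 (fun l => φ (y l)) σ)| ≤ D) :
    |rroot K L x z - rroot K L x z'| ≤ D := by
  set H : (Fin K → Lab) → ℝ := fun y => Real.log (Y0 (clX x) (clZ L z') y)
  have hHm : Measurable H := measurable_logY _ _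
  have hg := P157.Casc.grid_mlev K
  have hm' : Measurable fun y : Fin K → Lab => H fun l => φ (y l) :=
    hHm.comp (measurable_pi_lambda _ fun l => hφ.measurable.comp (measurable_pi_apply l))
  have hi' : Integrable (fun y : Fin K → Lab => Real.exp (H fun l => φ (y l)))
      (Measure.pi fun _ => labLaw) :=
    (measurePreserving_pi (fun _ : Fin K => labLaw) (fun _ => labLaw) fun _ => hφ).integrable_comp_of_integrable
      (integrable_Y0 hL x z')
  have e : rroot K L x z' = casc labLaw K (mlev K) fun y => H fun l => φ (y l) :=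
    (casc_map hφ K (mlev K) hHm).symm
  have h1 := P157.Casc.casc_le_add (ν := labLaw) D K hg (measurable_logY (clX x) (clZ L z)) hm'
    (integrable_Y0 hL x z) hi' fun y => log_sum_exp_lip fun σ => by
      have := (abs_le.1 (h y σ)).2
      simp only [clZ] at this ⊢
      linarith
  have h2 := P157.Casc.casc_le_add (ν := labLaw) D K hg hm' (measurable_logY (clX x) (clZ L z))
    hi' (integrable_Y0 hL x z) fun y => log_sum_exp_lip fun σ => by
      have := (abs_le.1 (h y σ)).1
      simp only [clZ] at this ⊢
      linarith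
  rw [e]
  unfold rroot
  exact abs_le.2 ⟨by linarith, by linarith⟩

theorem abs_rroot_le {L : ℝ} (hL : 0 ≤ L) (x : ℕ → ℝ) (z : Base Kc N × Pert N) :
    |rroot K L x z| ≤ env L z := by
  have hg := P157.Casc.grid_mlev K
  have hb := fun y : Fin K → Lab => abs_le.1 (abs_log_Y0_le hL x z y)
  have hc : ∀ a : ℝ, Integrable (fun _ : Fin K → Lab => Real.exp a) (Measure.pi fun _ => labLaw) :=
    fun a => integrable_const _
  have h1 := P157.Casc.casc_le_add (ν := labLaw) 0 K hg (measurable_logY (clX x) (clZ L z))
    measurable_const (integrable_Y0 hL x z) (hc (env L z)) fun y => by simpa using (hb y).2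
  have h2 := P157.Casc.casc_le_add (ν := labLaw) 0 K hg measurable_const
    (measurable_logY (clX x) (clZ L z)) (hc (-env L z)) (integrable_Y0 hL x z) fun y => by
      simpa using (hb y).1
  rw [casc_const _ K hg] at h1 h2
  unfold rroot
  exact abs_le.2 ⟨by linarith, by linarith⟩

theorem abs_sum_update {T : Type*} {k : ℕ} (f : Fin k → T → ℝ) {d : ℝ}
    (hf : ∀ i t, |f i t| ≤ d) (v : Fin k → T) (i : Fin k) (t : T) :
    |(∑ j, f j (Function.update v i t j)) - ∑ j, f j (v j)| ≤ 2 * d := by
  rw [← Finset.sum_sub_distrib, Finset.sum_eq_single i (fun j _ hj => by simp [hj])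
    (fun h => absurd (Finset.mem_univ i) h), Function.update_self]
  exact (abs_sub _ _).trans (by linarith [hf i t, hf i (v i)])

theorem pertE_add (x : ℕ → ℝ) (t : ℕ × Fin N) (p : Pert N) (y : Fin K → Lab)
    (σ : Fin N → Bool) :
    pertE x (PL.add t p) y σ =
      x t.1 * (beta t.1 * kS t.1 0 t.2 y σ) + pertE x p (fun l k => y l (shiftI k)) σ := by
  obtain ⟨k, v⟩ := p
  rw [pertE_eq, pertE_eq]
  refine (Fin.sum_univ_succ (n := k) _).trans ?_
  simp only [PL.add, Fin.cons_zero, Fin.cons_succ, Fin.val_zero, Fin.val_succ, kS, flag,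
    shiftI_pair]
  rfl

/-- The length of the root data in units of the deviation. -/
def devC (L : ℝ) (N : ℕ) (c s : ℝ≥0) : ℝ := 6 * L * √c + √(N : ℝ) * (2 * L) + 18 * √s

theorem rroot_base_update {L : ℝ} (hL : 0 ≤ L) (x : ℕ → ℝ) (k : ℕ) (v : Fin k → Term Kc N)
    (i : Fin k) (t : Term Kc N) (h : Fin N → ℝ) (p : Pert N) :
    |rroot K L x ((⟨k, Function.update v i t⟩, h), p) - rroot K L x ((⟨k, v⟩, h), p)| ≤ 2 * L := by
  refine rroot_sub_le hL x _ _ (MeasurePreserving.id labLaw) fun y σ => ?_
  simp only [clZ, clB, ham, id, add_sub_add_right_eq_sub]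
  exact abs_sum_update (fun _ (u : Term Kc N) => cl (-L) L (u.1 fun p => σ (u.2 p)))
    (fun _ _ => abs_cl hL _) v i t

theorem rroot_base_add {L : ℝ} (hL : 0 ≤ L) (x : ℕ → ℝ) (t : Term Kc N) (q : PL (Term Kc N))
    (h : Fin N → ℝ) (p : Pert N) :
    |rroot K L x ((PL.add t q, h), p) - rroot K L x ((q, h), p)| ≤ 2 * L := by
  obtain ⟨k, v⟩ := q
  refine rroot_sub_le hL x _ _ (MeasurePreserving.id labLaw) fun y σ => ?_
  simp only [clZ, clB, ham, id, PL.add, add_sub_add_right_eq_sub]
  refine le_of_eq_of_le (congrArg _ (sub_eq_iff_eq_add.2 ((Fin.sum_univ_succ (n := k) _).trans ?_)))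
    ((abs_cl hL (t.1 fun p => σ (t.2 p))).trans (by linarith))
  simp only [Fin.cons_zero, Fin.cons_succ]
  rfl

theorem rroot_field_update {L : ℝ} (hL : 0 ≤ L) (x : ℕ → ℝ) (q : PL (Term Kc N))
    (h : Fin N → ℝ) (i : Fin N) (u : ℝ) (p : Pert N) :
    |rroot K L x ((q, Function.update h i u), p) - rroot K L x ((q, h), p)| ≤ 2 * L := by
  refine rroot_sub_le hL x _ _ (MeasurePreserving.id labLaw) fun y σ => ?_
  simp only [clZ, clB, ham, id, add_sub_add_right_eq_sub]
  refine le_of_eq_of_le (congrArg _ (add_sub_add_left_eq_sub _ _ _))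
    (abs_sum_update (fun i v => cl (-L) L v * sgn (σ i)) (fun i v => ?_) h i u)
  rw [abs_mul, show |sgn (σ i)| = 1 by cases σ i <;> simp [sgn], mul_one]
  exact abs_cl hL _

theorem rroot_pert_update {L : ℝ} (hL : 0 ≤ L) (x : ℕ → ℝ) (b : Base Kc N) (k : ℕ)
    (v : Fin k → ℕ × Fin N) (i : Fin k) (t : ℕ × Fin N) :
    |rroot K L x (b, ⟨k, Function.update v i t⟩) - rroot K L x (b, ⟨k, v⟩)| ≤ 6 := by
  refine rroot_sub_le hL x _ _ (MeasurePreserving.id labLaw) fun y σ => ?_
  simp only [clZ, id, add_sub_add_left_eq_sub, pertE_eq]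
  exact (abs_sum_update (fun j (u : ℕ × Fin N) => clX x u.1 * (beta u.1 * kS u.1 j u.2 y σ))
    (fun j u => abs_pert_summand x _ _ _ y σ) v i t).trans_eq (by norm_num)

theorem rroot_pert_add {L : ℝ} (hL : 0 ≤ L) (x : ℕ → ℝ) (b : Base Kc N) (t : ℕ × Fin N)
    (q : Pert N) : |rroot K L x (b, PL.add t q) - rroot K L x (b, q)| ≤ 6 := by
  refine rroot_sub_le hL x _ _ (labLaw_reindex shiftI_injective) fun y σ => ?_
  simp only [clZ, pertE_add, add_sub_add_left_eq_sub, add_sub_cancel_right]
  exact (abs_pert_summand x _ _ _ y σ).trans (by norm_num)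

theorem integrable_len {T : Type} [MeasurableSpace T] (c : ℝ≥0) (τ : Measure T)
    [IsProbabilityMeasure τ] : Integrable (fun q : PL T => (q.1 : ℝ)) (plaw c τ) :=
  integrable_plaw (A := 1) (n := 1) (measurable_pl fun k => measurable_const (a := (k : ℝ)))
    fun p => by simp

theorem measurable_rroot_fix (L : ℝ) (x : ℕ → ℝ) :
    Measurable fun z : Base Kc N × Pert N => rroot K L x z :=
  Measurable.comp (g := fun q : (ℕ → ℝ) × (Base Kc N × Pert N) => rroot K L q.1 q.2)
    (f := fun z => (x, z)) (measurable_rroot L) (measurable_const.prodMk measurable_id)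

section Dev

variable [NeZero N] (μ : Measure (Clause Kc)) (ν : Measure ℝ) [IsProbabilityMeasure μ]
  [IsProbabilityMeasure ν]

/-- The law of the clauses and fields. -/
abbrev baseLaw (N : ℕ) (c : ℝ≥0) : Measure (Base Kc N) :=
  (plaw c (μ.prod (unif (Fin Kc → Fin N)))).prod (Measure.pi fun _ => ν)

/-- A bound of the mean of the recursion over the clauses and fields. -/
def meanB (L : ℝ) (N : ℕ) (c : ℝ≥0) (k : ℕ) : ℝ := N * Real.log 2 + (L * ((c : ℝ) + N) + 3 * k)

theorem integrable_env_base (L : ℝ) (c : ℝ≥0) (p : Pert N) :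
    Integrable (fun b => env L (b, p)) (baseLaw μ ν N c) ∧
      ∫ b, env L (b, p) ∂baseLaw μ ν N c = meanB L N c p.1 := by
  have h1 : Integrable (fun b : Base Kc N => (b.1.1 : ℝ)) (baseLaw μ ν N c) :=
    (integrable_len c (μ.prod (unif (Fin Kc → Fin N)))).comp_fst _
  have h2 : Integrable (fun b : Base Kc N => L * ((b.1.1 : ℝ) + N)) (baseLaw μ ν N c) :=
    (h1.add (integrable_const _)).const_mul L
  have h3 : Integrable (fun b : Base Kc N => L * ((b.1.1 : ℝ) + N) + 3 * (p.1 : ℝ))
      (baseLaw μ ν N c) := h2.add (integrable_const _)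
  refine ⟨(integrable_const _).add h3, ?_⟩
  show ∫ b, N * Real.log 2 + (L * ((b.1.1 : ℝ) + N) + 3 * p.1) ∂baseLaw μ ν N c = _
  rw [integral_add (integrable_const _) h3, integral_add h2 (integrable_const _),
    integral_const_mul L, integral_add h1 (integrable_const _), integral_fun_fst (f := fun q : PL (Term Kc N) => (q.1 : ℝ)),
    mean_len]
  simp [meanB]

theorem dev_rroot_base {L : ℝ} (hL : 0 ≤ L) (c : ℝ≥0) (x : ℕ → ℝ) (p : Pert N) :
    Integrable (fun b => rroot K L x (b, p)) (baseLaw μ ν N c) ∧
    |∫ b, rroot K L x (b, p) ∂baseLaw μ ν N c| ≤ meanB L N c p.1 ∧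
    ∫ b, |rroot K L x (b, p) - ∫ b', rroot K L x (b', p) ∂baseLaw μ ν N c| ∂baseLaw μ ν N c ≤
      6 * L * √c + √(N : ℝ) * (2 * L) := by
  obtain ⟨hei, he⟩ := integrable_env_base μ ν L c p
  have hFp : Measurable fun b => rroot K L x (b, p) :=
    Measurable.comp (g := fun z : Base Kc N × Pert N => rroot K L x z) (f := fun b => (b, p))
      (measurable_rroot_fix L x) (measurable_id.prodMk measurable_const)
  have hint : Integrable (fun b => rroot K L x (b, p)) (baseLaw μ ν N c) :=
    hei.mono' hFp.aestronglyMeasurable (ae_of_all _ fun b => abs_rroot_le hL x (b, p))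
  refine ⟨hint, ?_, dev_prod hint (fun h => ?_) ?_⟩
  · exact abs_integral_le_integral_abs.trans ((integral_mono hint.abs hei fun b =>
      abs_rroot_le hL x (b, p)).trans_eq he)
  · refine (dev_plaw (Measurable.comp (g := fun b => rroot K L x (b, p)) (f := fun q => (q, h)) hFp
      (measurable_id.prodMk measurable_const))
      (A := |N * Real.log 2 + L * N + 3 * p.1| + L)
      (fun q => (abs_rroot_le hL x ((q, h), p)).trans ?_)
      (by positivity) (fun k v i t => rroot_base_update hL x k v i t h p)
      (fun t q => rroot_base_add hL x t q h p)).trans_eq (by ring)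
    simp only [env]
    nlinarith [q.1.cast_nonneg (α := ℝ), le_abs_self (N * Real.log 2 + L * N + 3 * p.1),
      abs_nonneg (N * Real.log 2 + L * N + 3 * (p.1 : ℝ))]
  · have hlen := integrable_len c (μ.prod (unif (Fin Kc → Fin N)))
    have henv : Integrable (fun q : PL (Term Kc N) => L * ((q.1 : ℝ) + N) + 3 * (p.1 : ℝ))
        (plaw c (μ.prod (unif (Fin Kc → Fin N)))) :=
      ((hlen.add (integrable_const _)).const_mul L).add (integrable_const _)
    have hsec : ∀ h, Integrable (fun q => rroot K L x ((q, h), p))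
        (plaw c (μ.prod (unif (Fin Kc → Fin N)))) := fun h =>
      ((integrable_const ((N : ℝ) * Real.log 2)).add henv).mono'
        (Measurable.comp (g := fun b => rroot K L x (b, p)) (f := fun q => (q, h)) hFp
          (measurable_id.prodMk measurable_const)).aestronglyMeasurable
        (ae_of_all _ fun q => abs_rroot_le hL x ((q, h), p))
    have hG : Measurable fun h => ∫ q, rroot K L x ((q, h), p)
        ∂plaw c (μ.prod (unif (Fin Kc → Fin N))) := by
      have h' : Measurable fun u : (Fin N → ℝ) × PL (Term Kc N) => rroot K L x ((u.2, u.1), p) :=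
        Measurable.comp (g := fun b => rroot K L x (b, p)) (f := Prod.swap) hFp measurable_swap
      exact h'.stronglyMeasurable.integral_prod_right'.measurable
    refine (dev_pi (d := 2 * L) (C := meanB L N c p.1) hG (fun h => ?_) (by positivity)
      fun h i u => ?_)
    · refine abs_integral_le_integral_abs.trans ((integral_mono (hsec h).abs
        ((integrable_const _).add henv) fun q => abs_rroot_le hL x ((q, h), p)).trans_eq ?_)
      have hlN : Integrable (fun q : PL (Term Kc N) => L * ((q.1 : ℝ) + N))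
          (plaw c (μ.prod (unif (Fin Kc → Fin N)))) := (hlen.add (integrable_const _)).const_mul L
      rw [integral_add' (integrable_const _) henv, integral_add hlN (integrable_const _),
        integral_const_mul L, integral_add hlen (integrable_const _), mean_len]
      simp [meanB]
    · rw [← integral_sub (hsec _) (hsec _)]
      exact (norm_integral_le_of_norm_le_const (C := 2 * L)
        (f := fun q => rroot K L x ((q, Function.update h i u), p) - rroot K L x ((q, h), p))
        (ae_of_all _ fun q => rroot_field_update hL x q h i u p)).trans (by simp)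

/-- The recursion deviates by the square root of the size of the root data. -/
theorem dev_rroot {L : ℝ} (hL : 0 ≤ L) (c s : ℝ≥0) (x : ℕ → ℝ) :
    ∫ z, |rroot K L x z - ∫ z', rroot K L x z' ∂rootLaw μ ν N c s| ∂rootLaw μ ν N c s ≤
      devC L N c s := by
  have hm : Measurable fun z : Base Kc N × Pert N => rroot K L x z := measurable_rroot_fix L x
  have h1 : Integrable (fun z : Base Kc N × Pert N => (z.1.1.1 : ℝ))
      (rootLaw μ ν N c s) :=
    ((integrable_len c (μ.prod (unif (Fin Kc → Fin N)))).comp_fst (Measure.pi fun _ => ν)).comp_fst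
      (plaw s (kindLaw.prod (unif (Fin N))))
  have h2 : Integrable (fun z : Base Kc N × Pert N => (z.2.1 : ℝ)) (rootLaw μ ν N c s) :=
    (integrable_len s (kindLaw.prod (unif (Fin N)))).comp_snd (baseLaw μ ν N c)
  have he : Integrable (fun z : Base Kc N × Pert N => env L z) (rootLaw μ ν N c s) :=
    (integrable_const _).add (((h1.add (integrable_const _)).const_mul L).add (h2.const_mul 3))
  have hint : Integrable (fun z : Base Kc N × Pert N => rroot K L x z) (rootLaw μ ν N c s) :=
    he.mono' hm.aestronglyMeasurable (ae_of_all _ fun z => abs_rroot_le hL x z)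
  refine dev_prod (α := baseLaw μ ν N c) hint (fun p => (dev_rroot_base μ ν hL c x p).2.2) ?_
  refine (dev_plaw (d := 6) ?_ (A := |N * Real.log 2 + L * (c + N)| + 3)
    (fun q => (dev_rroot_base μ ν hL c x q).2.1.trans ?_) (by norm_num)
    (fun k v i t => ?_) fun t q => ?_).trans_eq (by ring)
  · have h' : Measurable fun u : Pert N × Base Kc N => rroot K L x (u.2, u.1) :=
      Measurable.comp (g := fun z : Base Kc N × Pert N => rroot K L x z) (f := Prod.swap) hm
        measurable_swap
    exact h'.stronglyMeasurable.integral_prod_right'.measurable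
  · simp only [meanB]
    nlinarith [q.1.cast_nonneg (α := ℝ), le_abs_self (N * Real.log 2 + L * ((c : ℝ) + N)),
      abs_nonneg (N * Real.log 2 + L * ((c : ℝ) + N))]
  · rw [← integral_sub (dev_rroot_base μ ν hL c x _).1 (dev_rroot_base μ ν hL c x _).1]
    exact (norm_integral_le_of_norm_le_const (C := (6 : ℝ))
      (f := fun b => rroot K L x (b, ⟨k, Function.update v i t⟩) - rroot K L x (b, ⟨k, v⟩))
      (ae_of_all _ fun b => rroot_pert_update hL x b k v i t)).trans (by simp)
  · rw [← integral_sub (dev_rroot_base μ ν hL c x _).1 (dev_rroot_base μ ν hL c x _).1]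
    exact (norm_integral_le_of_norm_le_const (C := (6 : ℝ))
      (f := fun b => rroot K L x (b, PL.add t q) - rroot K L x (b, q))
      (ae_of_all _ fun b => rroot_pert_add hL x b t q)).trans (by simp)

end Dev

/-- Concentration on trees of large degree, averaged over any law of the parameters. -/
theorem log_conc (K : ℕ) : ∃ C : ℝ, ∀ (Kc N : ℕ), 0 < N → ∀ (μ : Measure (Clause Kc))
    (ν : Measure ℝ), IsProbabilityMeasure μ → IsProbabilityMeasure ν → ∀ L : ℝ, 0 ≤ L →
    ∀ (c s : ℝ≥0) (ρx : Measure (ℕ → ℝ)), IsProbabilityMeasure ρx → ∀ᶠ n in atTop,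
      ∫ q, ∫ W, ∫ ξ, |logS (mlev K) (Y0 (clX q.1) (clZ L q.2)) W ξ - cst (mlev K) n
          - rroot K L q.1 q.2| ∂P157.Casc.casX K n labLaw ∂P157.Casc.casW (mlev K) n
        ∂ρx.prod (rootLaw μ ν N c s) ≤ C := by
  obtain ⟨C, hC⟩ := P157.Casc.casc_conc (P157.Casc.grid_mlev K)
  refine ⟨C, fun Kc N hN μ ν _ _ L hL c s ρx _ => ?_⟩
  have : NeZero N := ⟨hN.ne'⟩
  have hconv : P157.Casc.Conv (ρx.prod (rootLaw μ ν N c s)) labLaw
      (fun (_ : ℕ) (q : (ℕ → ℝ) × (Base Kc N × Pert N)) (y : Fin K → Lab) =>
        Y0 (clX q.1) (clZ L q.2) y)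
      (fun q y => Y0 (clX q.1) (clZ L q.2) y) (fun q _ => env L q.2) := by
    refine ⟨fun _ => measurable_Y0_cl L, measurable_Y0_cl L,
      (measurable_env L).comp (measurable_snd.comp measurable_fst), fun _ q y => Y0_mem hL q.1 q.2 y,
      fun _ _ => tendsto_const_nhds, fun t => ?_⟩
    have e : (fun p : ((ℕ → ℝ) × (Base Kc N × Pert N)) × (Fin K → Lab) => Real.exp (t * env L p.1.2))
        = fun p => Real.exp (t * (N * Real.log 2 + L * N)) *
          (Real.exp (t * L * p.1.2.1.1.1) * Real.exp (t * 3 * p.1.2.2.1)) := by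
      funext p
      rw [← Real.exp_add, ← Real.exp_add, env]
      ring_nf
    rw [e]
    have hA : Integrable (fun z : Base Kc N × Pert N =>
        Real.exp (t * L * z.1.1.1) * Real.exp (t * 3 * z.2.1)) (rootLaw μ ν N c s) :=
      ((integrable_exp_len (c := c) (τ := μ.prod (unif (Fin Kc → Fin N))) (t * L)).comp_fst
        (Measure.pi fun _ => ν)).mul_prod (integrable_exp_len (c := s)
          (τ := kindLaw.prod (unif (Fin N))) (t * 3))
    exact ((hA.comp_snd ρx).comp_fst (Measure.pi fun _ : Fin K => labLaw)).const_mul _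
  exact hC _ _ _ _ _ labLaw inferInstance inferInstance _ _ _ hconv id tendsto_id

end Vale.Agent.P168
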