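import Vale.Agent.P157.Casc.Glue
import Vale.Agent.P157.Casc.InterpBase
import Vale.Agent.P157.Casc.Ultra.Avg
import Vale.Agent.P168.Conc.Log

/-!
P168: the perturbed system on one probability space, with everywhere positive and bounded weights,
and the laws of the parameters.
-/

open MeasureTheory ProbabilityTheory Filter Topology
open scoped NNReal ENNReal

noncomputable section

namespace Vale.Agent.P168

open P157.Casc (casc mlev cst logS Leaf Node wgt avg gibbs casW casX)

variable {Kc N K n : ℕ}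

/-- The root data, the weights of the vertices and their labels. -/
abbrev Env (Kc N K n : ℕ) : Type :=
  (Base Kc N × Pert N) × ((Node K n → ℝ) × (Node K n → Lab))

/-- States: a leaf and a configuration. -/
abbrev St (N K n : ℕ) : Type := Leaf K n × (Fin N → Bool)

instance casX_lab_prob : IsProbabilityMeasure (casX K n labLaw) := by
  unfold P157.Casc.casX; infer_instance

/-- The law of the environment. -/
def sysLaw (μ : Measure (Clause Kc)) (ν : Measure ℝ) (N : ℕ) (c s : ℝ≥0) (K n : ℕ) :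
    Measure (Env Kc N K n) :=
  (rootLaw μ ν N c s).prod ((casW (mlev K) n).prod (casX K n labLaw))

instance sysLaw_prob [NeZero N] (μ : Measure (Clause Kc)) (ν : Measure ℝ) [IsProbabilityMeasure μ]
    [IsProbabilityMeasure ν] (c s : ℝ≥0) :
    IsProbabilityMeasure (sysLaw μ ν N c s K n) := by
  unfold sysLaw; infer_instance

/-- Weights of vertices made positive. -/
def posW (W : Node K n → ℝ) : Node K n → ℝ := fun v => if 0 < W v then W v else 1

theorem posW_pos (W : Node K n → ℝ) (v : Node K n) : 0 < posW W v := by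
  unfold posW; split_ifs with h
  · exact h
  · exact one_pos

theorem measurable_posW : Measurable (posW (K := K) (n := n)) :=
  measurable_pi_lambda _ fun v => Measurable.ite
    (measurableSet_lt measurable_const (measurable_pi_apply v)) (measurable_pi_apply v)
    measurable_const

theorem posW_ae : ∀ᵐ W ∂casW (mlev K) n, posW W = W := by
  filter_upwards [P157.Casc.ae_casW_pos (mlev K) n] with W hW
  funext v
  simp [posW, hW v]

/-- The positive truncated weights of the states. -/
def sW (L : ℝ) (x : ℕ → ℝ) (q : Env Kc N K n) (st : St N K n) : ℝ :=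
  sysW (clX x) (clZ L q.1) (posW q.2.1) q.2.2 st

theorem sW_pos (L : ℝ) (x : ℕ → ℝ) (q : Env Kc N K n) (st : St N K n) : 0 < sW L x q st :=
  mul_pos (P157.Casc.wgt_pos _ (posW_pos _) _) (Real.exp_pos _)

theorem measurable_sW (L : ℝ) (st : St N K n) :
    Measurable fun p : (ℕ → ℝ) × Env Kc N K n => sW L p.1 p.2 st := by
  have h1 : Measurable fun p : (ℕ → ℝ) × Env Kc N K n => wgt (mlev K) (posW p.2.2.1) st.1 :=
    Measurable.comp (g := fun W : Node K n → ℝ => wgt (mlev K) W st.1)
      (f := fun p : (ℕ → ℝ) × Env Kc N K n => posW p.2.2.1)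
      (P157.Casc.measurable_wgt_leaf _ _)
      (measurable_posW.comp (measurable_fst.comp (measurable_snd.comp measurable_snd)))
  have hp : Measurable fun p : (ℕ → ℝ) × Env Kc N K n => P157.Casc.path p.2.2.2 st.1 :=
    (P157.Casc.measurable_path st.1).comp (measurable_snd.comp (measurable_snd.comp measurable_snd))
  have h2 : Measurable fun p : (ℕ → ℝ) × Env Kc N K n =>
      sysY (clX p.1) (clZ L p.2.1) (P157.Casc.path p.2.2.2 st.1) st.2 :=
    Measurable.comp (g := fun q : ((ℕ → ℝ) × (Base Kc N × Pert N)) × (Fin K → Lab) =>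
        sysY q.1.1 q.1.2 q.2 st.2)
      (f := fun p : (ℕ → ℝ) × Env Kc N K n =>
        ((clX p.1, clZ L p.2.1), P157.Casc.path p.2.2.2 st.1)) (measurable_sysY st.2)
      (((measurable_clX.comp measurable_fst).prodMk
        ((measurable_clZ L).comp (measurable_fst.comp measurable_snd))).prodMk hp)
  exact h1.mul h2

/-- The logarithm of the total weight. -/
def lsum (L : ℝ) (x : ℕ → ℝ) (q : Env Kc N K n) : ℝ := Real.log (∑ st, sW L x q st)

theorem measurable_lsum (L : ℝ) :
    Measurable fun p : (ℕ → ℝ) × Env Kc N K n => lsum L p.1 p.2 :=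
  Real.measurable_log.comp (Finset.measurable_sum Finset.univ
    (f := fun (st : St N K n) (p : (ℕ → ℝ) × Env Kc N K n) => sW L p.1 p.2 st)
    fun st _ => measurable_sW L st)

theorem lsum_eq (L : ℝ) (x : ℕ → ℝ) (q : Env Kc N K n) :
    lsum L x q = logS (mlev K) (Y0 (clX x) (clZ L q.1)) (posW q.2.1) q.2.2 :=
  sum_sysW (clX x) (clZ L q.1) (posW q.2.1) q.2.2

theorem clX_eq {x : ℕ → ℝ} (hx : ∀ j, x j ∈ Set.Icc (0 : ℝ) 3) : clX x = x :=
  funext fun j => cl_eq (hx j)

theorem clX_update {x : ℕ → ℝ} {j : ℕ} {t : ℝ} (ht : t ∈ Set.Icc (0 : ℝ) 3) :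
    clX (Function.update x j t) = Function.update (clX x) j t := by
  funext i
  by_cases h : i = j
  · subst h; simp [clX, cl_eq ht]
  · simp [clX, h]

variable [NeZero N] (μ : Measure (Clause Kc)) (ν : Measure ℝ) [IsProbabilityMeasure μ]
  [IsProbabilityMeasure ν]

theorem ae_plaw {T : Type} [MeasurableSpace T] {c : ℝ≥0} {τ : Measure T} [IsProbabilityMeasure τ]
    {S : Set T} (hS : MeasurableSet S) (h : ∀ᵐ t ∂τ, t ∈ S) :
    ∀ᵐ p ∂plaw c τ, ∀ i, p.2 i ∈ S := by
  have hm : MeasurableSet {p : PL T | ∀ i, p.2 i ∈ S} := by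
    refine MeasurableSpace.measurableSet_iInf.2 fun k => ?_
    show MeasurableSet {v : Fin k → T | ∀ i, v i ∈ S}
    rw [Set.ofPred_forall]
    exact MeasurableSet.iInter fun i => hS.preimage (measurable_pi_apply i)
  rw [plaw, Measure.ae_sum_iff]
  intro k
  refine Measure.ae_smul_measure ((ae_map_iff (measurable_mk k).aemeasurable hm).2 ?_) _
  exact ae_all_iff.2 fun i =>
    (measurePreserving_eval (μ := fun _ : Fin k => τ) i).quasiMeasurePreserving.ae h

/-- Bounded clauses and fields are not truncated. -/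
theorem ae_clZ {L : ℝ} (c s : ℝ≥0) (hμ : ∀ᵐ θ ∂μ, ∀ σ, |θ σ| ≤ L) (hν : ∀ᵐ h ∂ν, |h| ≤ L) :
    ∀ᵐ z ∂rootLaw μ ν N c s, clZ L z = z := by
  have hS : MeasurableSet {u : Term Kc N | ∀ σ, |u.1 σ| ≤ L} := by
    rw [Set.ofPred_forall]
    exact MeasurableSet.iInter fun σ =>
      measurableSet_le ((measurable_pi_apply σ).comp measurable_fst).norm measurable_const
  have h1 : ∀ᵐ p ∂plaw c (μ.prod (unif (Fin Kc → Fin N))), ∀ i, p.2 i ∈ {u : Term Kc N | ∀ σ, |u.1 σ| ≤ L} :=
    ae_plaw hS (Measure.quasiMeasurePreserving_fst.ae hμ)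
  have h2 : ∀ᵐ h ∂(Measure.pi fun _ : Fin N => ν), ∀ i, |h i| ≤ L := ae_all_iff.2 fun i =>
    (measurePreserving_eval (μ := fun _ : Fin N => ν) i).quasiMeasurePreserving.ae hν
  have h12 : ∀ᵐ b ∂(plaw c (μ.prod (unif (Fin Kc → Fin N)))).prod (Measure.pi fun _ : Fin N => ν),
      (∀ i σ, |(b.1.2 i).1 σ| ≤ L) ∧ ∀ i, |b.2 i| ≤ L :=
    (Measure.quasiMeasurePreserving_fst.ae h1).and (Measure.quasiMeasurePreserving_snd.ae h2)
  filter_upwards [Measure.quasiMeasurePreserving_fst.ae h12] with z hz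
  obtain ⟨⟨⟨k, v⟩, h⟩, p⟩ := z
  simp only [clZ, clB]
  congr 1
  refine Prod.ext ?_ (funext fun i => cl_eq (abs_le.1 (hz.2 i)))
  simp only [Sigma.mk.injEq, heq_eq_eq, true_and]
  funext i
  refine Prod.ext (funext fun σ => cl_eq (abs_le.1 (hz.1 i σ))) rfl

/-- For admissible parameters and bounded models the truncated weights are the weights. -/
theorem ae_sW_eq {L : ℝ} (c s : ℝ≥0) (hμ : ∀ᵐ θ ∂μ, ∀ σ, |θ σ| ≤ L) (hν : ∀ᵐ h ∂ν, |h| ≤ L)
    {x : ℕ → ℝ} (hx : ∀ j, x j ∈ Set.Icc (0 : ℝ) 3) :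
    ∀ᵐ q ∂sysLaw μ ν N c s K n, sW L x q = sysW x q.1 q.2.1 q.2.2 := by
  filter_upwards [Measure.quasiMeasurePreserving_fst.ae (ae_clZ μ ν c s hμ hν),
    Measure.quasiMeasurePreserving_snd.ae
      (Measure.quasiMeasurePreserving_fst.ae (posW_ae (K := K) (n := n)))] with q h1 h2
  funext st
  rw [sW, clX_eq hx, h1, h2]

theorem integrable_exp_env {L : ℝ} (c s : ℝ≥0) (t : ℝ) :
    Integrable (fun z : Base Kc N × Pert N => Real.exp (t * env L z)) (rootLaw μ ν N c s) := by
  have e : (fun z : Base Kc N × Pert N => Real.exp (t * env L z))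
      = fun z => Real.exp (t * (N * Real.log 2 + L * N)) *
        (Real.exp (t * L * z.1.1.1) * Real.exp (t * 3 * z.2.1)) := by
    funext z
    rw [← Real.exp_add, ← Real.exp_add, env]
    ring_nf
  rw [e]
  exact (((integrable_exp_len (c := c) (τ := μ.prod (unif (Fin Kc → Fin N))) (t * L)).comp_fst
    (Measure.pi fun _ => ν)).mul_prod (integrable_exp_len (c := s)
      (τ := kindLaw.prod (unif (Fin N))) (t * 3))).const_mul _

theorem integrable_env {L : ℝ} (c s : ℝ≥0) :
    Integrable (fun z : Base Kc N × Pert N => env L z) (rootLaw μ ν N c s) := by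
  refine ((integrable_exp_env μ ν (L := L) c s 1).add (integrable_exp_env μ ν (L := L) c s (-1))).mono'
    (measurable_env L).aestronglyMeasurable (ae_of_all _ fun z => ?_)
  simp only [Pi.add_apply, one_mul, neg_mul, Real.norm_eq_abs]
  have h1 := Real.add_one_le_exp (env L z)
  have h2 := Real.add_one_le_exp (-env L z)
  exact abs_le.2 ⟨by linarith [Real.exp_pos (env L z)], by linarith [Real.exp_pos (-env L z)]⟩

theorem conv_sys {L : ℝ} (hL : 0 ≤ L) (c s : ℝ≥0) (ρx : Measure (ℕ → ℝ))
    [IsProbabilityMeasure ρx] :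
    P157.Casc.Conv (ρx.prod (rootLaw μ ν N c s)) labLaw
      (fun (_ : ℕ) (q : (ℕ → ℝ) × (Base Kc N × Pert N)) (y : Fin K → Lab) =>
        Y0 (clX q.1) (clZ L q.2) y)
      (fun q y => Y0 (clX q.1) (clZ L q.2) y) (fun q _ => env L q.2) :=
  ⟨fun _ => measurable_Y0_cl L, measurable_Y0_cl L,
    (measurable_env L).comp (measurable_snd.comp measurable_fst), fun _ q y => Y0_mem hL q.1 q.2 y,
    fun _ _ => tendsto_const_nhds, fun t =>
      (((integrable_exp_env μ ν (L := L) c s t).comp_snd ρx).comp_fst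
        (Measure.pi fun _ : Fin K => labLaw))⟩

/-- The distance of the logarithm from its recursion, averaged. -/
def devA (L : ℝ) (c s : ℝ≥0) (K n : ℕ) (x : ℕ → ℝ) : ℝ :=
  ∫ q, |lsum L x q - cst (mlev K) n - rroot K L x q.1| ∂sysLaw μ ν N c s K n

theorem integrable_joint [NeZero n] {L : ℝ} (hL : 0 ≤ L) (c s : ℝ≥0) (ρx : Measure (ℕ → ℝ))
    [IsProbabilityMeasure ρx] :
    Integrable (fun p : (ℕ → ℝ) × Env Kc N K n => lsum L p.1 p.2)
        (ρx.prod (sysLaw μ ν N c s K n)) ∧
      Integrable (fun p : (ℕ → ℝ) × Env Kc N K n => rroot K L p.1 p.2.1)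
        (ρx.prod (sysLaw μ ν N c s K n)) := by
  refine ⟨?_, ?_⟩
  · have h := P157.Casc.integrable_logS (P157.Casc.grid_mlev K) (NeZero.pos n)
      (conv_sys μ ν (K := K) (N := N) hL c s ρx)
    have hmp := (measurePreserving_prodAssoc ρx (rootLaw μ ν N c s)
      ((casW (mlev K) n).prod (casX K n labLaw))).symm
    have h2 := hmp.integrable_comp_of_integrable h
    refine h2.congr ?_
    filter_upwards [Measure.quasiMeasurePreserving_snd.ae (Measure.quasiMeasurePreserving_snd.ae
      (Measure.quasiMeasurePreserving_fst.ae (posW_ae (K := K) (n := n))))] with p hp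
    simp only [Function.comp_apply, lsum_eq, hp]
    rfl
  · refine (((integrable_env μ ν (L := L) c s).comp_fst
      ((casW (mlev K) n).prod (casX K n labLaw))).comp_snd ρx).mono' ?_
      (ae_of_all _ fun p => abs_rroot_le hL p.1 p.2.1)
    exact (Measurable.comp (g := fun q : (ℕ → ℝ) × (Base Kc N × Pert N) => rroot K L q.1 q.2)
      (f := fun p : (ℕ → ℝ) × Env Kc N K n => (p.1, p.2.1)) (measurable_rroot L)
      (measurable_fst.prodMk (measurable_fst.comp measurable_snd))).aestronglyMeasurable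

theorem integrable_fix [NeZero n] {L : ℝ} (hL : 0 ≤ L) (c s : ℝ≥0) (x : ℕ → ℝ) :
    Integrable (fun q : Env Kc N K n => lsum L x q) (sysLaw μ ν N c s K n) ∧
      Integrable (fun q : Env Kc N K n => rroot K L x q.1) (sysLaw μ ν N c s K n) := by
  have h := integrable_joint (μ := μ) (ν := ν) (N := N) (K := K) (n := n) hL c s (Measure.dirac x)
  rw [Measure.dirac_prod] at h
  have hm : Measurable fun q : Env Kc N K n => (x, q) := measurable_const.prodMk measurable_id
  exact ⟨(integrable_map_measure h.1.aestronglyMeasurable hm.aemeasurable).1 h.1,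
    (integrable_map_measure h.2.aestronglyMeasurable hm.aemeasurable).1 h.2⟩

end Vale.Agent.P168
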