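import Vale.Agent.P168.Conc.Fluct

/-!
P168: averages over replicas of the perturbed system at uniform sites, and their symmetry under
renumbering of the perturbing clauses.
-/

open MeasureTheory ProbabilityTheory Filter Topology
open scoped NNReal ENNReal

noncomputable section

namespace Vale.Agent.P168

open P157.Casc (avg gibbs com path)

variable {Kc N K n r M : ℕ}

/-- Functions of the levels and spins of `r` replicas at `M` sites. -/
abbrev Tst (K r M : ℕ) : Type := Lvls K r → (Fin r → Fin M → Bool) → ℝ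

/-- A test at given sites. -/
def obs (g : Tst K r M) (site : Fin M → Fin N) (st : Fin r → St N K n) : ℝ :=
  g (fun a b => com (st a).1 (st b).1) fun a i => (st a).2 (site i)

/-- The average of a test at given sites. -/
def rep1 (L : ℝ) (x : ℕ → ℝ) (g : Tst K r M) (q : Env Kc N K n) (site : Fin M → Fin N) : ℝ :=
  avg (sW L x q) r (obs g site)

theorem measurable_avg_sW (L : ℝ) {F : (ℕ → ℝ) × Env Kc N K n → (Fin r → St N K n) → ℝ}
    (hF : ∀ st, Measurable fun p => F p st) :
    Measurable fun p : (ℕ → ℝ) × Env Kc N K n => avg (sW L p.1 p.2) r (F p) :=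
  Finset.measurable_sum Finset.univ
    (f := fun (st : Fin r → St N K n) (p : (ℕ → ℝ) × Env Kc N K n) =>
      (∏ i, gibbs (sW L p.1 p.2) (st i)) * F p st) fun st _ =>
    (Finset.measurable_prod Finset.univ
      (f := fun (i : Fin r) (p : (ℕ → ℝ) × Env Kc N K n) => gibbs (sW L p.1 p.2) (st i))
      fun i _ => measurable_gibbs L (st i)).mul (hF st)

theorem measurable_rep1 (L : ℝ) (g : Tst K r M) (site : Fin M → Fin N) :
    Measurable fun p : (ℕ → ℝ) × Env Kc N K n => rep1 L p.1 g p.2 site :=
  measurable_avg_sW L fun _ => measurable_const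

theorem abs_rep1 [NeZero n] (L : ℝ) (x : ℕ → ℝ) {g : Tst K r M} {B : ℝ}
    (hg : ∀ U σ, |g U σ| ≤ B) (q : Env Kc N K n) (site : Fin M → Fin N) :
    |rep1 L x g q site| ≤ B :=
  P157.Casc.abs_avg' (sW_pos L x q) fun _ => hg _ _

/-- An average over a finite uniform law. -/
theorem integral_unif {T : Type*} [Fintype T] [MeasurableSpace T] [MeasurableSingletonClass T]
    (f : T → ℝ) : ∫ t, f t ∂unif T = (Fintype.card T : ℝ)⁻¹ * ∑ t, f t := by
  rw [unif, integral_smul_nnreal_measure,
    MeasureTheory.integral_countable (Integrable.of_finite), tsum_fintype]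
  simp [NNReal.smul_def, Finset.mul_sum]

theorem pi_unif (M N : ℕ) :
    Measure.pi (fun _ : Fin M => unif (Fin N)) = unif (Fin M → Fin N) := by
  have : SigmaFinite (unif (Fin N)) := by unfold unif; infer_instance
  refine Measure.ext_of_singleton fun f => ?_
  rw [Measure.pi_singleton]
  simp only [unif, Measure.smul_apply, Measure.count_singleton, ENNReal.smul_def, smul_eq_mul,
    mul_one, Finset.prod_const, Finset.card_univ, Fintype.card_fin, Fintype.card_fun]
  rw [← ENNReal.coe_pow, inv_pow]
  push_cast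
  rfl

theorem measurable_unif_avg {Z T : Type*} [MeasurableSpace Z] [Fintype T] [MeasurableSpace T]
    [MeasurableSingletonClass T] {f : Z → T → ℝ} (hf : ∀ t, Measurable fun z => f z t) :
    Measurable fun z => ∫ t, f z t ∂unif T := by
  simp only [integral_unif]
  exact (Finset.measurable_sum _ fun t _ => hf t).const_mul _

theorem abs_unif_avg {T : Type*} [Fintype T] [Nonempty T] [MeasurableSpace T]
    [MeasurableSingletonClass T] {f : T → ℝ} {B : ℝ} (hf : ∀ t, |f t| ≤ B) :
    |∫ t, f t ∂unif T| ≤ B :=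
  (norm_integral_le_of_norm_le_const (C := B) (f := f) (ae_of_all _ hf)).trans (by simp)

/-- Renumbering of the labels along a permutation of the first `k` clauses. -/
def permI {k : ℕ} (e : Equiv.Perm (Fin k)) (m : ℕ) : ℕ :=
  if h : m.unpair.1 < k then Nat.pair (e ⟨m.unpair.1, h⟩) m.unpair.2 else m

theorem permI_pair {k : ℕ} (e : Equiv.Perm (Fin k)) (i : Fin k) (b : ℕ) :
    permI e (Nat.pair i b) = Nat.pair (e i) b := by
  simp [permI]

theorem permI_injective {k : ℕ} (e : Equiv.Perm (Fin k)) : Function.Injective (permI e) := by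
  have key : ∀ m, permI e.symm (permI e m) = m := fun m => by
    unfold permI
    by_cases h : m.unpair.1 < k
    · simp only [h, dite_true, Nat.unpair_pair, Fin.is_lt, Fin.eta, Equiv.symm_apply_apply,
        Nat.pair_unpair]
    · simp only [h, dite_false]
  exact fun a b h => by rw [← key a, ← key b, h]

theorem pertE_perm (x : ℕ → ℝ) {k : ℕ} (e : Equiv.Perm (Fin k)) (v : Fin k → ℕ × Fin N)
    (y : Fin K → Lab) (σ : Fin N → Bool) :
    pertE x ⟨k, v ∘ e⟩ (fun l m => y l (permI e m)) σ = pertE x ⟨k, v⟩ y σ := by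
  rw [pertE_eq, pertE_eq]
  refine (Finset.sum_congr rfl fun i _ => ?_).trans
    (Equiv.sum_comp e fun i => x (v i).1 * (beta (v i).1 * kS (v i).1 i (v i).2 y σ))
  simp only [Function.comp_apply, kS, flag, permI_pair]

/-- The environment with renumbered labels. -/
def permQ {k : ℕ} (e : Equiv.Perm (Fin k)) (w : (P157.Casc.Node K n → ℝ) × (P157.Casc.Node K n → Lab)) :
    (P157.Casc.Node K n → ℝ) × (P157.Casc.Node K n → Lab) :=
  (w.1, fun v m => w.2 v (permI e m))

theorem sW_perm (L : ℝ) (x : ℕ → ℝ) (b : Base Kc N) {k : ℕ} (e : Equiv.Perm (Fin k))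
    (v : Fin k → ℕ × Fin N) (w : (P157.Casc.Node K n → ℝ) × (P157.Casc.Node K n → Lab)) :
    sW L x ((b, ⟨k, v ∘ e⟩), permQ e w) = sW L x ((b, ⟨k, v⟩), w) := by
  funext st
  simp only [sW, sysW, sysY, clZ, permQ]
  congr 3
  exact pertE_perm (clX x) e v (path w.2 st.1) st.2

theorem mp_permQ {k : ℕ} (e : Equiv.Perm (Fin k)) :
    MeasurePreserving (permQ (K := K) (n := n) e)
      ((P157.Casc.casW (P157.Casc.mlev K) n).prod (P157.Casc.casX K n labLaw))
      ((P157.Casc.casW (P157.Casc.mlev K) n).prod (P157.Casc.casX K n labLaw)) :=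
  (MeasurePreserving.id _).prod
    (measurePreserving_pi (fun _ => labLaw) (fun _ => labLaw)
      fun _ => labLaw_reindex (permI_injective e))

variable [NeZero N] [NeZero n] (μ : Measure (Clause Kc)) (ν : Measure ℝ) [IsProbabilityMeasure μ]
  [IsProbabilityMeasure ν]

/-- Expected average of a test at uniform sites under the truncated weights. -/
def repM (L : ℝ) (c s : ℝ≥0) (K n : ℕ) (x : ℕ → ℝ) (g : Tst K r M) : ℝ :=
  ∫ q, ∫ site, rep1 L x g q site ∂unif (Fin M → Fin N) ∂sysLaw μ ν N c s K n

omit [NeZero N] [NeZero n] in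
theorem measurable_repInner (L : ℝ) (g : Tst K r M) :
    Measurable fun p : (ℕ → ℝ) × Env Kc N K n =>
      ∫ site, rep1 L p.1 g p.2 site ∂unif (Fin M → Fin N) :=
  measurable_unif_avg fun site => measurable_rep1 L g site

omit [NeZero n] in
theorem measurable_repM (L : ℝ) (c s : ℝ≥0) (g : Tst K r M) :
    Measurable fun x => repM (N := N) μ ν L c s K n x g :=
  (measurable_repInner L g).stronglyMeasurable.integral_prod_right'.measurable

theorem abs_repM (L : ℝ) (c s : ℝ≥0) (x : ℕ → ℝ) {g : Tst K r M} {B : ℝ}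
    (hg : ∀ U σ, |g U σ| ≤ B) : |repM (N := N) μ ν L c s K n x g| ≤ B :=
  (norm_integral_le_of_norm_le_const (C := B)
    (f := fun q => ∫ site, rep1 L x g q site ∂unif (Fin M → Fin N))
    (ae_of_all _ fun q => abs_unif_avg fun site => abs_rep1 L x hg q site)).trans (by simp)

theorem integrable_bdd {Z : Type*} [MeasurableSpace Z] {m : Measure Z} [IsFiniteMeasure m]
    {f : Z → ℝ} (hf : Measurable f) {B : ℝ} (hb : ∀ z, |f z| ≤ B) : Integrable f m :=
  (integrable_const B).mono' hf.aestronglyMeasurable (ae_of_all _ hb)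

/-- For admissible parameters this is the average of the system. -/
theorem sysRep_eq {L : ℝ} (c s : ℝ≥0) (hμ : ∀ᵐ θ ∂μ, ∀ σ, |θ σ| ≤ L) (hν : ∀ᵐ h ∂ν, |h| ≤ L)
    {x : ℕ → ℝ} (hx : ∀ j, x j ∈ Set.Icc (0 : ℝ) 3) (g : Tst K r M) :
    sysRep μ ν N c s K n x g = repM (N := N) μ ν L c s K n x g := by
  classical
  have hB : ∀ U σ, |g U σ| ≤ ∑ U, ∑ σ, |g U σ| := fun U σ =>
    (Finset.single_le_sum (f := fun σ => |g U σ|) (fun σ _ => abs_nonneg _) (Finset.mem_univ σ)).trans
      (Finset.single_le_sum (f := fun U => ∑ σ, |g U σ|)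
        (fun U _ => Finset.sum_nonneg fun σ _ => abs_nonneg _) (Finset.mem_univ U))
  set I : Env Kc N K n → ℝ := fun q => ∫ site, rep1 L x g q site ∂unif (Fin M → Fin N)
  have hI : Measurable I :=
    Measurable.comp (g := fun p : (ℕ → ℝ) × Env Kc N K n =>
        ∫ site, rep1 L p.1 g p.2 site ∂unif (Fin M → Fin N)) (f := fun q => (x, q))
      (measurable_repInner L g) (measurable_const.prodMk measurable_id)
  have hIi : Integrable I (sysLaw μ ν N c s K n) :=
    integrable_bdd hI fun q => abs_unif_avg fun site => abs_rep1 L x hB q site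
  show sysRep μ ν N c s K n x g = ∫ q, I q ∂sysLaw μ ν N c s K n
  rw [sysLaw] at hIi ⊢
  rw [integral_prod I hIi, sysRep]
  refine integral_congr_ae ?_
  filter_upwards [ae_clZ μ ν c s hμ hν, hIi.prod_right_ae] with z hz hzi
  rw [integral_prod (fun w => I (z, w)) hzi]
  refine integral_congr_ae ?_
  filter_upwards [posW_ae (K := K) (n := n)] with W hW
  refine integral_congr_ae (ae_of_all _ fun ξ => ?_)
  simp only [I]
  rw [pi_unif]
  refine integral_congr_ae (ae_of_all _ fun site => ?_)
  simp only [rep1]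
  refine congrArg₂ (fun u F => avg u r F) (funext fun st => ?_) rfl
  simp only [sW, clX_eq hx, hz, hW]

end Vale.Agent.P168
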