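import Vale.Agent.P168.Conc.FlAvg
import Vale.Agent.P168.Conc.Rep

/-!
P168: trees of large degree and parameters at which the energies of all kinds concentrate and the
levels of two replicas have their limiting law.
-/

open MeasureTheory ProbabilityTheory Filter Topology
open scoped NNReal ENNReal

noncomputable section

namespace Vale.Agent.P168

open P157.Casc (avg avg2 gibbs com path casW casX mlev cst logS wgt Leaf)

variable {Kc N K n : ℕ}

/-- The indicator of the level of two replicas. -/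
def gLev (K : ℕ) (l : Fin (K + 1)) : Tst K 2 0 := fun U _ => if U 0 1 = l then 1 else 0

theorem abs_gLev (l : Fin (K + 1)) (U : Lvls K 2) (σ : Fin 2 → Fin 0 → Bool) :
    |gLev K l U σ| ≤ 1 := by
  unfold gLev
  split_ifs <;> simp

theorem gibbs_fst [NeZero n] (L : ℝ) (x : ℕ → ℝ) (q : Env Kc N K n) (α : Leaf K n) :
    ∑ σ : Fin N → Bool, gibbs (sW L x q) (α, σ) =
      gibbs (fun α => wgt (mlev K) (posW q.2.1) α * Y0 (clX x) (clZ L q.1) (path q.2.2 α)) α := by
  simp only [gibbs, ← Finset.sum_div]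
  rw [Fintype.sum_prod_type]
  simp only [sW, sysW, Y0, Finset.mul_sum]

theorem rep1_gLev [NeZero n] (L : ℝ) (x : ℕ → ℝ) (l : Fin (K + 1)) (q : Env Kc N K n)
    (site : Fin 0 → Fin N) :
    rep1 L x (gLev K l) q site =
      avg2 (fun α => wgt (mlev K) (posW q.2.1) α * Y0 (clX x) (clZ L q.1) (path q.2.2 α))
        (fun α β => if com α β = l then (1 : ℝ) else 0) := by
  rw [rep1, show obs (gLev K l) site = fun st : Fin 2 → St N K n =>
      (fun s t : St N K n => if com s.1 t.1 = l then (1 : ℝ) else 0) (st 0) (st 1) from rfl,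
    P157.Casc.Itp.avg_two (sW_pos L x q) (by decide)
      fun s t : St N K n => if com s.1 t.1 = l then (1 : ℝ) else 0]
  simp only [avg2, ← gibbs_fst, Fintype.sum_prod_type, Finset.sum_mul, Finset.mul_sum]
  refine Finset.sum_congr rfl fun α _ => ?_
  rw [Finset.sum_comm]
  exact Finset.sum_congr rfl fun y _ => Finset.sum_comm

/-- Probability of a level of two replicas tends to the gap as the degree grows. -/
theorem level_tendsto [NeZero N] (μ : Measure (Clause Kc)) (ν : Measure ℝ)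
    [IsProbabilityMeasure μ] [IsProbabilityMeasure ν] {L : ℝ} (hL : 0 ≤ L) (c s : ℝ≥0)
    (x : ℕ → ℝ) (l : Fin (K + 1)) :
    Tendsto (fun n => repM (N := N) μ ν L c s K (n + 1) x (gLev K l)) atTop (𝓝 (gapK K)) := by
  have hm : Measurable fun p : (Base Kc N × Pert N) × (Fin K → Lab) =>
      Y0 (clX x) (clZ L p.1) p.2 :=
    Measurable.comp (g := fun q : ((ℕ → ℝ) × (Base Kc N × Pert N)) × (Fin K → Lab) =>
        Y0 (clX q.1.1) (clZ L q.1.2) q.2)
      (f := fun p : (Base Kc N × Pert N) × (Fin K → Lab) => ((x, p.1), p.2)) (measurable_Y0_cl L)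
      ((measurable_const.prodMk measurable_fst).prodMk measurable_snd)
  have hconv : P157.Casc.Conv (rootLaw μ ν N c s) labLaw
      (fun (_ : ℕ) (z : Base Kc N × Pert N) (y : Fin K → Lab) => Y0 (clX x) (clZ L z) y)
      (fun z y => Y0 (clX x) (clZ L z) y) (fun z _ => env L z) :=
    ⟨fun _ => hm, hm, (measurable_env L).comp measurable_fst, fun _ z y => Y0_mem hL x z y,
      fun _ _ => tendsto_const_nhds, fun t =>
        (integrable_exp_env μ ν (L := L) c s t).comp_fst (Measure.pi fun _ : Fin K => labLaw)⟩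
  have h := P157.Casc.casc_level (P157.Casc.grid_mlev K) hconv (tendsto_add_atTop_nat 1) l
  rw [P157.Casc.gap_mlev] at h
  refine h.congr fun k => ?_
  set I : Env Kc N K (k + 1) → ℝ := fun q =>
    ∫ site, rep1 L x (gLev K l) q site ∂unif (Fin 0 → Fin N)
  have hI : Measurable I :=
    Measurable.comp (g := fun p : (ℕ → ℝ) × Env Kc N K (k + 1) =>
        ∫ site, rep1 L p.1 (gLev K l) p.2 site ∂unif (Fin 0 → Fin N)) (f := fun q => (x, q))
      (measurable_repInner L (gLev K l)) (measurable_const.prodMk measurable_id)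
  have hIi : Integrable I (sysLaw μ ν N c s K (k + 1)) :=
    integrable_bdd hI fun q => abs_unif_avg fun site => abs_rep1 L x (abs_gLev l) q site
  show _ = ∫ q, I q ∂sysLaw μ ν N c s K (k + 1)
  rw [sysLaw] at hIi ⊢
  rw [integral_prod I hIi]
  refine integral_congr_ae ?_
  filter_upwards [hIi.prod_right_ae] with z hz
  rw [integral_prod (fun w => I (z, w)) hz]
  refine integral_congr_ae ?_
  filter_upwards [posW_ae (K := K) (n := k + 1)] with W hW
  refine integral_congr_ae (ae_of_all _ fun ξ => ?_)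
  simp only [I, rep1_gLev, integral_const, probReal_univ, one_smul, hW]

/-- Defect of the law of the level of two replicas. -/
def lvlDef (μ : Measure (Clause Kc)) (ν : Measure ℝ) (L : ℝ) (N : ℕ) (c s : ℝ≥0) (K n : ℕ)
    (x : ℕ → ℝ) : ℝ :=
  ∑ l : Fin (K + 1), |repM (N := N) μ ν L c s K n x (gLev K l) - gapK K|

variable [NeZero N] (μ : Measure (Clause Kc)) (ν : Measure ℝ) [IsProbabilityMeasure μ]
  [IsProbabilityMeasure ν]

theorem lvlDef_bdd [NeZero n] (L : ℝ) (c s : ℝ≥0) (x : ℕ → ℝ) :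
    |lvlDef μ ν L N c s K n x| ≤ (K + 1) * (1 + |gapK K|) := by
  rw [lvlDef, abs_of_nonneg (Finset.sum_nonneg fun _ _ => abs_nonneg _)]
  refine (Finset.sum_le_card_nsmul _ _ _ fun l _ => (abs_sub _ _).trans
    (add_le_add (abs_repM μ ν L c s x (abs_gLev l)) le_rfl)).trans_eq ?_
  rw [Finset.card_univ, Fintype.card_fin, nsmul_eq_mul]
  push_cast
  ring

theorem measurable_lvlDef (L : ℝ) (c s : ℝ≥0) :
    Measurable fun x => lvlDef μ ν L N c s K n x :=
  Finset.measurable_sum Finset.univ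
    (f := fun (l : Fin (K + 1)) (x : ℕ → ℝ) =>
      |repM (N := N) μ ν L c s K n x (gLev K l) - gapK K|)
    fun l _ => ((measurable_repM μ ν L c s (gLev K l)).sub_const _).norm

theorem lvlDef_avg {L : ℝ} (hL : 0 ≤ L) (c s : ℝ≥0) {ε : ℝ} (hε : 0 < ε) :
    ∀ᶠ n in atTop, ∫ x, lvlDef μ ν L N c s K (n + 1) x ∂xLaw ≤ ε := by
  have h : Tendsto (fun n => ∫ x, lvlDef μ ν L N c s K (n + 1) x ∂xLaw) atTop
      (𝓝 (∫ _x : ℕ → ℝ, (0 : ℝ) ∂xLaw)) := by
    refine tendsto_integral_of_dominated_convergence (fun _ => (K + 1) * (1 + |gapK K|))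
      (fun n => (measurable_lvlDef μ ν L c s).aestronglyMeasurable) (integrable_const _)
      (fun n => ae_of_all _ fun x => lvlDef_bdd μ ν L c s x) (ae_of_all _ fun x => ?_)
    have := tendsto_finsetSum Finset.univ fun (l : Fin (K + 1)) _ =>
      ((level_tendsto μ ν (N := N) hL c s x l).sub_const (gapK K)).abs
    simpa [lvlDef] using this
  rw [integral_zero] at h
  exact h.eventually (eventually_le_nhds hε)

theorem devA_avg {L : ℝ} (hL : 0 ≤ L) (K : ℕ) {C : ℝ}
    (hC : ∀ (Kc N : ℕ), 0 < N → ∀ (μ : Measure (Clause Kc))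
      (ν : Measure ℝ), IsProbabilityMeasure μ → IsProbabilityMeasure ν → ∀ L : ℝ, 0 ≤ L →
      ∀ (c s : ℝ≥0) (ρx : Measure (ℕ → ℝ)), IsProbabilityMeasure ρx → ∀ᶠ n in atTop,
        ∫ q, ∫ W, ∫ ξ, |logS (mlev K) (Y0 (clX q.1) (clZ L q.2)) W ξ - cst (mlev K) n
            - rroot K L q.1 q.2| ∂casX K n labLaw ∂casW (mlev K) n
          ∂ρx.prod (rootLaw μ ν N c s) ≤ C)
    (c s : ℝ≥0) (j : ℕ) :
    ∀ᶠ n in atTop, ∫ x, devA (N := N) μ ν L c s K (n + 1) x ∂xWide j ≤ C := by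
  have h := (tendsto_add_atTop_nat 1).eventually
    (hC Kc N (NeZero.pos N) μ ν inferInstance inferInstance L hL c s (xWide j) inferInstance)
  filter_upwards [h] with k hk
  exact devA_le μ ν hL c s (xWide j) hk

omit [NeZero N] in
theorem rate_tendsto (A : ℝ) :
    Tendsto (fun N : ℕ => A * (N : ℝ) ^ (-(1 / 8 : ℝ)) + 1 / ((N : ℝ) + 1)) atTop (𝓝 0) := by
  have h1 := ((tendsto_rpow_neg_atTop (by norm_num : (0 : ℝ) < 1 / 8)).comp
    tendsto_natCast_atTop_atTop).const_mul A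
  have h2 : Tendsto (fun N : ℕ => 1 / ((N : ℝ) + 1)) atTop (𝓝 0) :=
    tendsto_one_div_add_atTop_nhds_zero_nat
  simpa using h1.add h2

omit [NeZero N] in
theorem rate_le {L Λ C : ℝ} (hL : 0 ≤ L) {N : ℕ} (hN : 1 ≤ N) {c : ℝ≥0}
    (hc : (c : ℝ) ≤ Λ * N) (hC : 0 ≤ C) :
    2 * (Real.log 2 + ((N : ℝ) ^ (-(1 / 8 : ℝ)) / 2) ^ 2 * pertS N + 18 * C
        + 6 * devC L N c (pertS N)) / ((N : ℝ) ^ (-(1 / 8 : ℝ)) / 2) / pertS N ≤
      (4 * (Real.log 2 + 18 * C + 6 * (6 * L * √|Λ| + 2 * L + 18)) + 1) * (N : ℝ) ^ (-(1 / 8 : ℝ)) := by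
  set a := (N : ℝ) ^ (-(1 / 8 : ℝ))
  have hN0 : (0 : ℝ) < N := by exact_mod_cast hN
  have hN1 : (1 : ℝ) ≤ N := by exact_mod_cast hN
  have hs : (pertS N : ℝ) = (N : ℝ) ^ (3 / 4 : ℝ) :=
    Real.coe_toNNReal _ (Real.rpow_nonneg hN0.le _)
  have ha : 0 < a := Real.rpow_pos_of_pos hN0 _
  have hq : 0 < √(N : ℝ) := Real.sqrt_pos.2 hN0
  have hq1 : 1 ≤ √(N : ℝ) := by simpa using Real.sqrt_le_sqrt hN1
  have hsp : 0 < (pertS N : ℝ) := by rw [hs]; exact Real.rpow_pos_of_pos hN0 _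
  have key : √(N : ℝ) = a * (pertS N : ℝ) * a := by
    rw [hs, Real.sqrt_eq_rpow, ← Real.rpow_add hN0, ← Real.rpow_add hN0]
    norm_num
  have hdev : devC L N c (pertS N) ≤ (6 * L * √|Λ| + 2 * L + 18) * √(N : ℝ) := by
    have h1 : √(c : ℝ) ≤ √|Λ| * √(N : ℝ) := by
      rw [← Real.sqrt_mul (abs_nonneg _)]
      exact Real.sqrt_le_sqrt (hc.trans (mul_le_mul_of_nonneg_right (le_abs_self _) hN0.le))
    have h2 : √(pertS N : ℝ) ≤ √(N : ℝ) := by
      refine Real.sqrt_le_sqrt ?_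
      rw [hs]
      calc (N : ℝ) ^ (3 / 4 : ℝ) ≤ (N : ℝ) ^ (1 : ℝ) :=
            Real.rpow_le_rpow_of_exponent_le hN1 (by norm_num)
        _ = N := Real.rpow_one _
    simp only [devC]
    nlinarith [mul_le_mul_of_nonneg_left h1 (by positivity : (0 : ℝ) ≤ 6 * L)]
  set D := 6 * L * √|Λ| + 2 * L + 18
  have hnum : Real.log 2 + 18 * C + 6 * devC L N c (pertS N) ≤
      (Real.log 2 + 18 * C + 6 * D) * √(N : ℝ) := by
    have := Real.log_nonneg (by norm_num : (1 : ℝ) ≤ 2)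
    nlinarith
  rw [key] at hnum
  rw [div_le_iff₀ hsp, div_le_iff₀ (by positivity)]
  nlinarith

/-- Degrees and parameters with all defects tending to zero. -/
theorem exists_choice (μ : Measure (Clause Kc)) (ν : Measure ℝ) [IsProbabilityMeasure μ]
    [IsProbabilityMeasure ν] {L : ℝ} (hL : 0 ≤ L) (K : ℕ) (Λ : ℝ) (c : ℕ → ℝ≥0)
    (hc : ∀ N, (c N : ℝ) ≤ Λ * N) (nmin : ℕ → ℕ) :
    ∃ n : ℕ → ℕ, (∀ N, nmin N ≤ n N) ∧ (∀ N, 1 ≤ n N) ∧
      ∀ (obj : ℕ → (ℕ → ℝ) → ℝ), (∃ B, ∀ N x, |obj N x| ≤ B) → (∀ N, Measurable (obj N)) →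
        ∀ ε : ℝ, 0 < ε → ∃ x : ℕ → ℕ → ℝ, (∀ N j, x N j ∈ Set.Icc (1 : ℝ) 2) ∧
          (∀ᶠ N in atTop, obj N (x N) ≤ (∫ y, obj N y ∂xLaw) + ε) ∧
          (∀ j, Tendsto (fun N => fl (N := N) μ ν L (c N) (pertS N) K (n N) j (x N) / pertS N)
            atTop (𝓝 0)) ∧
          ∀ l, Tendsto (fun N => repM (N := N) μ ν L (c N) (pertS N) K (n N) (x N) (gLev K l))
            atTop (𝓝 (gapK K)) := by
  obtain ⟨C0, hC0⟩ := log_conc K
  set C := max C0 0
  have hn : ∀ N, ∃ m, nmin N ≤ m + 1 ∧ (1 ≤ N →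
      (∫ x, lvlDef μ ν L N (c N) (pertS N) K (m + 1) x ∂xLaw ≤ 1 / ((N : ℝ) + 1)) ∧
      ∀ j ∈ Finset.range N,
        ∫ x, devA (N := N) μ ν L (c N) (pertS N) K (m + 1) x ∂xWide j ≤ C) := by
    intro N
    by_cases hN : 1 ≤ N
    · have : NeZero N := ⟨by omega⟩
      have h1 := lvlDef_avg (K := K) μ ν (N := N) hL (c N) (pertS N)
        (ε := 1 / ((N : ℝ) + 1)) (by positivity)
      have h2 : ∀ᶠ m in atTop, ∀ j ∈ Finset.range N,
          ∫ x, devA (N := N) μ ν L (c N) (pertS N) K (m + 1) x ∂xWide j ≤ C :=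
        (Finset.range N).eventually_all.2 fun j _ =>
          (devA_avg μ ν hL K hC0 (c N) (pertS N) j).mono fun m hm => hm.trans (le_max_left _ _)
      obtain ⟨m, hm⟩ := ((h1.and h2).and (eventually_ge_atTop (nmin N))).exists
      exact ⟨m, by omega, fun _ => hm.1⟩
    · exact ⟨nmin N, Nat.le_succ _, fun h => absurd h hN⟩
  choose m hm1 hm2 using hn
  refine ⟨fun N => m N + 1, hm1, fun N => Nat.le_add_left 1 (m N),
    fun obj ⟨B, hB⟩ hobj ε hε => ?_⟩
  set b : ℕ → ℝ := fun N => (4 * (Real.log 2 + 18 * C + 6 * (6 * L * √|Λ| + 2 * L + 18)) + 1)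
    * (N : ℝ) ^ (-(1 / 8 : ℝ)) + 1 / ((N : ℝ) + 1)
  have hb : Tendsto b atTop (𝓝 0) := rate_tendsto _
  set D : ℕ → (ℕ → ℝ) → ℝ := fun N x => (∑ j ∈ Finset.range N, ((2 : ℝ) ^ (j + 1))⁻¹ *
    (fl (N := N) μ ν L (c N) (pertS N) K (m N + 1) j x / pertS N)) +
    lvlDef μ ν L N (c N) (pertS N) K (m N + 1) x
  have hD0 : ∀ N x, 0 ≤ D N x := fun N x =>
    add_nonneg (Finset.sum_nonneg fun j _ => mul_nonneg (by positivity)
      (div_nonneg (fl_nonneg μ ν L (c N) (pertS N) j x) (pertS N).coe_nonneg))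
      (Finset.sum_nonneg fun _ _ => abs_nonneg _)
  have hx : ∀ N, ∃ x : ℕ → ℝ, (∀ j, x j ∈ Set.Icc (1 : ℝ) 2) ∧
      (1 ≤ N → obj N x ≤ (∫ y, obj N y ∂xLaw) + √(b N) ∧ D N x ≤ √(b N) * (2 * B + √(b N))) := by
    intro N
    by_cases hN : 1 ≤ N
    swap
    · exact ⟨fun _ => 1, fun _ => ⟨le_rfl, by norm_num⟩, fun h => absurd h hN⟩
    have : NeZero N := ⟨by omega⟩
    have hN0 : (0 : ℝ) < N := by exact_mod_cast hN
    have hN1 : (1 : ℝ) ≤ N := by exact_mod_cast hN
    have hs : (0 : ℝ) < pertS N := by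
      rw [pertS, Real.coe_toNNReal _ (Real.rpow_nonneg hN0.le _)]
      exact Real.rpow_pos_of_pos hN0 _
    set δ := (N : ℝ) ^ (-(1 / 8 : ℝ)) / 2
    have hδ : 0 < δ := by positivity
    have hδ1 : δ ≤ 1 / 2 := by
      have := Real.rpow_le_one_of_one_le_of_nonpos hN1 (by norm_num : -(1 / 8 : ℝ) ≤ 0)
      simp only [δ]
      linarith
    have hfi : ∀ j, Integrable (fun x => fl (N := N) μ ν L (c N) (pertS N) K (m N + 1) j x) xLaw :=
      fun j => integrable_bdd (measurable_fl μ ν L (c N) (pertS N) j) fun x =>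
        fl_bdd μ ν L (c N) (pertS N) j x
    have hli : Integrable (fun x => lvlDef μ ν L N (c N) (pertS N) K (m N + 1) x) xLaw :=
      integrable_bdd (measurable_lvlDef μ ν L (c N) (pertS N)) fun x =>
        lvlDef_bdd μ ν L (c N) (pertS N) x
    have hsi : Integrable (fun x => ∑ j ∈ Finset.range N, ((2 : ℝ) ^ (j + 1))⁻¹ *
        (fl (N := N) μ ν L (c N) (pertS N) K (m N + 1) j x / pertS N)) xLaw :=
      integrable_finsetSum _ fun j _ => ((hfi j).div_const _).const_mul _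
    have hDi : Integrable (D N) xLaw := hsi.add hli
    set R := (4 * (Real.log 2 + 18 * C + 6 * (6 * L * √|Λ| + 2 * L + 18)) + 1)
      * (N : ℝ) ^ (-(1 / 8 : ℝ))
    have hR : 0 ≤ R := by
      have := Real.log_nonneg (by norm_num : (1 : ℝ) ≤ 2)
      have := le_max_right C0 0
      positivity
    have hsum : ∑ j ∈ Finset.range N, ((2 : ℝ) ^ (j + 1))⁻¹ ≤ 1 := by
      have e : ∀ M : ℕ, ∑ j ∈ Finset.range M, ((2 : ℝ) ^ (j + 1))⁻¹ = 1 - ((2 : ℝ) ^ M)⁻¹ := by
        intro M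
        induction M with
        | zero => simp
        | succ M ih =>
          rw [Finset.sum_range_succ, ih, pow_succ]
          ring
      rw [e]
      have : 0 ≤ ((2 : ℝ) ^ N)⁻¹ := by positivity
      linarith
    have hDb : ∫ x, D N x ∂xLaw ≤ b N := by
      simp only [D]
      rw [integral_add hsi hli,
        integral_finsetSum _ fun j _ => ((hfi j).div_const _).const_mul _]
      refine add_le_add ((Finset.sum_le_sum (g := fun j => ((2 : ℝ) ^ (j + 1))⁻¹ * R) fun j hj => ?_).trans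
        ?_) (hm2 N hN).1
      · rw [integral_const_mul, integral_div]
        refine mul_le_mul_of_nonneg_left ?_ (by positivity)
        refine (div_le_div_of_nonneg_right (fl_avg μ ν hL (c N) (pertS N) j hδ hδ1
          ((hm2 N hN).2 j hj)) hs.le).trans (rate_le hL hN (hc N) (le_max_right _ _))
      · rw [← Finset.sum_mul]
        exact mul_le_of_le_one_left hR hsum
    have hb0 : 0 < b N := by
      have : (0 : ℝ) < 1 / ((N : ℝ) + 1) := by positivity
      have e : b N = R + 1 / ((N : ℝ) + 1) := rfl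
      linarith
    have hbs : 0 < √(b N) := Real.sqrt_pos.2 hb0
    set f := fun x => obj N x + (√(b N))⁻¹ * D N x
    have hfi' : Integrable f xLaw := (integrable_bdd (hobj N) (hB N)).add (hDi.const_mul _)
    have hnull : xLaw {x | ¬∀ j, x j ∈ Set.Icc (1 : ℝ) 2} = 0 := by
      have h : ∀ᵐ x ∂xLaw, ∀ j, x j ∈ Set.Icc (1 : ℝ) 2 := ae_all_iff.2 fun j =>
        (measurePreserving_eval_infinitePi (fun _ : ℕ => volume.restrict (Set.Icc (1 : ℝ) 2))
          j).quasiMeasurePreserving.ae (ae_restrict_mem measurableSet_Icc)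
      exact ae_iff.1 h
    obtain ⟨x, hxn, hfx⟩ := exists_notMem_null_le_integral hfi' hnull
    refine ⟨x, by simpa using hxn, fun _ => ?_⟩
    have hfint : ∫ y, f y ∂xLaw ≤ (∫ y, obj N y ∂xLaw) + √(b N) := by
      simp only [f]
      rw [integral_add (integrable_bdd (hobj N) (hB N)) (hDi.const_mul _), integral_const_mul]
      refine add_le_add le_rfl ((mul_le_mul_of_nonneg_left hDb (by positivity)).trans_eq ?_)
      rw [inv_mul_eq_div, Real.div_sqrt]
    have hfx' : obj N x + (√(b N))⁻¹ * D N x ≤ (∫ y, obj N y ∂xLaw) + √(b N) := hfx.trans hfint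
    have hp : 0 ≤ (√(b N))⁻¹ * D N x := mul_nonneg (by positivity) (hD0 N x)
    refine ⟨by linarith, ?_⟩
    have hI : |∫ y, obj N y ∂xLaw| ≤ B :=
      (norm_integral_le_of_norm_le_const (f := obj N) (C := B) (ae_of_all _ (hB N))).trans (by simp)
    rw [← inv_mul_le_iff₀ hbs]
    linarith [abs_le.1 hI, abs_le.1 (hB N x)]
  choose x hx1 hx2 using hx
  have hsb : Tendsto (fun N => √(b N)) atTop (𝓝 0) := by
    simpa using hb.sqrt
  have hD : Tendsto (fun N => D N (x N)) atTop (𝓝 0) := by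
    have h2 : Tendsto (fun N => √(b N) * (2 * B + √(b N))) atTop (𝓝 0) := by
      simpa using hsb.mul (hsb.const_add (2 * B))
    refine squeeze_zero' (Eventually.of_forall fun N => hD0 N (x N)) ?_ h2
    filter_upwards [eventually_ge_atTop 1] with N hN using (hx2 N hN).2
  refine ⟨x, hx1, ?_, fun j => ?_, fun l => ?_⟩
  · filter_upwards [eventually_ge_atTop 1, hsb.eventually (eventually_le_nhds hε)] with N hN hN'
    linarith [(hx2 N hN).1]
  · refine squeeze_zero' (Eventually.of_forall fun N => div_nonneg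
      (fl_nonneg μ ν L (c N) (pertS N) j (x N)) (pertS N).coe_nonneg) ?_
      (g := fun N => (2 : ℝ) ^ (j + 1) * D N (x N)) (by simpa using hD.const_mul _)
    filter_upwards [eventually_gt_atTop j] with N hN
    rw [← inv_mul_le_iff₀ (by positivity)]
    exact (Finset.single_le_sum (f := fun i => ((2 : ℝ) ^ (i + 1))⁻¹ *
      (fl (N := N) μ ν L (c N) (pertS N) K (m N + 1) i (x N) / pertS N))
      (fun i _ => mul_nonneg (by positivity)
        (div_nonneg (fl_nonneg μ ν L (c N) (pertS N) i (x N)) (pertS N).coe_nonneg))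
      (Finset.mem_range.2 hN)).trans
      (le_add_of_nonneg_right (Finset.sum_nonneg fun _ _ => abs_nonneg _))
  · rw [tendsto_iff_norm_sub_tendsto_zero]
    refine squeeze_zero (fun N => norm_nonneg _) (fun N => ?_) hD
    exact (Finset.single_le_sum (f := fun l =>
      |repM (N := N) μ ν L (c N) (pertS N) K (m N + 1) (x N) (gLev K l) - gapK K|)
      (fun _ _ => abs_nonneg _) (Finset.mem_univ l)).trans
      (le_add_of_nonneg_left (Finset.sum_nonneg fun i _ => mul_nonneg (by positivity)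
        (div_nonneg (fl_nonneg μ ν L (c N) (pertS N) i (x N)) (pertS N).coe_nonneg)))

end Vale.Agent.P168
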