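import Vale.Agent.P168.Conc.Tilt

/-!
P168: the tilted average as a polynomial in `b` with averages over replicas as coefficients.
-/

open MeasureTheory ProbabilityTheory Filter Topology
open scoped NNReal ENNReal

noncomputable section

namespace Vale.Agent.P168

open P157.Casc (avg gibbs com path casW casX mlev)

variable {Kc N K n r M m k : ℕ}

/-- The spin factor of a kind. -/
def spinF (P : PKind) (s : Bool) : ℝ := if P.2.2.2 then sgn s else 1

theorem abs_spinF (P : PKind) (s : Bool) : |spinF P s| = 1 := by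
  unfold spinF
  split_ifs
  · cases s <;> simp [sgn]
  · exact abs_one

theorem xS_eq (j : ℕ) (s0 : Fin N) (q : Env Kc N K n) (st : St N K n) :
    xS j s0 q st = flagF (pkind j) (path (fun v => fresh (q.2.2 v)) st.1) *
      spinF (pkind j) (st.2 s0) := rfl

/-- The marked old replicas followed by the new ones. -/
def mIdx (O : Finset (Fin m)) (k : ℕ) : Fin (O.card + k) → Fin (m + k) :=
  Fin.append (fun i => Fin.castAdd k (O.orderEmbOfFin rfl i)) (Fin.natAdd m)

/-- The test with the marked replicas. -/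
def markT (P : PKind) (g : Tst K m M) (O : Finset (Fin m)) (k : ℕ) : Tst K (m + k) (M + 1) :=
  fun U σ => g (fun a b => U (Fin.castAdd k a) (Fin.castAdd k b))
      (fun a i => σ (Fin.castAdd k a) i.succ) *
    (flagC P (fun a b => U (mIdx O k a) (mIdx O k b)) * ∏ i, spinF P (σ (mIdx O k i) 0))

theorem abs_markT (P : PKind) {g : Tst K m M} {B : ℝ} (hg : ∀ U σ, |g U σ| ≤ B)
    (O : Finset (Fin m)) (k : ℕ) (U : Lvls K (m + k)) (σ : Fin (m + k) → Fin (M + 1) → Bool) :
    |markT P g O k U σ| ≤ B := by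
  have hB : 0 ≤ B := (abs_nonneg _).trans (hg (fun _ _ => 0) fun _ _ => true)
  rw [markT, abs_mul, abs_mul, Finset.abs_prod, Finset.prod_eq_one fun i _ => abs_spinF P _,
    mul_one]
  exact (mul_le_mul (hg _ _) (abs_flagC P _) (abs_nonneg _) hB).trans_eq (mul_one B)

/-- Products of marks as averages over more replicas. -/
theorem avg_mark {T : Type*} [Fintype T] {u : T → ℝ} (G : (Fin m → T) → ℝ) (X : T → ℝ)
    (O : Finset (Fin m)) (k : ℕ) :
    avg u m (fun st => G st * ∏ a ∈ O, X (st a)) * (∑ t, gibbs u t * X t) ^ k =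
      avg u (m + k) (fun st => G (fun a => st (Fin.castAdd k a)) * ∏ i, X (st (mIdx O k i))) := by
  have e : ∀ (y : Fin m → T) (w : Fin k → T),
      G (fun a => Fin.append y w (Fin.castAdd k a)) * ∏ i, X (Fin.append y w (mIdx O k i)) =
        (G y * ∏ a ∈ O, X (y a)) * ∏ i : Fin k, X (w i) := fun y w => by
    rw [Fin.prod_univ_add]
    simp only [mIdx, Fin.append_left, Fin.append_right]
    have hO : ∏ i, X (y (O.orderEmbOfFin rfl i)) = ∏ a ∈ O, X (y a) := by
      conv_rhs => rw [← Finset.map_orderEmbOfFin_univ O rfl, Finset.prod_map]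
      rfl
    rw [hO, mul_assoc]
  have hp : avg u k (fun w => ∏ i, X (w i)) = (∑ t, gibbs u t * X t) ^ k := by
    rw [P157.Casc.avg_prod' k fun _ => X, Finset.prod_const, Finset.card_univ, Fintype.card_fin]
  rw [P157.Casc.avg_append' m k]
  simp only [e, P157.Casc.avg_smul', hp]
  rw [mul_comm, ← P157.Casc.avg_smul']
  congr 1
  funext y
  ring

theorem choose_geom_trunc {m b : ℝ} (hm : |m| ≤ 1) (hb0 : 0 ≤ b) (hb : b ≤ 1 / 2) (r Q : ℕ) :
    |((1 + b * m) ^ (r + 1))⁻¹ - ∑ i ∈ Finset.range (Q + 1), ((i + r).choose r : ℝ) * (-(b * m)) ^ i|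
      ≤ 2 ^ (r + 1) * (2 * b) ^ (Q + 1) := by
  have hy : ‖-(b * m)‖ < 1 := by
    rw [Real.norm_eq_abs, abs_neg, abs_mul, abs_of_nonneg hb0]
    nlinarith
  have hh : ‖(1 / 2 : ℝ)‖ < 1 := by norm_num
  set f : ℕ → ℝ := fun i => ((i + r).choose r : ℝ) * (-(b * m)) ^ i
  set w : ℕ → ℝ := fun i => ((i + r).choose r : ℝ) * (1 / 2 : ℝ) ^ i
  have hf : HasSum f ((1 + b * m) ^ (r + 1))⁻¹ := by
    have h := hasSum_choose_mul_geometric_of_norm_lt_one' r hy
    rw [Ring.inverse_eq_inv', sub_neg_eq_add, inv_pow] at h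
    exact h
  have hw : HasSum w (2 ^ (r + 1)) := by
    have h := hasSum_choose_mul_geometric_of_norm_lt_one' r hh
    rw [Ring.inverse_eq_inv', show ((1 : ℝ) - 1 / 2)⁻¹ = 2 by norm_num] at h
    exact h
  have h1 := (hasSum_nat_add_iff' (Q + 1)).2 hf
  rw [← Real.norm_eq_abs, ← h1.tsum_eq]
  have h2 := ((hasSum_nat_add_iff' (Q + 1)).2 hw).mul_left ((2 * b) ^ (Q + 1))
  refine (tsum_of_norm_bounded h2 fun i => ?_).trans ?_
  · simp only [f, w, norm_mul, norm_pow, Real.norm_eq_abs, abs_neg, Nat.abs_cast]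
    rw [abs_mul, abs_of_nonneg hb0]
    rw [mul_left_comm ((2 * b) ^ (Q + 1))]
    refine mul_le_mul_of_nonneg_left ?_ (Nat.cast_nonneg _)
    calc (b * |m|) ^ (i + (Q + 1)) ≤ ((1 / 2) * (2 * b)) ^ (i + (Q + 1)) := by
          refine pow_le_pow_left₀ (by positivity) ?_ _
          nlinarith
      _ = (1 / 2) ^ (i + (Q + 1)) * (2 * b) ^ (i + (Q + 1)) := mul_pow _ _ _
      _ ≤ (1 / 2) ^ (i + (Q + 1)) * (2 * b) ^ (Q + 1) :=
          mul_le_mul_of_nonneg_left (pow_le_pow_of_le_one (a := 2 * b) (by linarith) (by linarith) (by omega))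
            (by positivity)
      _ = _ := mul_comm _ _
  · rw [mul_comm _ ((2 * b) ^ (Q + 1))]
    exact mul_le_mul_of_nonneg_left (sub_le_self _ (Finset.sum_nonneg fun i _ => by positivity))
      (by positivity)

/-- The marked replicas of a set of later replicas. -/
def markSet (S : Finset (Fin r)) : Finset (Fin (r + 1)) := insert 0 (S.map (Fin.succEmb r))

theorem prod_markSet (S : Finset (Fin r)) (X : Fin (r + 1) → ℝ) :
    ∏ a ∈ markSet S, X a = X 0 * ∏ a ∈ S, X a.succ := by
  rw [markSet, Finset.prod_insert (by simp [Fin.succ_ne_zero]), Finset.prod_map]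
  rfl

variable [NeZero N] [NeZero n] (μ : Measure (Clause Kc)) (ν : Measure ℝ) [IsProbabilityMeasure μ]
  [IsProbabilityMeasure ν]

omit [NeZero N] in
theorem cons_sites (F : Fin N → (Fin M → Fin N) → ℝ) :
    ∫ s0, ∫ site, F s0 site ∂unif (Fin M → Fin N) ∂unif (Fin N) =
      ∫ site, F (site 0) (fun i => site i.succ) ∂unif (Fin (M + 1) → Fin N) := by
  simp only [integral_unif]
  rw [← (Fin.consEquiv fun _ : Fin (M + 1) => Fin N).sum_comp, Fintype.sum_prod_type,
    ← Finset.mul_sum, ← mul_assoc]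
  simp only [Fin.consEquiv, Equiv.coe_fn_mk, Fin.cons_zero, Fin.cons_succ, Fintype.card_fun,
    Fintype.card_fin]
  push_cast
  rw [pow_succ, mul_inv, mul_comm ((N : ℝ) ^ M)⁻¹]

/-- The product of Gibbs weights of replicas. -/
def gPi (L : ℝ) (x : ℕ → ℝ) {m : ℕ} (q : Env Kc N K n) (st : Fin m → St N K n) : ℝ :=
  ∏ i, gibbs (sW L x q) (st i)

omit [NeZero N] [NeZero n] in
theorem measurable_gPi (L : ℝ) (x : ℕ → ℝ) (st : Fin m → St N K n) :
    Measurable fun q : Env Kc N K n => gPi L x q st :=
  Finset.measurable_prod Finset.univ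
    (f := fun (i : Fin m) (q : Env Kc N K n) => gibbs (sW L x q) (st i)) fun i _ =>
    Measurable.comp (g := fun p : (ℕ → ℝ) × Env Kc N K n => gibbs (sW L p.1 p.2) (st i))
      (f := fun q : Env Kc N K n => (x, q)) (measurable_gibbs L (st i))
      (measurable_const.prodMk measurable_id)

omit [NeZero N] in
theorem abs_gPi (L : ℝ) (x : ℕ → ℝ) (q : Env Kc N K n) (st : Fin m → St N K n) :
    |gPi L x q st| ≤ 1 := by
  rw [gPi, Finset.abs_prod]
  refine Finset.prod_le_one (fun _ _ => abs_nonneg _) fun i _ => ?_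
  obtain ⟨g0, g1⟩ := gibbs_sW L x q
  rw [abs_of_nonneg (g0 _), ← g1]
  exact Finset.single_le_sum (fun t _ => g0 t) (Finset.mem_univ _)

theorem integrable_flag_gPi (L : ℝ) (c s : ℝ≥0) (x : ℕ → ℝ) (P : PKind) (st : Fin m → St N K n)
    {d : ℕ} (α : Fin d → P157.Casc.Leaf K n) :
    Integrable (fun q : Env Kc N K n => gPi L x (oldQ q) st *
      ∏ i, flagF P (path (fun v => fresh (q.2.2 v)) (α i))) (sysLaw μ ν N c s K n) := by
  refine integrable_bdd (B := 1) (((measurable_gPi L x st).comp measurable_oldQ).mul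
    (Finset.measurable_prod Finset.univ
      (f := fun (i : Fin d) (q : Env Kc N K n) => flagF P (path (fun v => fresh (q.2.2 v)) (α i)))
      fun i _ => ?_)) fun q => ?_
  · have hf : Measurable fun q : Env Kc N K n => fun v => fresh (q.2.2 v) := by
      unfold fresh
      fun_prop
    exact ((measurable_flagF P).comp (P157.Casc.measurable_path (α i))).comp hf
  · rw [abs_mul]
    exact mul_le_one₀ (abs_gPi L x _ _) (abs_nonneg _) (abs_prod_flagF P _)

/-- The flags of a fresh clause are independent of the weights. -/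
theorem sep_flag (L : ℝ) (c s : ℝ≥0) (x : ℕ → ℝ) (P : PKind) (st : Fin m → St N K n)
    {d : ℕ} (α : Fin d → P157.Casc.Leaf K n) :
    ∫ q, gPi L x (oldQ q) st * ∏ i, flagF P (path (fun v => fresh (q.2.2 v)) (α i))
        ∂sysLaw μ ν N c s K n =
      (∫ q, gPi L x q st ∂sysLaw μ ν N c s K n) * flagC P fun a b => com (α a) (α b) := by
  have hi1 := integrable_flag_gPi μ ν L c s x P st α
  have hi2 : Integrable (fun q => gPi L x q st) (sysLaw μ ν N c s K n) :=
    integrable_bdd (measurable_gPi L x st) fun q => abs_gPi L x q st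
  rw [sysLaw] at hi1 hi2 ⊢
  rw [integral_prod (fun q : Env Kc N K n => gPi L x (oldQ q) st *
      ∏ i, flagF P (path (fun v => fresh (q.2.2 v)) (α i))) hi1,
    integral_prod (fun q : Env Kc N K n => gPi L x q st) hi2, ← integral_mul_const]
  refine integral_congr_ae ?_
  filter_upwards [hi1.prod_right_ae, hi2.prod_right_ae] with z h1 h2
  rw [integral_prod _ h1, integral_prod _ h2, ← integral_mul_const]
  refine integral_congr_ae (ae_of_all _ fun W => ?_)
  dsimp only [oldQ]
  rw [integral_old_mul (f := fun ξ => gPi L x ((z, (W, ξ)) : Env Kc N K n) st)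
    (h := fun ξ => ∏ i, flagF P (path ξ (α i)))
    (Measurable.comp (g := fun q : Env Kc N K n => gPi L x q st)
      (f := fun ξ => ((z, (W, ξ)) : Env Kc N K n)) (measurable_gPi L x st)
      (measurable_const.prodMk (measurable_const.prodMk measurable_id)))
    (Finset.measurable_prod _ fun i _ => (measurable_flagF P).comp (P157.Casc.measurable_path _)),
    integral_flag_prod]

/-- The coefficient with marks is the average of a test. -/
theorem term_eq (L : ℝ) (c s : ℝ≥0) (j : ℕ) (x : ℕ → ℝ) (g : Tst K m M) (O : Finset (Fin m))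
    (k : ℕ) :
    ∫ q, ∫ s0, ∫ site, avg (sW L x (oldQ q)) (m + k)
        (fun st => obs g site (fun a => st (Fin.castAdd k a)) * ∏ i, xS j s0 q (st (mIdx O k i)))
      ∂unif (Fin M → Fin N) ∂unif (Fin N) ∂sysLaw μ ν N c s K n =
      repM (N := N) μ ν L c s K n x (markT (pkind j) g O k) := by
  set P := pkind j
  set Fl : Env Kc N K n → (Fin (m + k) → St N K n) → ℝ := fun q st =>
    ∏ i, flagF P (path (fun v => fresh (q.2.2 v)) (st (mIdx O k i)).1)
  set C : (Fin (m + k) → St N K n) → ℝ := fun st =>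
    flagC P fun a b => com (st (mIdx O k a)).1 (st (mIdx O k b)).1
  set S : (Fin (M + 1) → Fin N) → (Fin (m + k) → St N K n) → ℝ := fun site st =>
    obs g (fun i => site i.succ) (fun a => st (Fin.castAdd k a)) *
      ∏ i, spinF P ((st (mIdx O k i)).2 (site 0))
  have hl : ∀ q : Env Kc N K n,
      ∫ s0, ∫ site, avg (sW L x (oldQ q)) (m + k)
          (fun st => obs g site (fun a => st (Fin.castAdd k a)) * ∏ i, xS j s0 q (st (mIdx O k i)))
        ∂unif (Fin M → Fin N) ∂unif (Fin N) =
        (Fintype.card (Fin (M + 1) → Fin N) : ℝ)⁻¹ *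
          ∑ site, ∑ st, S site st * (gPi L x (oldQ q) st * Fl q st) := fun q => by
    rw [cons_sites, integral_unif]
    refine congrArg _ (Finset.sum_congr rfl fun site _ => Finset.sum_congr rfl fun st _ => ?_)
    simp only [S, Fl, P, gPi, xS_eq, Finset.prod_mul_distrib]
    ring
  have hr : ∀ q : Env Kc N K n,
      ∫ site, rep1 L x (markT P g O k) q site ∂unif (Fin (M + 1) → Fin N) =
        (Fintype.card (Fin (M + 1) → Fin N) : ℝ)⁻¹ *
          ∑ site, ∑ st, S site st * C st * gPi L x q st := fun q => by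
    rw [integral_unif]
    refine congrArg _ (Finset.sum_congr rfl fun site _ => Finset.sum_congr rfl fun st _ => ?_)
    simp only [S, C, gPi, markT, obs]
    ring
  have hi1 : ∀ st : Fin (m + k) → St N K n, Integrable (fun q => gPi L x (oldQ q) st * Fl q st)
      (sysLaw μ ν N c s K n) := fun st =>
    integrable_flag_gPi μ ν L c s x P st fun i => (st (mIdx O k i)).1
  have hi2 : ∀ st : Fin (m + k) → St N K n, Integrable (fun q => gPi L x q st)
      (sysLaw μ ν N c s K n) := fun st =>
    integrable_bdd (measurable_gPi L x st) fun q => abs_gPi L x q st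
  rw [repM, integral_congr_ae (ae_of_all _ hl), integral_congr_ae (ae_of_all _ hr),
    integral_const_mul, integral_const_mul,
    integral_finsetSum _ fun site _ => integrable_finsetSum _ fun st _ => (hi1 st).const_mul _,
    integral_finsetSum _ fun site _ => integrable_finsetSum _ fun st _ => (hi2 st).const_mul _]
  refine congrArg _ (Finset.sum_congr rfl fun site _ => ?_)
  rw [integral_finsetSum _ fun st _ => (hi1 st).const_mul _,
    integral_finsetSum _ fun st _ => (hi2 st).const_mul _]
  refine Finset.sum_congr rfl fun st _ => ?_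
  rw [integral_const_mul, integral_const_mul, sep_flag μ ν L c s x P st fun i => (st (mIdx O k i)).1]
  ring

/-- The polynomial of the expansion. -/
def polyQ (L : ℝ) (c s : ℝ≥0) (K n j : ℕ) (x : ℕ → ℝ) (b : ℝ) (g : Tst K (r + 1) M) (Q : ℕ) : ℝ :=
  ∑ i ∈ Finset.range (Q + 1), ∑ S : Finset (Fin r), (-1 : ℝ) ^ i * ((i + r).choose r : ℝ) *
    b ^ (S.card + i) * repM (N := N) μ ν L c s K n x (markT (pkind j) g (markSet S) i)

/-- The expansion in `b` with an error of order `Q + 1`. -/
theorem psiB_expand (L : ℝ) (c s : ℝ≥0) (j : ℕ) (x : ℕ → ℝ) {b : ℝ} (hb0 : 0 ≤ b)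
    (hb : b ≤ 1 / 2) {g : Tst K (r + 1) M} {B : ℝ} (hg : ∀ U σ, |g U σ| ≤ B) (Q : ℕ) :
    |psiB (N := N) μ ν L c s K n j x b g - polyQ (N := N) μ ν L c s K n j x b g Q| ≤
      B * 2 ^ r * (2 ^ (r + 1) * (2 * b) ^ (Q + 1)) := by
  have hB : 0 ≤ B := (abs_nonneg _).trans (hg (fun _ _ => 0) fun _ _ => true)
  set T : ℕ → Finset (Fin r) → Env Kc N K n → Fin N → (Fin M → Fin N) → ℝ :=
    fun i S q s0 site => avg (sW L x (oldQ q)) (r + 1 + i) (fun st =>
      obs g site (fun a => st (Fin.castAdd i a)) * ∏ a, xS j s0 q (st (mIdx (markSet S) i a)))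
  have hTb : ∀ i S q s0 site, |T i S q s0 site| ≤ B := fun i S q s0 site =>
    P157.Casc.abs_avg' (sW_pos L x _) fun st => by
      rw [abs_mul, Finset.abs_prod, Finset.prod_eq_one fun a _ => abs_xS j s0 q _, mul_one]
      exact hg _ _
  have hTm : ∀ i S s0 site, Measurable fun q => T i S q s0 site := fun i S s0 site => by
    have hm : Measurable fun q : Env Kc N K n => (x, oldQ q) :=
      measurable_const.prodMk measurable_oldQ
    refine Finset.measurable_sum Finset.univ
      (f := fun (st : Fin (r + 1 + i) → St N K n) (q : Env Kc N K n) =>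
        (∏ a, gibbs (sW L x (oldQ q)) (st a)) * (obs g site (fun a => st (Fin.castAdd i a)) *
          ∏ a, xS j s0 q (st (mIdx (markSet S) i a)))) fun st _ => ?_
    refine (Finset.measurable_prod Finset.univ
      (f := fun (a : Fin (r + 1 + i)) (q : Env Kc N K n) => gibbs (sW L x (oldQ q)) (st a))
      fun a _ => Measurable.comp (g := fun p : (ℕ → ℝ) × Env Kc N K n => gibbs (sW L p.1 p.2) (st a))
        (f := fun q : Env Kc N K n => (x, oldQ q)) (measurable_gibbs L (st a)) hm).mul
      (Measurable.const_mul ?_ _)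
    exact Finset.measurable_prod Finset.univ
      (f := fun a (q : Env Kc N K n) => xS j s0 q (st (mIdx (markSet S) i a)))
      fun a _ => measurable_xS j s0 _
  -- the polynomial at given environment and sites
  set Pq : Env Kc N K n → Fin N → (Fin M → Fin N) → ℝ := fun q s0 site =>
    ∑ i ∈ Finset.range (Q + 1), ∑ S : Finset (Fin r),
      (-1 : ℝ) ^ i * ((i + r).choose r : ℝ) * b ^ (S.card + i) * T i S q s0 site
  have hpt : ∀ q s0 site, |psiV L x j b g q s0 site - Pq q s0 site| ≤
      B * 2 ^ r * (2 ^ (r + 1) * (2 * b) ^ (Q + 1)) := by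
    intro q s0 site
    set u := sW L x (oldQ q)
    set X := xS j s0 q
    set mm := ∑ t, gibbs u t * X t
    have hm : |mm| ≤ 1 := by
      obtain ⟨g0, g1⟩ := gibbs_sW L x (oldQ q)
      refine (Finset.abs_sum_le_sum_abs _ _).trans (le_of_eq ?_)
      simp only [abs_mul, X, abs_xS, mul_one, u, abs_of_nonneg (g0 _), g1]
    set A : Finset (Fin r) → ℝ := fun S =>
      avg u (r + 1) (fun st => obs g site st * ∏ a ∈ markSet S, X (st a))
    have hA : avg u (r + 1)
        (fun st => obs g site st * (X (st 0) * ∏ a : Fin r, (1 + b * X (st a.succ)))) =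
        ∑ S : Finset (Fin r), b ^ S.card * A S := by
      simp only [A, ← P157.Casc.avg_smul']
      rw [← P157.Casc.avg_sum']
      congr 1
      funext st
      rw [Finset.prod_one_add, Finset.powerset_univ, Finset.mul_sum, Finset.mul_sum]
      refine Finset.sum_congr rfl fun S _ => ?_
      rw [Finset.prod_mul_distrib, Finset.prod_const, prod_markSet S fun a => X (st a)]
      ring
    have hPq : Pq q s0 site = (∑ S : Finset (Fin r), b ^ S.card * A S) *
        ∑ i ∈ Finset.range (Q + 1), ((i + r).choose r : ℝ) * (-(b * mm)) ^ i := by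
      rw [Finset.mul_sum]
      refine Finset.sum_congr rfl fun i _ => ?_
      rw [Finset.sum_mul]
      refine Finset.sum_congr rfl fun S _ => ?_
      simp only [T, A]
      rw [← avg_mark (obs g site) X (markSet S) i,
        show (-(b * mm)) ^ i = (-1) ^ i * (b ^ i * mm ^ i) by rw [← mul_pow, ← mul_pow, neg_one_mul]]
      ring
    have hAb : |avg u (r + 1)
        (fun st => obs g site st * (X (st 0) * ∏ a : Fin r, (1 + b * X (st a.succ))))| ≤ B * 2 ^ r := by
      refine P157.Casc.abs_avg' (sW_pos L x _) fun st => ?_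
      rw [abs_mul, abs_mul, show |X (st 0)| = 1 from abs_xS j s0 q _, one_mul, Finset.abs_prod]
      refine mul_le_mul (hg _ _) ((Finset.prod_le_prod (g := fun _ => (2 : ℝ))
        (fun _ _ => abs_nonneg _) fun a _ => ?_).trans_eq
        (by rw [Finset.prod_const, Finset.card_univ, Fintype.card_fin]))
        (Finset.prod_nonneg fun _ _ => abs_nonneg _) hB
      refine (abs_add_le _ _).trans ?_
      rw [abs_one, abs_mul, show |X (st a.succ)| = 1 from abs_xS j s0 q _, mul_one,
        abs_of_nonneg hb0]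
      linarith
    rw [hPq, ← hA, psiV, div_eq_mul_inv, ← mul_sub, abs_mul]
    exact mul_le_mul hAb (choose_geom_trunc hm hb0 hb r Q) (abs_nonneg _) (by positivity)
  -- integrate
  set Pv : Env Kc N K n → Fin N → (Fin M → Fin N) → ℝ := fun q s0 site => psiV L x j b g q s0 site
  have hPvm : ∀ s0 site, Measurable fun q => Pv q s0 site := fun s0 site =>
    measurable_psiV L x j b g s0 site
  have hPvb : ∀ q s0 site, |Pv q s0 site| ≤ B * 2 ^ r / (1 - |b|) ^ (r + 1) := fun q s0 site =>
    abs_psiV L x j (by rw [abs_of_nonneg hb0]; linarith) hg q s0 site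
  set I : Env Kc N K n → ℝ := fun q =>
    ∫ s0, ∫ site, Pv q s0 site ∂unif (Fin M → Fin N) ∂unif (Fin N)
  set J : Env Kc N K n → ℝ := fun q =>
    ∫ s0, ∫ site, Pq q s0 site ∂unif (Fin M → Fin N) ∂unif (Fin N)
  set J' : ℕ → Finset (Fin r) → Env Kc N K n → ℝ := fun i S q =>
    ∫ s0, ∫ site, T i S q s0 site ∂unif (Fin M → Fin N) ∂unif (Fin N)
  have hIi : Integrable I (sysLaw μ ν N c s K n) :=
    integrable_bdd (measurable_unif_avg fun s0 => measurable_unif_avg fun site => hPvm s0 site)
      fun q => abs_unif_avg fun s0 => abs_unif_avg fun site => hPvb q s0 site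
  have hJ'i : ∀ i S, Integrable (J' i S) (sysLaw μ ν N c s K n) := fun i S =>
    integrable_bdd (measurable_unif_avg fun s0 => measurable_unif_avg fun site => hTm i S s0 site)
      fun q => abs_unif_avg fun s0 => abs_unif_avg fun site => hTb i S q s0 site
  have hJ : J = fun q => ∑ i ∈ Finset.range (Q + 1), ∑ S : Finset (Fin r),
      (-1 : ℝ) ^ i * ((i + r).choose r : ℝ) * b ^ (S.card + i) * J' i S q := by
    funext q
    simp only [J, J', Pq, integral_finsetSum _ fun _ _ => Integrable.of_finite, integral_const_mul]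
  have hJi : Integrable J (sysLaw μ ν N c s K n) := by
    rw [hJ]
    exact integrable_finsetSum _ fun i _ => integrable_finsetSum _ fun S _ => (hJ'i i S).const_mul _
  have hJe : polyQ (N := N) μ ν L c s K n j x b g Q = ∫ q, J q ∂sysLaw μ ν N c s K n := by
    rw [hJ, integral_finsetSum _ fun i _ => integrable_finsetSum _ fun S _ => (hJ'i i S).const_mul _]
    refine Finset.sum_congr rfl fun i _ => ?_
    rw [integral_finsetSum _ fun S _ => (hJ'i i S).const_mul _]
    refine Finset.sum_congr rfl fun S _ => ?_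
    rw [integral_const_mul]
    exact congrArg _ (term_eq μ ν L c s j x g (markSet S) i).symm
  rw [hJe, show psiB (N := N) μ ν L c s K n j x b g = ∫ q, I q ∂sysLaw μ ν N c s K n from rfl,
    ← integral_sub hIi hJi]
  refine (norm_integral_le_of_norm_le_const (C := B * 2 ^ r * (2 ^ (r + 1) * (2 * b) ^ (Q + 1)))
    (f := fun q => I q - J q) (ae_of_all _ fun q => ?_)).trans (by simp)
  rw [Real.norm_eq_abs, ← integral_sub Integrable.of_finite Integrable.of_finite]
  refine abs_unif_avg fun s0 => ?_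
  rw [← integral_sub Integrable.of_finite Integrable.of_finite]
  exact abs_unif_avg fun site => hpt q s0 site

end Vale.Agent.P168
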