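import Vale.Agent.P168.Conc.Fluct

/-!
P168: the fluctuation of one kind averaged over the parameters.
-/

open MeasureTheory ProbabilityTheory Filter Topology
open scoped NNReal ENNReal

noncomputable section

namespace Vale.Agent.P168

open P157.Casc (mlev cst logS gibbs casW casX path)

variable {Kc N K n : ℕ}

theorem measurable_upd (j : ℕ) :
    Measurable fun p : (ℕ → ℝ) × ℝ => Function.update p.1 j p.2 := by
  refine measurable_pi_lambda _ fun i => ?_
  simp only [Function.update_apply]
  by_cases h : i = j
  · simp only [h, if_true]; exact measurable_snd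
  · simp only [h, if_false]; exact (measurable_pi_apply i).comp measurable_fst

/-- One coordinate of the parameters may be drawn afresh. -/
theorem mp_upd (j : ℕ) :
    MeasurePreserving (fun p : (ℕ → ℝ) × ℝ => Function.update p.1 j p.2)
      (xLaw.prod (volume.restrict (Set.Icc (1 : ℝ) 2))) xLaw := by
  refine ⟨measurable_upd j, Measure.eq_infinitePi _ fun s t ht => ?_⟩
  classical
  rw [Measure.map_apply (measurable_upd j) (MeasurableSet.pi s.countable_toSet fun i _ => ht i)]
  by_cases hj : j ∈ s
  · have e : (fun p : (ℕ → ℝ) × ℝ => Function.update p.1 j p.2) ⁻¹' Set.pi (s : Set ℕ) t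
        = Set.pi ((s.erase j : Finset ℕ) : Set ℕ) t ×ˢ t j := by
      ext ⟨x, u⟩
      simp only [Set.mem_preimage, Set.mem_pi, Finset.mem_coe, Set.mem_prod, Finset.mem_erase,
        Function.update_apply]
      refine ⟨fun h => ⟨fun i hi => ?_, ?_⟩, fun h i hi => ?_⟩
      · simpa [hi.1] using h i hi.2
      · simpa using h j hj
      · split_ifs with hij
        · exact hij ▸ h.2
        · exact h.1 i ⟨hij, hi⟩
    rw [e, Measure.prod_prod, xLaw, Measure.infinitePi_pi _ fun i _ => ht i,
      ← Finset.prod_erase_mul _ _ hj]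
  · have e : (fun p : (ℕ → ℝ) × ℝ => Function.update p.1 j p.2) ⁻¹' Set.pi (s : Set ℕ) t
        = Set.pi (s : Set ℕ) t ×ˢ Set.univ := by
      ext ⟨x, u⟩
      simp only [Set.mem_preimage, Set.mem_pi, Finset.mem_coe, Set.mem_prod, Set.mem_univ, and_true,
        Function.update_apply]
      refine forall₂_congr fun i hi => ?_
      rw [if_neg (by rintro rfl; exact hj hi)]
    rw [e, Measure.prod_prod, xLaw, Measure.infinitePi_pi _ fun i _ => ht i, measure_univ, mul_one]

/-- An average over the parameters through one coordinate. -/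
theorem xLaw_split (j : ℕ) {f : (ℕ → ℝ) → ℝ} (hf : Measurable f) {B : ℝ} (hb : ∀ x, |f x| ≤ B) :
    ∫ x, f x ∂xLaw = ∫ x, (∫ t in (1 : ℝ)..2, f (Function.update x j t)) ∂xLaw := by
  have h := mp_upd j
  conv_lhs => rw [← h.map_eq]
  rw [integral_map h.measurable.aemeasurable hf.aestronglyMeasurable,
    integral_prod (fun p : (ℕ → ℝ) × ℝ => f (Function.update p.1 j p.2)) ((integrable_const B).mono'
      (hf.comp (measurable_upd j)).aestronglyMeasurable (ae_of_all _ fun p => hb _))]
  refine integral_congr_ae (ae_of_all _ fun x => ?_)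
  simp only [intervalIntegral.integral_of_le (show (1 : ℝ) ≤ 2 by norm_num), integral_Icc_eq_integral_Ioc]

/-- The uniform law on `[0, 3]`. -/
def u03 : Measure ℝ := (3 : ℝ≥0)⁻¹ • volume.restrict (Set.Icc 0 3)

instance u03_prob : IsProbabilityMeasure u03 := by
  constructor
  simp only [u03, Measure.smul_apply, Measure.restrict_apply_univ, Real.volume_Icc, ENNReal.smul_def,
    smul_eq_mul, sub_zero]
  rw [ENNReal.coe_inv (by norm_num), ENNReal.ofReal_ofNat]
  exact ENNReal.inv_mul_cancel (by norm_num) (by norm_num)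

/-- The parameters with the coordinate `j` uniform on `[0, 3]`. -/
def xWide (j : ℕ) : Measure (ℕ → ℝ) :=
  (xLaw.prod u03).map fun p : (ℕ → ℝ) × ℝ => Function.update p.1 j p.2

instance xWide_prob (j : ℕ) : IsProbabilityMeasure (xWide j) :=
  Measure.isProbabilityMeasure_map (measurable_upd j).aemeasurable

theorem xWide_split (j : ℕ) {f : (ℕ → ℝ) → ℝ} (hf : Measurable f) {B : ℝ} (hb : ∀ x, |f x| ≤ B) :
    ∫ x, (∫ t in (0 : ℝ)..3, f (Function.update x j t)) ∂xLaw = 3 * ∫ x, f x ∂xWide j := by
  rw [xWide, integral_map (measurable_upd j).aemeasurable hf.aestronglyMeasurable,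
    integral_prod (fun p : (ℕ → ℝ) × ℝ => f (Function.update p.1 j p.2)) ((integrable_const B).mono'
      (hf.comp (measurable_upd j)).aestronglyMeasurable (ae_of_all _ fun p => hb _)),
    ← integral_const_mul]
  refine integral_congr_ae (ae_of_all _ fun x => ?_)
  simp only [u03, integral_smul_nnreal_measure, intervalIntegral.integral_of_le
    (show (0 : ℝ) ≤ 3 by norm_num), integral_Icc_eq_integral_Ioc, NNReal.smul_def, smul_eq_mul]
  push_cast
  ring

variable [NeZero N] [NeZero n] (μ : Measure (Clause Kc)) (ν : Measure ℝ) [IsProbabilityMeasure μ]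
  [IsProbabilityMeasure ν]

omit [NeZero n] in
theorem measurable_devA (L : ℝ) (c s : ℝ≥0) :
    Measurable fun x => devA (N := N) μ ν L c s K n x := by
  have h : Measurable fun p : (ℕ → ℝ) × Env Kc N K n =>
      |lsum L p.1 p.2 - cst (mlev K) n - rroot K L p.1 p.2.1| :=
    (((measurable_lsum L).sub_const _).sub
      (Measurable.comp (g := fun q : (ℕ → ℝ) × (Base Kc N × Pert N) => rroot K L q.1 q.2)
        (f := fun p : (ℕ → ℝ) × Env Kc N K n => (p.1, p.2.1)) (measurable_rroot L)
        (measurable_fst.prodMk (measurable_fst.comp measurable_snd)))).norm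
  exact h.stronglyMeasurable.integral_prod_right'.measurable

theorem devA_bdd {L : ℝ} (hL : 0 ≤ L) (c s : ℝ≥0) :
    ∃ B, ∀ x, |devA (N := N) μ ν L c s K n x| ≤ B := by
  have h0 := (integrable_fix (μ := μ) (ν := ν) (N := N) (K := K) (n := n) hL c s fun _ => 0).1
  have he : Integrable (fun q : Env Kc N K n => env L q.1) (sysLaw μ ν N c s K n) :=
    (integrable_env μ ν c s).comp_fst _
  have hB : Integrable (fun q : Env Kc N K n =>
      |lsum L (fun _ => 0) q| + 3 * env L q.1 + |cst (mlev K) n|) (sysLaw μ ν N c s K n) :=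
    (h0.abs.add (he.const_mul 3)).add (integrable_const _)
  refine ⟨∫ q, |lsum L (fun _ => 0) q| + 3 * env L q.1 + |cst (mlev K) n| ∂sysLaw μ ν N c s K n,
    fun x => ?_⟩
  obtain ⟨hl, hr⟩ := integrable_fix (μ := μ) (ν := ν) (N := N) (K := K) (n := n) hL c s x
  rw [abs_of_nonneg (devA_nonneg μ ν L c s x)]
  refine integral_mono ((hl.sub (integrable_const _)).sub hr).abs hB fun q => ?_
  show |lsum L x q - cst (mlev K) n - rroot K L x q.1| ≤ _
  linarith [abs_sub (lsum L x q - cst (mlev K) n) (rroot K L x q.1),
    abs_sub (lsum L x q) (cst (mlev K) n), abs_lsum_le hL x q, abs_rroot_le (K := K) hL x q.1]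

/-- The concentration in terms of the distance of the logarithm from its recursion. -/
theorem devA_le {L : ℝ} (hL : 0 ≤ L) (c s : ℝ≥0) (ρx : Measure (ℕ → ℝ)) [IsProbabilityMeasure ρx]
    {C : ℝ} (hC : ∫ q, ∫ W, ∫ ξ, |logS (mlev K) (Y0 (clX q.1) (clZ L q.2)) W ξ - cst (mlev K) n
        - rroot K L q.1 q.2| ∂casX K n labLaw ∂casW (mlev K) n
      ∂ρx.prod (rootLaw μ ν N c s) ≤ C) :
    ∫ x, devA (N := N) μ ν L c s K n x ∂ρx ≤ C := by
  obtain ⟨hl, hr⟩ := integrable_joint (μ := μ) (ν := ν) (N := N) (K := K) (n := n) hL c s ρx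
  set τ := (casW (mlev K) n).prod (casX K n labLaw)
  set G : (ℕ → ℝ) × Env Kc N K n → ℝ := fun p =>
    |lsum L p.1 p.2 - cst (mlev K) n - rroot K L p.1 p.2.1|
  have hG : Integrable G (ρx.prod (sysLaw μ ν N c s K n)) :=
    ((hl.sub (integrable_const _)).sub hr).abs
  have hmp := measurePreserving_prodAssoc ρx (rootLaw μ ν N c s) τ
  have hG' : Integrable (fun r => G (MeasurableEquiv.prodAssoc r))
      ((ρx.prod (rootLaw μ ν N c s)).prod τ) := hmp.integrable_comp_of_integrable hG
  refine le_trans (le_of_eq ?_) hC
  calc ∫ x, devA (N := N) μ ν L c s K n x ∂ρx = ∫ p, G p ∂ρx.prod (sysLaw μ ν N c s K n) :=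
        (integral_prod G hG).symm
    _ = ∫ r, G (MeasurableEquiv.prodAssoc r) ∂(ρx.prod (rootLaw μ ν N c s)).prod τ :=
        (hmp.integral_comp' G).symm
    _ = ∫ q, ∫ w, G (MeasurableEquiv.prodAssoc (q, w)) ∂τ ∂ρx.prod (rootLaw μ ν N c s) :=
        integral_prod _ hG'
    _ = _ := by
      refine integral_congr_ae ?_
      filter_upwards [hG'.prod_right_ae] with q hq
      rw [integral_prod _ hq]
      refine integral_congr_ae ?_
      filter_upwards [posW_ae (K := K) (n := n)] with W hW
      refine integral_congr_ae (ae_of_all _ fun ξ => ?_)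
      simp only [G, MeasurableEquiv.prodAssoc, MeasurableEquiv.coe_mk, Equiv.prodAssoc_apply,
        lsum_eq, hW]

omit [NeZero n] in
theorem measurable_fl (L : ℝ) (c s : ℝ≥0) (j : ℕ) :
    Measurable fun x => fl (N := N) μ ν L c s K n j x := by
  have he : ∀ st, Measurable fun p : (ℕ → ℝ) × Env Kc N K n => eK j p.2 st := fun st =>
    (measurable_eK j st).comp measurable_snd
  have hk0 : Measurable fun p : (ℕ → ℝ) × Env Kc N K n =>
      ∑ st, gibbs (sW L p.1 p.2) st * eK j p.2 st :=
    Finset.measurable_sum Finset.univ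
      (f := fun (st : St N K n) (p : (ℕ → ℝ) × Env Kc N K n) =>
        gibbs (sW L p.1 p.2) st * eK j p.2 st) fun st _ => (measurable_gibbs L st).mul (he st)
  have hk : Measurable fun x => kmean (N := N) μ ν L c s K n j x :=
    hk0.stronglyMeasurable.integral_prod_right'.measurable
  have h : Measurable fun p : (ℕ → ℝ) × Env Kc N K n =>
      ∑ st, gibbs (sW L p.1 p.2) st * |eK j p.2 st - kmean (N := N) μ ν L c s K n j p.1| :=
    Finset.measurable_sum Finset.univ
      (f := fun (st : St N K n) (p : (ℕ → ℝ) × Env Kc N K n) =>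
        gibbs (sW L p.1 p.2) st * |eK j p.2 st - kmean (N := N) μ ν L c s K n j p.1|) fun st _ =>
      (measurable_gibbs L st).mul ((he st).sub (hk.comp measurable_fst)).norm
  exact h.stronglyMeasurable.integral_prod_right'.measurable

theorem fl_bdd (L : ℝ) (c s : ℝ≥0) (j : ℕ) (x : ℕ → ℝ) :
    |fl (N := N) μ ν L c s K n j x| ≤ 2 * s := by
  have hn := (integrable_nK (N := N) (K := K) (n := n) μ ν c s j).2
  have hk : |kmean (N := N) μ ν L c s K n j x| ≤ s :=
    ((integrable_gibbs_sum μ ν (N := N) (K := K) (n := n) (L := L) c s x j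
      (f := fun q st => eK j q st) (fun st => measurable_eK j st) (a := 1) (b := 0)
      fun q st => by simpa using abs_eK_le j q st).2).trans (by simpa using hn)
  refine ((integrable_gibbs_sum μ ν (N := N) (K := K) (n := n) (L := L) c s x j
    (f := fun q st => |eK j q st - kmean (N := N) μ ν L c s K n j x|)
    (fun st => ((measurable_eK j st).sub_const _).norm) (a := 1)
    (b := |kmean (N := N) μ ν L c s K n j x|) fun q st => by
      rw [abs_abs]
      exact (abs_sub _ _).trans (by linarith [abs_eK_le j q st])).2).trans ?_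
  linarith

theorem phiS_lip {L : ℝ} (hL : 0 ≤ L) (c s : ℝ≥0) (x : ℕ → ℝ) (j : ℕ) (a b : ℝ) :
    |phiS (N := N) μ ν L c s K n (Function.update x j a)
      - phiS (N := N) μ ν L c s K n (Function.update x j b)| ≤ |a - b| * s := by
  have h := fun a => (integrable_fix (μ := μ) (ν := ν) (N := N) (K := K) (n := n) hL c s
    (Function.update x j a)).1
  obtain ⟨hi, hn⟩ := integrable_nK (N := N) (K := K) (n := n) μ ν c s j
  rw [phiS, phiS, ← integral_sub (h a) (h b)]
  refine abs_integral_le_integral_abs.trans ((integral_mono ((h a).sub (h b)).abs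
    (hi.const_mul |a - b|) fun q => abs_lsum_tilt L x j a b q).trans ?_)
  rw [integral_const_mul]
  exact mul_le_mul_of_nonneg_left hn (abs_nonneg _)

theorem secdiff_integral {P : ℝ → ℝ} {S : ℝ} (hS : ∀ a b, |P a - P b| ≤ |a - b| * S) {δ : ℝ}
    (hδ : 0 ≤ δ) : ∫ t in (1 : ℝ)..2, (P (t + δ) + P (t - δ) - 2 * P t) ≤ 2 * δ ^ 2 * S := by
  have hc : Continuous P := by
    refine continuous_iff_continuousAt.2 fun a => tendsto_iff_dist_tendsto_zero.2 ?_
    refine squeeze_zero (fun b => dist_nonneg) (fun b => (Real.dist_eq _ _).trans_le (hS b a)) ?_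
    have : Continuous fun b : ℝ => |b - a| * S := by fun_prop
    simpa using this.tendsto a
  set h : ℝ → ℝ := fun t => P t - P (t - δ)
  have hh : Continuous h := by fun_prop
  have hb : ∀ t, ‖h t‖ ≤ δ * S := fun t => by
    rw [Real.norm_eq_abs]
    refine (hS _ _).trans_eq ?_
    rw [sub_sub_cancel, abs_of_nonneg hδ]
  have e : ∀ t, P (t + δ) + P (t - δ) - 2 * P t = h (t + δ) - h t := fun t => by
    simp only [h, add_sub_cancel_right]; ring
  simp only [e]
  have hhd : Continuous fun t => h (t + δ) := by fun_prop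
  rw [intervalIntegral.integral_sub (hhd.intervalIntegrable _ _)
      (hh.intervalIntegrable _ _), intervalIntegral.integral_comp_add_right,
    intervalIntegral.integral_interval_sub_interval_comm' (hh.intervalIntegrable _ _)
      (hh.intervalIntegrable _ _) (hh.intervalIntegrable _ _)]
  have h1 := intervalIntegral.norm_integral_le_of_norm_le_const (a := (2 : ℝ)) (b := 2 + δ)
    fun t _ => hb t
  have h2 := intervalIntegral.norm_integral_le_of_norm_le_const (a := (1 : ℝ)) (b := 1 + δ)
    fun t _ => hb t
  simp only [Real.norm_eq_abs, add_sub_cancel_left, abs_of_nonneg hδ] at h1 h2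
  nlinarith [abs_le.1 h1, abs_le.1 h2]

/-- The fluctuation of one kind, averaged over the parameters. -/
theorem fl_avg {L : ℝ} (hL : 0 ≤ L) (c s : ℝ≥0) (j : ℕ) {δ : ℝ} (hδ : 0 < δ) (hδ1 : δ ≤ 1 / 2)
    {C : ℝ} (hC : ∫ x, devA (N := N) μ ν L c s K n x ∂xWide j ≤ C) :
    ∫ x, fl (N := N) μ ν L c s K n j x ∂xLaw ≤
      2 * (Real.log 2 + δ ^ 2 * s + 18 * C + 6 * devC L N c s) / δ := by
  set A := fun x => devA (N := N) μ ν L c s K n x
  obtain ⟨B, hB⟩ := devA_bdd (K := K) (n := n) (N := N) μ ν hL c s
  have hAm : Measurable A := measurable_devA μ ν L c s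
  have hfm : Measurable fun x => fl (N := N) μ ν L c s K n j x := measurable_fl μ ν L c s j
  rw [xLaw_split j hfm fun x => fl_bdd μ ν L c s j x]
  have hgi : ∀ x a b, IntervalIntegrable (fun t => A (Function.update x j t)) volume a b :=
    fun x a b => (intervalIntegrable_const (c := B)).mono_fun'
      (hAm.comp ((measurable_upd j).comp (measurable_const.prodMk measurable_id))).aestronglyMeasurable
      (ae_of_all _ fun t => hB _)
  have hfi : ∀ x a b, IntervalIntegrable
      (fun t => fl (N := N) μ ν L c s K n j (Function.update x j t)) volume a b :=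
    fun x a b => (intervalIntegrable_const (c := 2 * (s : ℝ))).mono_fun'
      (hfm.comp ((measurable_upd j).comp (measurable_const.prodMk measurable_id))).aestronglyMeasurable
      (ae_of_all _ fun t => fl_bdd μ ν L c s j _)
  have hin : ∀ x, ∫ t in (1 : ℝ)..2, fl (N := N) μ ν L c s K n j (Function.update x j t) ≤
      2 * (Real.log 2 + δ ^ 2 * s + 6 * (∫ t in (0 : ℝ)..3, A (Function.update x j t))
        + 6 * devC L N c s) / δ := by
    intro x
    set g := fun t => A (Function.update x j t)
    set P := fun t => phiS (N := N) μ ν L c s K n (Function.update x j t)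
    have hPl : ∀ a b, |P a - P b| ≤ |a - b| * s := fun a b => phiS_lip μ ν hL c s x j a b
    have hPc : Continuous P := by
      refine continuous_iff_continuousAt.2 fun a => tendsto_iff_dist_tendsto_zero.2 ?_
      refine squeeze_zero (fun b => dist_nonneg) (fun b => (Real.dist_eq _ _).trans_le (hPl b a)) ?_
      have : Continuous fun b : ℝ => |b - a| * (s : ℝ) := by fun_prop
      simpa using this.tendsto a
    have hP2 : IntervalIntegrable (fun t => P (t + δ) + P (t - δ) - 2 * P t) volume 1 2 :=
      (by fun_prop : Continuous fun t => P (t + δ) + P (t - δ) - 2 * P t).intervalIntegrable _ _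
    have g1 : IntervalIntegrable (fun t => g (t + δ)) volume 1 2 := by
      simpa using (hgi x (1 + δ) (2 + δ)).comp_add_right δ
    have g2 : IntervalIntegrable (fun t => g (t - δ)) volume 1 2 := by
      simpa using (hgi x (1 - δ) (2 - δ)).comp_sub_right δ
    have g12 : IntervalIntegrable (fun t => g (t + δ) + g (t - δ) + g t) volume 1 2 :=
      (g1.add g2).add (hgi x 1 2)
    have hR : IntervalIntegrable (fun t => 2 * (Real.log 2 + (P (t + δ) + P (t - δ) - 2 * P t) / 2
        + 2 * (g (t + δ) + g (t - δ) + g t) + 6 * devC L N c s) / δ) volume 1 2 :=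
      (((((intervalIntegrable_const (c := Real.log 2)).add (hP2.div_const 2)).add
        (g12.const_mul 2)).add intervalIntegrable_const).const_mul 2).div_const δ
    refine (intervalIntegral.integral_mono_on (by norm_num) (hfi x 1 2) hR fun t ht => ?_).trans ?_
    · have h := fl_le μ ν (N := N) (K := K) (n := n) hL c s j (Function.update x j t) hδ
        (by simp; linarith [ht.1]) (by simp; linarith [ht.2])
      simpa [Function.update_idem] using h
    have hg0 : ∀ t, 0 ≤ g t := fun t => devA_nonneg μ ν L c s _
    have hI : ∀ a b : ℝ, 0 ≤ a → a ≤ b → b ≤ 3 →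
        ∫ t in a..b, g t ≤ ∫ t in (0 : ℝ)..3, g t := fun a b ha hab hb =>
      intervalIntegral.integral_mono_interval ha hab hb (ae_of_all _ hg0) (hgi x 0 3)
    rw [intervalIntegral.integral_div, intervalIntegral.integral_const_mul]
    refine div_le_div_of_nonneg_right (mul_le_mul_of_nonneg_left ?_ two_pos.le) hδ.le
    rw [intervalIntegral.integral_add (((intervalIntegrable_const).add (hP2.div_const 2)).add
        (g12.const_mul 2)) intervalIntegrable_const,
      intervalIntegral.integral_add ((intervalIntegrable_const).add (hP2.div_const 2)) (g12.const_mul 2),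
      intervalIntegral.integral_add intervalIntegrable_const (hP2.div_const 2),
      intervalIntegral.integral_div, intervalIntegral.integral_const_mul,
      intervalIntegral.integral_add (g1.add g2) (hgi x 1 2), intervalIntegral.integral_add g1 g2,
      intervalIntegral.integral_comp_add_right, intervalIntegral.integral_comp_sub_right]
    simp only [intervalIntegral.integral_const, smul_eq_mul]
    have h1 := hI (1 + δ) (2 + δ) (by linarith) (by linarith) (by linarith)
    have h2 := hI (1 - δ) (2 - δ) (by linarith) (by linarith) (by linarith)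
    have h3 := hI 1 2 (by norm_num) (by norm_num) (by norm_num)
    have h4 := secdiff_integral hPl hδ.le
    linarith
  have hm3 : Measurable fun x => ∫ t in (0 : ℝ)..3, A (Function.update x j t) := by
    simp only [intervalIntegral.integral_of_le (show (0 : ℝ) ≤ 3 by norm_num)]
    exact (hAm.comp (measurable_upd j)).stronglyMeasurable.integral_prod_right'.measurable
  have hi3 : Integrable (fun x => ∫ t in (0 : ℝ)..3, A (Function.update x j t)) xLaw :=
    (integrable_const (3 * B)).mono' hm3.aestronglyMeasurable (ae_of_all _ fun x =>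
      (intervalIntegral.norm_integral_le_of_norm_le_const fun t _ => hB _).trans_eq
        (by norm_num; ring))
  have hm1 : Measurable fun x => ∫ t in (1 : ℝ)..2,
      fl (N := N) μ ν L c s K n j (Function.update x j t) := by
    simp only [intervalIntegral.integral_of_le (show (1 : ℝ) ≤ 2 by norm_num)]
    exact (hfm.comp (measurable_upd j)).stronglyMeasurable.integral_prod_right'.measurable
  have hi1 : Integrable (fun x => ∫ t in (1 : ℝ)..2,
      fl (N := N) μ ν L c s K n j (Function.update x j t)) xLaw :=
    (integrable_const (2 * (s : ℝ))).mono' hm1.aestronglyMeasurable (ae_of_all _ fun x =>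
      (intervalIntegral.norm_integral_le_of_norm_le_const fun t _ => fl_bdd μ ν L c s j _).trans_eq
        (by norm_num))
  refine (integral_mono hi1 ((((integrable_const (Real.log 2 + δ ^ 2 * s)).add (hi3.const_mul 6)).add
    (integrable_const (6 * devC L N c s))).const_mul 2 |>.div_const δ) hin).trans ?_
  simp only [Pi.add_apply]
  have h6 : Integrable (fun x => Real.log 2 + δ ^ 2 * s
      + 6 * ∫ t in (0 : ℝ)..3, A (Function.update x j t)) xLaw :=
    (integrable_const _).add (hi3.const_mul 6)
  rw [integral_div, integral_const_mul, integral_add h6 (integrable_const _),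
    integral_add (integrable_const _) (hi3.const_mul 6), integral_const_mul, xWide_split j hAm hB]
  simp only [integral_const, probReal_univ, one_smul]
  refine div_le_div_of_nonneg_right ?_ hδ.le
  linarith

end Vale.Agent.P168
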