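import Vale.Agent.P157.Casc.Cov
import Vale.Agent.P157.Hybrid
import Vale.Agent.P168.Conc.Sys

/-!
P168: the signs of a fresh perturbing clause are independent of the labels of the other clauses,
and the mean of their product over replicas is a function of the levels.
-/

open MeasureTheory ProbabilityTheory Filter Topology
open scoped NNReal ENNReal

noncomputable section

namespace Vale.Agent.P168

open P157.Casc (Leaf Node node com casX path)

variable {N K n q : ℕ}

/-- The labels of the first clause. -/
def fresh (l : Lab) : Lab := fun k => l (Nat.pair 0 k)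

/-- The labels of the clauses after the first. -/
def old (l : Lab) : Lab := fun k => l (shiftI k)

/-- Labels with a new first clause. -/
def merge (l u : Lab) : Lab := fun k =>
  if k.unpair.1 = 0 then u k.unpair.2 else l (Nat.pair (k.unpair.1 - 1) k.unpair.2)

theorem old_merge (l u : Lab) : old (merge l u) = l := by
  funext k
  simp [old, merge, shiftI]

theorem fresh_merge (l u : Lab) : fresh (merge l u) = u := by
  funext k
  simp [fresh, merge]

theorem measurable_merge : Measurable fun p : Lab × Lab => merge p.1 p.2 :=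
  measurable_pi_lambda _ fun k => by
    by_cases h : k.unpair.1 = 0 <;> simp only [merge, h, if_true, if_false] <;> fun_prop

theorem mp_merge :
    MeasurePreserving (fun p : Lab × Lab => merge p.1 p.2) (labLaw.prod labLaw) labLaw := by
  refine ⟨measurable_merge, Measure.eq_infinitePi _ fun s t ht => ?_⟩
  classical
  rw [Measure.map_apply measurable_merge (MeasurableSet.pi s.countable_toSet fun i _ => ht i)]
  set d : ℕ → ℕ := fun k => Nat.pair (k.unpair.1 - 1) k.unpair.2 with hd
  set s1 := s.filter fun k => ¬k.unpair.1 = 0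
  set s0 := s.filter fun k => k.unpair.1 = 0
  have hd1 : ∀ k, ¬k.unpair.1 = 0 → shiftI (d k) = k := fun k hk => by
    simp only [hd, shiftI, Nat.unpair_pair]
    rw [Nat.sub_add_cancel (Nat.pos_of_ne_zero hk), Nat.pair_unpair]
  have hd0 : ∀ k, k.unpair.1 = 0 → Nat.pair 0 k.unpair.2 = k := fun k hk => by
    rw [← hk, Nat.pair_unpair]
  have e : (fun p : Lab × Lab => merge p.1 p.2) ⁻¹' Set.pi (s : Set ℕ) t =
      Set.pi ((s1.image d : Finset ℕ) : Set ℕ) (fun k => t (shiftI k)) ×ˢ
        Set.pi ((s0.image fun k => k.unpair.2 : Finset ℕ) : Set ℕ) fun b => t (Nat.pair 0 b) := by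
    ext ⟨l, u⟩
    simp only [Set.mem_preimage, Set.mem_pi, Set.mem_prod, Finset.coe_image, Set.mem_image,
      Finset.mem_coe, s1, s0, Finset.mem_filter, merge]
    refine ⟨fun h => ⟨?_, ?_⟩, fun h k hk => ?_⟩
    · rintro _ ⟨k, ⟨hk, hk0⟩, rfl⟩
      have := h k hk
      rw [if_neg hk0] at this
      rwa [hd1 k hk0]
    · rintro _ ⟨k, ⟨hk, hk0⟩, rfl⟩
      have := h k hk
      rw [if_pos hk0] at this
      rwa [hd0 k hk0]
    · split_ifs with hk0
      · have := h.2 _ ⟨k, ⟨hk, hk0⟩, rfl⟩
        rwa [hd0 k hk0] at this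
      · have := h.1 (d k) ⟨k, ⟨hk, hk0⟩, rfl⟩
        rwa [hd1 k hk0] at this
  rw [e, Measure.prod_prod, labLaw, Measure.infinitePi_pi _ fun i _ => ht _,
    Measure.infinitePi_pi _ fun i _ => ht _,
    Finset.prod_image (by
      intro a ha b hb hab
      rw [← hd1 a (Finset.mem_filter.1 ha).2, ← hd1 b (Finset.mem_filter.1 hb).2, hab]),
    Finset.prod_image (by
      intro a ha b hb hab
      have h : a.unpair.2 = b.unpair.2 := hab
      rw [← hd0 a (Finset.mem_filter.1 ha).2, ← hd0 b (Finset.mem_filter.1 hb).2, h]),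
    ← Finset.prod_filter_mul_prod_filter_not s (fun k => ¬k.unpair.1 = 0)]
  refine congrArg₂ (· * ·) (Finset.prod_congr rfl fun k hk => ?_) ?_
  · rw [hd1 k (Finset.mem_filter.1 hk).2]
  · simp only [not_not]
    exact Finset.prod_congr rfl fun k hk => by rw [hd0 k (Finset.mem_filter.1 hk).2]

/-- The labels of the first clause and of the others are independent on the tree. -/
theorem integral_old_mul {f h : (Node K n → Lab) → ℝ} (hf : Measurable f) (hh : Measurable h) :
    ∫ ξ, f (fun v => old (ξ v)) * h (fun v => fresh (ξ v)) ∂casX K n labLaw =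
      (∫ ξ, f ξ ∂casX K n labLaw) * ∫ ξ, h ξ ∂casX K n labLaw := by
  have : IsProbabilityMeasure (casX K n labLaw) := by unfold P157.Casc.casX; infer_instance
  have h1 := (measurePreserving_arrowProdEquivProdArrow Lab Lab (Node K n) (fun _ => labLaw)
    fun _ => labLaw).symm
  have h2 := measurePreserving_pi (fun _ : Node K n => labLaw.prod labLaw) (fun _ => labLaw)
    (f := fun _ (p : Lab × Lab) => merge p.1 p.2) fun _ => mp_merge
  have hcomp := h2.comp h1
  have hG : Measurable fun ξ : Node K n → Lab =>
      f (fun v => old (ξ v)) * h (fun v => fresh (ξ v)) := by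
    refine (hf.comp (measurable_pi_lambda _ fun v => ?_)).mul
      (hh.comp (measurable_pi_lambda _ fun v => ?_))
    · exact (measurable_pi_lambda _ fun k => measurable_pi_apply (shiftI k)).comp (measurable_pi_apply v)
    · exact (measurable_pi_lambda _ fun k => measurable_pi_apply (Nat.pair 0 k)).comp
        (measurable_pi_apply v)
  simp only [P157.Casc.casX]
  conv_lhs => rw [← hcomp.map_eq,
    integral_map hcomp.measurable.aemeasurable hG.aestronglyMeasurable]
  simp only [Function.comp_apply, MeasurableEquiv.arrowProdEquivProdArrow,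
    MeasurableEquiv.coe_mk, MeasurableEquiv.symm_mk, Equiv.arrowProdEquivProdArrow,
    Equiv.coe_fn_symm_mk, old_merge, fresh_merge]
  exact integral_prod_mul f h

/-- The sign of a kind on a path of labels of one clause. -/
def flagF (P : PKind) (y : Fin K → Lab) : ℝ :=
  if List.ofFn (fun l => ⌊(P.1 : ℝ) * y l 0⌋₊) ∈ P.2.1 then 1
  else if h : 0 < K then (if y ⟨K - 1, by omega⟩ 1 < 1 / 2 then 1 else -1) else 1

theorem flag_zero (P : PKind) (y : Fin K → Lab) : flag P 0 y = flagF P fun l => fresh (y l) := rfl

theorem abs_flagF (P : PKind) (y : Fin K → Lab) : |flagF P y| = 1 := by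
  unfold flagF
  split_ifs <;> simp

theorem measurable_flagF (P : PKind) : Measurable (flagF (K := K) P) := by
  classical
  refine Measurable.ite ?_ measurable_const ?_
  · have h : Measurable fun (y : Fin K → Lab) (l : Fin K) => ⌊(P.1 : ℝ) * y l 0⌋₊ :=
      measurable_pi_lambda _ fun l => Nat.measurable_floor.comp
        (show Measurable fun y : Fin K → Lab => (P.1 : ℝ) * y l 0 by fun_prop)
    exact h (DiscreteMeasurableSpace.forall_measurableSet
      {v : Fin K → ℕ | List.ofFn v ∈ P.2.1})
  · split_ifs with h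
    · exact Measurable.ite (measurableSet_lt ((measurable_pi_apply _).comp (measurable_pi_apply _))
        measurable_const) measurable_const measurable_const
    · exact measurable_const

/-- The representative of a replica at a level. -/
def lrep (U : Lvls K q) (l : Fin K) (a : Fin q) : Fin q :=
  (Finset.univ.filter fun b => (l : ℕ) < (U a b : ℕ)).min.getD a

/-- The mean product of the signs of a kind over replicas with given levels. -/
def flagC (P : PKind) (U : Lvls K q) : ℝ :=
  ∫ η : Fin K × Fin q → Lab, ∏ a, flagF P (fun l => η (l, lrep U l a))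
    ∂(Measure.pi fun _ => labLaw)

theorem abs_prod_flagF (P : PKind) (y : Fin q → Fin K → Lab) : |∏ a, flagF P (y a)| ≤ 1 := by
  rw [Finset.abs_prod]
  exact le_of_eq (Finset.prod_eq_one fun a _ => abs_flagF P _)

theorem abs_flagC (P : PKind) (U : Lvls K q) : |flagC P U| ≤ 1 :=
  (norm_integral_le_of_norm_le_const (C := 1)
    (f := fun η : Fin K × Fin q → Lab => ∏ a, flagF P (fun l => η (l, lrep U l a)))
    (ae_of_all _ fun _ => abs_prod_flagF P _)).trans (by simp)

theorem com_lt_iff (α β : Leaf K n) (l : Fin K) : (l : ℕ) < (com α β : ℕ) ↔ node α l = node β l :=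
  (P157.Casc.node_eq_iff_lt α β l).symm

theorem com_min (α β γ : Leaf K n) : min (com α β) (com β γ) ≤ com α γ := by
  by_contra h
  simp only [not_le, lt_min_iff, Fin.lt_def] at h
  have hK : (com α γ : ℕ) < K := by have := (com α β).isLt; omega
  set l : Fin K := ⟨(com α γ : ℕ), hK⟩
  have e1 := (com_lt_iff α β l).1 h.1
  have e2 := (com_lt_iff β γ l).1 h.2
  exact (lt_irrefl _) ((com_lt_iff α γ l).2 (e1.trans e2))

theorem lrep_com (α : Fin q → Leaf K n) (l : Fin K) (a b : Fin q) :
    lrep (fun a b => com (α a) (α b)) l a = lrep (fun a b => com (α a) (α b)) l b ↔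
      node (α a) l = node (α b) l := by
  classical
  have hS : ∀ a, (Finset.univ.filter fun c => (l : ℕ) < (com (α a) (α c) : ℕ)) =
      Finset.univ.filter fun c => node (α a) l = node (α c) l := fun a =>
    Finset.filter_congr fun c _ => com_lt_iff _ _ _
  have hmem : ∀ a, ∃ m, lrep (fun a b => com (α a) (α b)) l a = m ∧ node (α a) l = node (α m) l := by
    intro a
    refine ⟨_, rfl, ?_⟩
    simp only [lrep, hS]
    obtain ⟨m, hm⟩ := Finset.min_of_mem (s := Finset.univ.filter fun c => node (α a) l = node (α c) l)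
      (a := a) (by simp)
    rw [hm]
    show node (α a) l = node (α m) l
    simpa using Finset.mem_of_min hm
  constructor
  · intro h
    obtain ⟨m, hm, hm'⟩ := hmem a
    obtain ⟨m', hm1, hm1'⟩ := hmem b
    rw [hm', hm1', ← hm, h, hm1]
  · intro h
    simp only [lrep, hS, h]
    obtain ⟨m, hm⟩ := Finset.min_of_mem (s := Finset.univ.filter fun c => node (α b) l = node (α c) l)
      (a := b) (by simp)
    rw [hm]
    rfl

/-- The mean product of the signs of a fresh clause on the paths of replicas. -/
theorem integral_flag_prod (P : PKind) (α : Fin q → Leaf K n) :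
    ∫ ξ, ∏ a, flagF P (path ξ (α a)) ∂casX K n labLaw = flagC P fun a b => com (α a) (α b) := by
  classical
  set U : Lvls K q := fun a b => com (α a) (α b)
  set I : Finset (Node K n) := Finset.univ.image fun p : Fin K × Fin q => node (α p.2) p.1
  have hI : ∀ (l : Fin K) (a : Fin q), node (α a) l ∈ I := fun l a =>
    Finset.mem_image.2 ⟨(l, a), Finset.mem_univ _, rfl⟩
  have hsel : ∀ v : I, ∃ p : Fin K × Fin q, node (α p.2) p.1 = v.1 := fun v => by
    obtain ⟨p, -, hp⟩ := Finset.mem_image.1 v.2
    exact ⟨p, hp⟩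
  choose sel hsel using hsel
  set e1 : I → Node K n := fun v => v.1
  set e2 : I → Fin K × Fin q := fun v => ((sel v).1, lrep U (sel v).1 (sel v).2)
  have he2 : Function.Injective e2 := by
    intro v w h
    simp only [e2, Prod.mk.injEq] at h
    refine Subtype.ext ?_
    rw [← hsel v, ← hsel w]
    obtain ⟨hl, hr⟩ := h
    rw [← hl] at hr ⊢
    exact (lrep_com α _ _ _).1 hr
  have hkey : ∀ (η : Fin K × Fin q → Lab) (a : Fin q) (l : Fin K),
      η (e2 ⟨node (α a) l, hI l a⟩) = η (l, lrep U l a) := by
    intro η a l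
    have hv := hsel ⟨node (α a) l, hI l a⟩
    generalize sel ⟨node (α a) l, hI l a⟩ = p at hv
    obtain ⟨p1, p2⟩ := p
    have hl : p1 = l := congrArg Sigma.fst hv
    subst hl
    simp only [e2]
    rw [show sel ⟨node (α a) p1, hI p1 a⟩ = ((sel ⟨node (α a) p1, hI p1 a⟩).1,
      (sel ⟨node (α a) p1, hI p1 a⟩).2) from rfl]
    have hv' := hsel ⟨node (α a) p1, hI p1 a⟩
    have hl' : (sel ⟨node (α a) p1, hI p1 a⟩).1 = p1 := congrArg Sigma.fst hv'
    rw [hl'] at hv' ⊢
    exact congrArg (fun r => η (p1, r)) ((lrep_com α p1 _ _).2 hv')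
  set Φ : (I → Lab) → ℝ := fun ζ => ∏ a, flagF P (fun l => ζ ⟨node (α a) l, hI l a⟩)
  have hΦ : Measurable Φ := Finset.measurable_prod _ fun a _ =>
    (measurable_flagF P).comp (measurable_pi_lambda _ fun l => measurable_pi_apply _)
  have m1 := P157.mp_comp (μ := labLaw) (e := e1) Subtype.val_injective
  have m2 := P157.mp_comp (μ := labLaw) (e := e2) he2
  calc ∫ ξ, ∏ a, flagF P (path ξ (α a)) ∂casX K n labLaw
      = ∫ ζ, Φ ζ ∂(Measure.pi fun _ : I => labLaw) := by
        rw [← m1.map_eq, integral_map m1.measurable.aemeasurable hΦ.aestronglyMeasurable]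
        rfl
    _ = flagC P U := by
        rw [← m2.map_eq, integral_map m2.measurable.aemeasurable hΦ.aestronglyMeasurable]
        simp only [Φ, hkey]
        rfl

end Vale.Agent.P168
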