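import Vale.Agent.P157.Casc.GGFluct
import Vale.Agent.P168.Conc.Sys

/-!
P168: the energy of one kind of perturbing clauses concentrates, on average over its parameter.
-/

open MeasureTheory ProbabilityTheory Filter Topology
open scoped NNReal ENNReal

noncomputable section

namespace Vale.Agent.P168

open P157.Casc (mlev cst logS gibbs casW casX path)

variable {Kc N K n : ℕ}

/-- The energy of kind `j` at a state. -/
def eK (j : ℕ) (q : Env Kc N K n) (st : St N K n) : ℝ :=
  kE j q.1.2 (path q.2.2 st.1) st.2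

theorem measurable_eK (j : ℕ) (st : St N K n) :
    Measurable fun q : Env Kc N K n => eK j q st :=
  Measurable.comp (g := fun u : Pert N × (Fin K → Lab) => kE j u.1 u.2 st.2)
    (f := fun q : Env Kc N K n => (q.1.2, path q.2.2 st.1)) (measurable_kE j st.2)
    ((measurable_snd.comp measurable_fst).prodMk
      ((P157.Casc.measurable_path st.1).comp (measurable_snd.comp measurable_snd)))

/-- The number of clauses of kind `j`. -/
def nK (j : ℕ) (q : Env Kc N K n) : ℝ := cnt {t : ℕ × Fin N | t.1 = j} q.1.2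

theorem abs_eK_le (j : ℕ) (q : Env Kc N K n) (st : St N K n) : |eK j q st| ≤ nK j q :=
  abs_kE_le j _ _ _

theorem nK_nonneg (j : ℕ) (q : Env Kc N K n) : 0 ≤ nK j q := by
  unfold nK cnt
  exact Finset.sum_nonneg fun _ _ => Set.indicator_nonneg (fun _ _ => zero_le_one) _

/-- Weights with the parameter of kind `j` moved to zero. -/
def sU (L : ℝ) (x : ℕ → ℝ) (j : ℕ) (q : Env Kc N K n) (st : St N K n) : ℝ :=
  sW L (Function.update x j 0) q st

theorem sW_tilt (L : ℝ) (x : ℕ → ℝ) (j : ℕ) (s : ℝ) (q : Env Kc N K n) (st : St N K n) :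
    sW L (Function.update x j s) q st = sU L x j q st * Real.exp (cl 0 3 s * eK j q st) := by
  have hu : ∀ s, clX (Function.update x j s) = Function.update (clX x) j (cl 0 3 s) := fun s => by
    funext i
    by_cases h : i = j
    · subst h; simp [clX]
    · simp [clX, h]
  simp only [sU, sW, sysW, sysY, hu, pertE_update, eK, clZ, show cl 0 3 (0 : ℝ) = 0 from by simp [cl],
    mul_assoc, ← Real.exp_add]
  ring_nf

theorem log_sum_tilt_le {T : Type*} [Fintype T] [Nonempty T] {u ξ : T → ℝ} (hu : ∀ t, 0 < u t)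
    {a b D : ℝ} (hD : ∀ t, a * ξ t ≤ b * ξ t + D) :
    Real.log (∑ t, u t * Real.exp (a * ξ t)) ≤ Real.log (∑ t, u t * Real.exp (b * ξ t)) + D := by
  have h0 : ∀ r, 0 < ∑ t, u t * Real.exp (r * ξ t) := fun r =>
    Finset.sum_pos (fun t _ => mul_pos (hu t) (Real.exp_pos _)) Finset.univ_nonempty
  rw [← Real.log_exp D, ← Real.log_mul (h0 b).ne' (Real.exp_pos _).ne', Finset.sum_mul]
  refine Real.log_le_log (h0 a) (Finset.sum_le_sum fun t _ => ?_)
  rw [mul_assoc, ← Real.exp_add]
  exact mul_le_mul_of_nonneg_left (Real.exp_le_exp.2 (hD t)) (hu t).le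

theorem abs_lsum_tilt [NeZero n] (L : ℝ) (x : ℕ → ℝ) (j : ℕ) (s s' : ℝ) (q : Env Kc N K n) :
    |lsum L (Function.update x j s) q - lsum L (Function.update x j s') q| ≤ |s - s'| * nK j q := by
  have key : ∀ a b, lsum L (Function.update x j a) q ≤ lsum L (Function.update x j b) q
      + |a - b| * nK j q := fun a b => by
    simp only [lsum, sW_tilt]
    refine log_sum_tilt_le (fun st => sW_pos L _ q st) fun st => ?_
    have h1 : |cl 0 3 a - cl 0 3 b| ≤ |a - b| := by
      simp only [cl]
      exact (abs_max_sub_max_le_max _ _ _ _).trans (max_le (by simp) ((abs_min_sub_min_le_max _ _ _ _).trans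
        (max_le (by simp) le_rfl)))
    have h2 := le_abs_self ((cl 0 3 a - cl 0 3 b) * eK j q st)
    rw [abs_mul] at h2
    nlinarith [mul_le_mul h1 (abs_eK_le j q st) (abs_nonneg _) (abs_nonneg _)]
  refine abs_le.2 ⟨?_, ?_⟩
  · have := key s' s
    rw [abs_sub_comm s'] at this
    linarith
  · linarith [key s s']

theorem abs_lsum_le [NeZero n] {L : ℝ} (hL : 0 ≤ L) (x : ℕ → ℝ) (q : Env Kc N K n) :
    |lsum L x q| ≤ |lsum L (fun _ => 0) q| + 2 * env L q.1 := by
  have key : ∀ x x', lsum L x q ≤ lsum L x' q + 2 * env L q.1 := fun x x' => by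
    simp only [lsum_eq, logS]
    have hpos : ∀ x, 0 < ∑ α, P157.Casc.wgt (mlev K) (posW q.2.1) α *
        Y0 (clX x) (clZ L q.1) (path q.2.2 α) := fun x => Finset.sum_pos
      (fun α _ => mul_pos (P157.Casc.wgt_pos _ (posW_pos _) _) (Y0_pos _ _ _)) Finset.univ_nonempty
    rw [← Real.log_exp (2 * env L q.1), ← Real.log_mul (hpos x').ne' (Real.exp_pos _).ne',
      Finset.sum_mul]
    refine Real.log_le_log (hpos x) (Finset.sum_le_sum fun α _ => ?_)
    rw [mul_assoc]
    refine mul_le_mul_of_nonneg_left ?_ (P157.Casc.wgt_pos _ (posW_pos _) _).le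
    refine (Y0_mem hL x q.1 _).2.trans ((le_of_eq ?_).trans
      (mul_le_mul_of_nonneg_right (Y0_mem hL x' q.1 _).1 (Real.exp_pos _).le))
    rw [← Real.exp_add]
    ring_nf
  have h1 := key x fun _ => 0
  have h2 := key (fun _ => 0) x
  exact abs_le.2 ⟨by linarith [neg_abs_le (lsum L (fun _ => 0) q)],
    by linarith [le_abs_self (lsum L (fun _ => 0) q)]⟩

theorem gibbs_sW [NeZero n] (L : ℝ) (x : ℕ → ℝ) (q : Env Kc N K n) :
    (∀ st, 0 ≤ gibbs (sW L x q) st) ∧ ∑ st, gibbs (sW L x q) st = 1 :=
  ⟨fun _ => P157.Casc.gibbs_nonneg' (sW_pos L x q) _, P157.Casc.gibbs_sum' (sW_pos L x q)⟩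

theorem measurable_gibbs (L : ℝ) (st : St N K n) :
    Measurable fun p : (ℕ → ℝ) × Env Kc N K n => gibbs (sW L p.1 p.2) st :=
  (measurable_sW L st).div (Finset.measurable_sum Finset.univ
    (f := fun (st : St N K n) (p : (ℕ → ℝ) × Env Kc N K n) => sW L p.1 p.2 st)
    fun st _ => measurable_sW L st)

variable [NeZero N] [NeZero n] (μ : Measure (Clause Kc)) (ν : Measure ℝ) [IsProbabilityMeasure μ]
  [IsProbabilityMeasure ν]

/-- Mean logarithm. -/
def phiS (L : ℝ) (c s : ℝ≥0) (K n : ℕ) (x : ℕ → ℝ) : ℝ :=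
  ∫ q, lsum L x q ∂sysLaw μ ν N c s K n

/-- Mean energy of kind `j`. -/
def kmean (L : ℝ) (c s : ℝ≥0) (K n j : ℕ) (x : ℕ → ℝ) : ℝ :=
  ∫ q, ∑ st, gibbs (sW L x q) st * eK j q st ∂sysLaw μ ν N c s K n

/-- Fluctuation of the energy of kind `j`. -/
def fl (L : ℝ) (c s : ℝ≥0) (K n j : ℕ) (x : ℕ → ℝ) : ℝ :=
  ∫ q, ∑ st, gibbs (sW L x q) st * |eK j q st - kmean (N := N) μ ν L c s K n j x|
    ∂sysLaw μ ν N c s K n

omit [NeZero n] in
theorem integrable_nK (c s : ℝ≥0) (j : ℕ) :
    Integrable (fun q : Env Kc N K n => nK j q) (sysLaw μ ν N c s K n) ∧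
      ∫ q, nK j q ∂sysLaw μ ν N c s K n ≤ s := by
  have hS : MeasurableSet {t : ℕ × Fin N | t.1 = j} :=
    measurable_fst (measurableSet_singleton j)
  have h : Integrable (fun p => cnt {t : ℕ × Fin N | t.1 = j} p)
      (plaw s (kindLaw.prod (unif (Fin N)))) :=
    integrable_plaw (measurable_cnt hS) (abs_cnt_le _)
  refine ⟨(h.comp_snd _).comp_fst _, ?_⟩
  simp only [sysLaw, rootLaw, nK]
  rw [integral_fun_fst (f := fun z : Base Kc N × Pert N => cnt {t : ℕ × Fin N | t.1 = j} z.2),
    integral_fun_snd (f := fun p : Pert N => cnt {t : ℕ × Fin N | t.1 = j} p), mean_cnt hS]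
  simp only [probReal_univ, one_smul]
  exact mul_le_of_le_one_right s.coe_nonneg measureReal_le_one

/-- Averages of functions dominated by the number of clauses of kind `j`. -/
theorem integrable_gibbs_sum {L : ℝ} (c s : ℝ≥0) (x : ℕ → ℝ) (j : ℕ)
    {f : Env Kc N K n → St N K n → ℝ} (hf : ∀ st, Measurable fun q => f q st) {a b : ℝ}
    (hb : ∀ q st, |f q st| ≤ a * nK j q + b) :
    Integrable (fun q => ∑ st, gibbs (sW L x q) st * f q st) (sysLaw μ ν N c s K n) ∧
      |∫ q, ∑ st, gibbs (sW L x q) st * f q st ∂sysLaw μ ν N c s K n| ≤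
        a * (∫ q, nK j q ∂sysLaw μ ν N c s K n) + b := by
  have hg : Integrable (fun q : Env Kc N K n => a * nK j q + b) (sysLaw μ ν N c s K n) :=
    ((integrable_nK μ ν c s j).1.const_mul a).add (integrable_const b)
  have hle : ∀ q, |∑ st, gibbs (sW L x q) st * f q st| ≤ a * nK j q + b := fun q => by
    obtain ⟨h0, h1⟩ := gibbs_sW L x q
    refine (Finset.abs_sum_le_sum_abs _ _).trans ((Finset.sum_le_sum fun st _ => ?_).trans_eq
      (by rw [← Finset.sum_mul, h1, one_mul]))
    rw [abs_mul, abs_of_nonneg (h0 st)]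
    exact mul_le_mul_of_nonneg_left (hb q st) (h0 st)
  have hm : Measurable fun q => ∑ st, gibbs (sW L x q) st * f q st :=
    Finset.measurable_sum Finset.univ
      (f := fun (st : St N K n) q => gibbs (sW L x q) st * f q st) fun st _ =>
      ((measurable_gibbs L st).comp (measurable_const.prodMk measurable_id)).mul (hf st)
  have hi : Integrable (fun q => ∑ st, gibbs (sW L x q) st * f q st) (sysLaw μ ν N c s K n) :=
    hg.mono' hm.aestronglyMeasurable (ae_of_all _ hle)
  refine ⟨hi, abs_integral_le_integral_abs.trans ((integral_mono hi.abs hg hle).trans_eq ?_)⟩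
  rw [integral_add ((integrable_nK μ ν c s j).1.const_mul a) (integrable_const b), integral_const_mul]
  simp

omit [NeZero N] [IsProbabilityMeasure μ] [IsProbabilityMeasure ν] in
theorem fl_nonneg (L : ℝ) (c s : ℝ≥0) (j : ℕ) (x : ℕ → ℝ) : 0 ≤ fl (N := N) μ ν L c s K n j x :=
  integral_nonneg fun q => Finset.sum_nonneg fun st _ =>
    mul_nonneg ((gibbs_sW L x q).1 st) (abs_nonneg _)

omit [NeZero N] [NeZero n] [IsProbabilityMeasure μ] [IsProbabilityMeasure ν] in
theorem devA_nonneg (L : ℝ) (c s : ℝ≥0) (x : ℕ → ℝ) : 0 ≤ devA (N := N) μ ν L c s K n x :=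
  integral_nonneg fun _ => abs_nonneg _

theorem lsum_dev {L : ℝ} (hL : 0 ≤ L) (c s : ℝ≥0) (x : ℕ → ℝ) :
    Integrable (fun q => |lsum L x q - phiS (N := N) μ ν L c s K n x|) (sysLaw μ ν N c s K n) ∧
    ∫ q, |lsum L x q - phiS (N := N) μ ν L c s K n x| ∂sysLaw μ ν N c s K n ≤
      2 * (devA (N := N) μ ν L c s K n x + devC L N c s) := by
  obtain ⟨hl, hr⟩ := integrable_fix (μ := μ) (ν := ν) (N := N) (K := K) (n := n) hL c s x
  set R := ∫ z, rroot K L x z ∂rootLaw μ ν N c s
  set m := cst (mlev K) n + R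
  have hd : Integrable (fun q => |lsum L x q - m|) (sysLaw μ ν N c s K n) :=
    (hl.sub (integrable_const m)).abs
  refine ⟨(hl.sub (integrable_const _)).abs, ?_⟩
  have hA : Integrable (fun q : Env Kc N K n => |lsum L x q - cst (mlev K) n - rroot K L x q.1|)
      (sysLaw μ ν N c s K n) := ((hl.sub (integrable_const _)).sub hr).abs
  have hR : Integrable (fun q : Env Kc N K n => |rroot K L x q.1 - R|) (sysLaw μ ν N c s K n) :=
    (hr.sub (integrable_const R)).abs
  have hm : ∫ q, |lsum L x q - m| ∂sysLaw μ ν N c s K n ≤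
      devA (N := N) μ ν L c s K n x + devC L N c s := by
    refine (integral_mono hd (hA.add hR) fun q => ?_).trans ?_
    · simp only [Pi.add_apply, m]
      exact (abs_sub_le (lsum L x q) (cst (mlev K) n + rroot K L x q.1) _).trans
        (add_le_add (le_of_eq (by rw [sub_sub]))
          (le_of_eq (by rw [add_sub_add_left_eq_sub])))
    · rw [integral_add' hA hR]
      refine add_le_add le_rfl ?_
      simp only [sysLaw]
      rw [integral_fun_fst (f := fun z : Base Kc N × Pert N => |rroot K L x z - R|)]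
      simp only [probReal_univ, one_smul]
      exact dev_rroot μ ν hL c s x
  have he : |phiS (N := N) μ ν L c s K n x - m| ≤ ∫ q, |lsum L x q - m| ∂sysLaw μ ν N c s K n := by
    have e : phiS (N := N) μ ν L c s K n x - m = ∫ q, (lsum L x q - m) ∂sysLaw μ ν N c s K n := by
      rw [integral_sub hl (integrable_const _)]
      simp [phiS]
    rw [e]
    exact abs_integral_le_integral_abs
  refine (integral_mono (hl.sub (integrable_const _)).abs (hd.add (integrable_const
    (∫ q, |lsum L x q - m| ∂sysLaw μ ν N c s K n))) fun q => ?_).trans ?_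
  · simp only [Pi.add_apply, Pi.sub_apply]
    rw [abs_sub_comm (phiS (N := N) μ ν L c s K n x) m] at he
    exact (abs_sub_le _ m _).trans (add_le_add le_rfl he)
  · rw [integral_add' hd (integrable_const _), integral_const, probReal_univ, one_smul]
    linarith

/-- The fluctuation from the second difference and the deviations. -/
theorem fl_le {L : ℝ} (hL : 0 ≤ L) (c s : ℝ≥0) (j : ℕ) (x : ℕ → ℝ) {δ : ℝ} (hδ : 0 < δ)
    (h0 : δ ≤ x j) (h3 : x j + δ ≤ 3) :
    fl (N := N) μ ν L c s K n j x ≤
      2 * (Real.log 2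
        + (phiS (N := N) μ ν L c s K n (Function.update x j (x j + δ))
            + phiS (N := N) μ ν L c s K n (Function.update x j (x j - δ))
            - 2 * phiS (N := N) μ ν L c s K n x) / 2
        + 2 * (devA (N := N) μ ν L c s K n (Function.update x j (x j + δ))
            + devA (N := N) μ ν L c s K n (Function.update x j (x j - δ))
            + devA (N := N) μ ν L c s K n x) + 6 * devC L N c s) / δ := by
  set P := fun a => phiS (N := N) μ ν L c s K n (Function.update x j a)
  set m0 := (P (x j + δ) - P (x j - δ)) / (2 * δ) with hm0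
  set φ := fun (a : ℝ) (q : Env Kc N K n) => lsum L (Function.update x j a) q
  have hx0 : φ (x j) = fun q => lsum L x q := by simp [φ]
  have hP0 : P (x j) = phiS (N := N) μ ν L c s K n x := by simp [P]
  set H := (P (x j + δ) + P (x j - δ) - 2 * P (x j)) / 2
  have hd := fun a => lsum_dev μ ν (N := N) (K := K) (n := n) hL c s (Function.update x j a)
  set D := fun a (q : Env Kc N K n) => |φ a q - P a|
  have hb : ∀ q, ∑ st, gibbs (sW L x q) st * |eK j q st - m0| ≤
      (Real.log 2 + H + (D (x j + δ) q + D (x j - δ) q + D (x j) q)) / δ := fun q => by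
    rw [le_div_iff₀ hδ, mul_comm]
    have hcl : ∀ a, 0 ≤ a → a ≤ 3 → cl 0 3 a = a := fun a h h' => cl_eq ⟨h, h'⟩
    have h := P157.Casc.abs_field_le (u := sU L x j q) (ξ := fun st => eK j q st)
      (fun st => sW_pos L _ q st) (x j) δ m0
    have e : ∀ a, 0 ≤ a → a ≤ 3 → ∀ st,
        sU L x j q st * Real.exp (a * eK j q st) = sW L (Function.update x j a) q st :=
      fun a h h' st => by rw [sW_tilt, hcl a h h']
    simp only [e (x j + δ) (by linarith) h3, e (x j - δ) (by linarith) (by linarith),
      e (x j) (by linarith) (by linarith), Function.update_eq_self] at h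
    refine h.trans ?_
    set A := φ (x j + δ) q - φ (x j) q - δ * m0
    set A' := φ (x j - δ) q - φ (x j) q + δ * m0
    have eA : ∀ a, Real.log (∑ st, sW L (Function.update x j a) q st) = φ a q := fun a => rfl
    rw [show Real.log (∑ st, sW L x q st) = φ (x j) q from (congrFun hx0 q).symm, eA, eA]
    show Real.log (Real.exp A + Real.exp A') ≤ _
    have hH : δ * m0 = (P (x j + δ) - P (x j - δ)) / 2 := by rw [hm0]; field_simp
    have hA : A ≤ H + (D (x j + δ) q + D (x j - δ) q + D (x j) q) := by
      simp only [A, H, D, hH]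
      linarith [le_abs_self (φ (x j + δ) q - P (x j + δ)), abs_nonneg (φ (x j - δ) q - P (x j - δ)),
        neg_abs_le (φ (x j) q - P (x j))]
    have hA' : A' ≤ H + (D (x j + δ) q + D (x j - δ) q + D (x j) q) := by
      simp only [A', H, D, hH]
      linarith [le_abs_self (φ (x j - δ) q - P (x j - δ)), abs_nonneg (φ (x j + δ) q - P (x j + δ)),
        neg_abs_le (φ (x j) q - P (x j))]
    refine (Real.log_le_log (by positivity)
      (add_le_add (Real.exp_le_exp.2 hA) (Real.exp_le_exp.2 hA'))).trans (le_of_eq ?_)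
    rw [← two_mul, Real.log_mul two_ne_zero (Real.exp_pos _).ne', Real.log_exp]
    ring
  have hg1 := integrable_gibbs_sum μ ν (N := N) (K := K) (n := n) (L := L) c s x j
    (f := fun q st => |eK j q st - m0|) (fun st => ((measurable_eK j st).sub_const m0).norm)
    (a := 1) (b := |m0|) fun q st => by
      rw [abs_abs]
      exact (abs_sub _ _).trans (by linarith [abs_eK_le j q st])
  have hDi : ∀ a, Integrable (fun q => D a q) (sysLaw μ ν N c s K n) := fun a => (hd a).1
  have hm : ∫ q, ∑ st, gibbs (sW L x q) st * |eK j q st - m0| ∂sysLaw μ ν N c s K n ≤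
      (Real.log 2 + H + 2 * (devA (N := N) μ ν L c s K n (Function.update x j (x j + δ))
        + devA (N := N) μ ν L c s K n (Function.update x j (x j - δ))
        + devA (N := N) μ ν L c s K n x) + 6 * devC L N c s) / δ := by
    have h12 : Integrable (fun q => D (x j + δ) q + D (x j - δ) q) (sysLaw μ ν N c s K n) :=
      (hDi _).add (hDi _)
    have h123 : Integrable (fun q => D (x j + δ) q + D (x j - δ) q + D (x j) q)
        (sysLaw μ ν N c s K n) := h12.add (hDi _)
    refine (integral_mono hg1.1 (((integrable_const _).add h123).div_const δ) hb).trans ?_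
    simp only [Pi.add_apply]
    rw [integral_div, integral_add (integrable_const _) h123, integral_add h12 (hDi _),
      integral_add (hDi _) (hDi _)]
    refine div_le_div_of_nonneg_right ?_ hδ.le
    simp only [integral_const, probReal_univ, one_smul]
    have h1 := (hd (x j + δ)).2
    have h2 := (hd (x j - δ)).2
    have h4 := (hd (x j)).2
    simp only [Function.update_eq_self] at h4
    simp only [D, φ, P, Function.update_eq_self]
    linarith
  -- replace `m0` by the mean
  set k0 := kmean (N := N) μ ν L c s K n j x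
  have hk : |k0 - m0| ≤ ∫ q, ∑ st, gibbs (sW L x q) st * |eK j q st - m0| ∂sysLaw μ ν N c s K n := by
    have hi := (integrable_gibbs_sum μ ν (N := N) (K := K) (n := n) (L := L) c s x j
      (f := fun q st => eK j q st) (fun st => measurable_eK j st) (a := 1) (b := 0)
      fun q st => by simpa using abs_eK_le j q st).1
    have e : k0 - m0 = ∫ q, (∑ st, gibbs (sW L x q) st * eK j q st - m0) ∂sysLaw μ ν N c s K n := by
      rw [integral_sub hi (integrable_const _)]
      simp [k0, kmean]
    rw [e]
    refine abs_integral_le_integral_abs.trans (integral_mono (hi.sub (integrable_const _)).abs hg1.1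
      fun q => ?_)
    obtain ⟨g0, g1⟩ := gibbs_sW L x q
    conv_lhs => rw [← one_mul m0, ← g1, Finset.sum_mul, ← Finset.sum_sub_distrib]
    refine (Finset.abs_sum_le_sum_abs _ _).trans (le_of_eq (Finset.sum_congr rfl fun st _ => ?_))
    rw [← mul_sub, abs_mul, abs_of_nonneg (g0 st)]
  have hf : fl (N := N) μ ν L c s K n j x ≤
      2 * ∫ q, ∑ st, gibbs (sW L x q) st * |eK j q st - m0| ∂sysLaw μ ν N c s K n := by
    refine (integral_mono (integrable_gibbs_sum μ ν (N := N) (K := K) (n := n) (L := L) c s x j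
      (f := fun q st => |eK j q st - k0|) (fun st => ((measurable_eK j st).sub_const k0).norm)
      (a := 1) (b := |k0|) fun q st => by
        rw [abs_abs]
        exact (abs_sub _ _).trans (by linarith [abs_eK_le j q st])).1
      (hg1.1.add (integrable_const |k0 - m0|)) fun q => ?_).trans ?_
    · obtain ⟨g0, g1⟩ := gibbs_sW L x q
      simp only [Pi.add_apply]
      conv_rhs => rw [← one_mul |k0 - m0|, ← g1, Finset.sum_mul, ← Finset.sum_add_distrib]
      refine Finset.sum_le_sum fun st _ => ?_
      rw [← mul_add]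
      refine mul_le_mul_of_nonneg_left ?_ (g0 st)
      rw [abs_sub_comm k0]
      exact abs_sub_le _ _ _
    · rw [integral_add' hg1.1 (integrable_const _), integral_const, probReal_univ, one_smul,
        two_mul]
      exact add_le_add le_rfl hk
  refine hf.trans ((mul_le_mul_of_nonneg_left hm two_pos.le).trans_eq ?_)
  rw [show H = (P (x j + δ) + P (x j - δ) - 2 * P (x j)) / 2 from rfl, hP0]
  ring

end Vale.Agent.P168
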