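import Vale.Agent.P168.Model

/-!
P168: integrals over Poisson lists, the Palm formula, the number of elements in a set and the
effect of one more element.
-/

open MeasureTheory ProbabilityTheory Filter Topology
open scoped NNReal ENNReal

noncomputable section

namespace Vale.Agent.P168

variable {T : Type} [MeasurableSpace T] {Z E : Type*} [MeasurableSpace Z] [MeasurableSpace E]

/-- The lists of one length embed measurably. -/
theorem measurableEmbedding_mk (k : ℕ) :
    MeasurableEmbedding (Sigma.mk (β := fun k => Fin k → T) k) := by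
  refine ⟨sigma_mk_injective, fun s hs => ?_, fun s hs => ?_⟩
  · exact MeasurableSpace.measurableSet_iInf.1 hs k
  · refine MeasurableSpace.measurableSet_iInf.2 fun a => ?_
    show MeasurableSet ((Sigma.mk (β := fun k => Fin k → T) a) ⁻¹' (Sigma.mk k '' s))
    by_cases h : a = k
    · subst h
      rwa [Set.preimage_image_eq _ sigma_mk_injective]
    · have : (Sigma.mk (β := fun k => Fin k → T) a) ⁻¹' (Sigma.mk k '' s) = ∅ := by
        ext v
        simp only [Set.mem_preimage, Set.mem_image, Set.mem_empty_iff_false, iff_false]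
        rintro ⟨u, -, hu⟩
        exact h (congrArg Sigma.fst hu).symm
      rw [this]
      exact MeasurableSet.empty

theorem measurable_mk (k : ℕ) : Measurable (Sigma.mk (β := fun k => Fin k → T) k) :=
  (measurableEmbedding_mk k).measurable

/-- A function of lists is measurable when it is so on every length. -/
theorem measurable_pl {f : PL T → E} (h : ∀ k, Measurable fun v : Fin k → T => f ⟨k, v⟩) :
    Measurable f := fun _ hs => MeasurableSpace.measurableSet_iInf.2 fun k => h k hs

/-- The same with a parameter. -/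
theorem measurable_pl_prod {f : PL T × Z → E}
    (h : ∀ k, Measurable fun q : (Fin k → T) × Z => f (⟨k, q.1⟩, q.2)) : Measurable f := by
  intro s hs
  have e : f ⁻¹' s = ⋃ k, Prod.map (Sigma.mk k) id ''
      ((fun q : (Fin k → T) × Z => f (⟨k, q.1⟩, q.2)) ⁻¹' s) := by
    ext ⟨⟨k, v⟩, z⟩
    simp only [Set.mem_preimage, Set.mem_iUnion, Set.mem_image]
    constructor
    · exact fun hz => ⟨k, (v, z), hz, rfl⟩
    · rintro ⟨k', ⟨v', z'⟩, hz, he⟩
      have := (Prod.ext_iff.1 he).1
      have h2 : z' = z := (Prod.ext_iff.1 he).2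
      simp only [Prod.map] at this
      rw [← this, ← h2]
      exact hz
  rw [e]
  exact MeasurableSet.iUnion fun k => ((measurableEmbedding_mk k).prodMap
    MeasurableEmbedding.id).measurableSet_image.2 (h k hs)

/-- The same with the parameter on the left. -/
theorem measurable_prod_pl {f : Z × PL T → E}
    (h : ∀ k, Measurable fun q : Z × (Fin k → T) => f (q.1, ⟨k, q.2⟩)) : Measurable f :=
  (measurable_pl_prod (f := f ∘ Prod.swap) fun k => (h k).comp measurable_swap).comp measurable_swap

omit [MeasurableSpace T] in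
theorem PL.add_def (t : T) (k : ℕ) (v : Fin k → T) :
    PL.add t ⟨k, v⟩ = ⟨k + 1, Fin.cons t v⟩ := rfl

theorem measurable_cons' (k : ℕ) :
    Measurable fun q : T × (Fin k → T) => (Fin.cons q.1 q.2 : Fin (k + 1) → T) :=
  measurable_pi_lambda _ fun i => by
    refine Fin.cases ?_ (fun j => ?_) i
    · simp only [Fin.cons_zero]; exact measurable_fst
    · simp only [Fin.cons_succ]; exact (measurable_pi_apply j).comp measurable_snd

theorem measurable_add : Measurable fun q : T × PL T => PL.add q.1 q.2 :=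
  measurable_prod_pl fun k => (measurable_mk (k + 1)).comp (measurable_cons' k)

/-- The probability of a length. -/
def pw (c : ℝ≥0) (k : ℕ) : ℝ := (poissonMeasure c).real {k}

theorem pw_eq (c : ℝ≥0) (k : ℕ) : pw c k = Real.exp (-c) * (c : ℝ) ^ k / k.factorial :=
  poissonMeasure_real_singleton c k

theorem pw_nonneg (c : ℝ≥0) (k : ℕ) : 0 ≤ pw c k := measureReal_nonneg

theorem pw_succ (c : ℝ≥0) (k : ℕ) : ((k : ℝ) + 1) * pw c (k + 1) = c * pw c k := by
  rw [pw_eq, pw_eq, Nat.factorial_succ, pow_succ]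
  push_cast
  field_simp

theorem summable_pw (c : ℝ≥0) : Summable (pw c) := by
  refine (hasSum_one_poissonMeasure c).summable.congr fun k => ?_
  rw [pw_eq]

theorem summable_pw_pow (c : ℝ≥0) : ∀ n : ℕ, Summable fun k : ℕ => pw c k * ((k : ℝ) + 1) ^ n
  | 0 => by simpa using summable_pw c
  | n + 1 => by
    rw [← summable_nat_add_iff 1]
    refine Summable.of_nonneg_of_le (fun k => mul_nonneg (pw_nonneg c _) (by positivity))
      (fun k => ?_) ((summable_pw_pow c n).mul_left ((c : ℝ) * 2 ^ (n + 1)))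
    push_cast
    have h1 : ((k : ℝ) + 1 + 1) ^ (n + 1) ≤ 2 ^ (n + 1) * (((k : ℝ) + 1) ^ n * ((k : ℝ) + 1)) := by
      rw [← pow_succ, ← mul_pow]
      exact pow_le_pow_left₀ (by positivity) (by linarith [k.cast_nonneg (α := ℝ)]) _
    refine (mul_le_mul_of_nonneg_left h1 (pw_nonneg c _)).trans_eq ?_
    calc pw c (k + 1) * (2 ^ (n + 1) * (((k : ℝ) + 1) ^ n * ((k : ℝ) + 1)))
        = 2 ^ (n + 1) * ((k : ℝ) + 1) ^ n * (((k : ℝ) + 1) * pw c (k + 1)) := by ring
      _ = (c : ℝ) * 2 ^ (n + 1) * (pw c k * ((k : ℝ) + 1) ^ n) := by rw [pw_succ]; ring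

variable {c : ℝ≥0} {τ : Measure T} [IsProbabilityMeasure τ]

instance plaw_prob : IsProbabilityMeasure (plaw c τ) := by
  constructor
  rw [plaw, Measure.sum_apply _ MeasurableSet.univ]
  simp only [Measure.smul_apply, smul_eq_mul,
    Measure.map_apply (measurable_mk _) MeasurableSet.univ, Set.preimage_univ, measure_univ,
    mul_one]
  rw [← measure_iUnion (fun i j hij => by simpa using hij) fun i => measurableSet_singleton i,
    Set.iUnion_of_singleton, measure_univ]

theorem pw_smul_toReal (k : ℕ) : (poissonMeasure c {k}).toReal = pw c k := rfl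

/-- Functions of at most polynomial growth in the length are integrable. -/
theorem integrable_plaw {G : PL T → ℝ} (hG : Measurable G) {A : ℝ} {n : ℕ}
    (hb : ∀ p, |G p| ≤ A * ((p.1 : ℝ) + 1) ^ n) : Integrable G (plaw c τ) := by
  have hk : ∀ k, Integrable (fun v : Fin k → T => G ⟨k, v⟩) (Measure.pi fun _ => τ) := fun k =>
    (integrable_const (A * ((k : ℝ) + 1) ^ n)).mono' (hG.comp (measurable_mk k)).aestronglyMeasurable
      (ae_of_all _ fun v => hb ⟨k, v⟩)
  rw [plaw, integrable_sum_measure_iff]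
  refine ⟨fun k => ((integrable_map_measure hG.aestronglyMeasurable
    (measurable_mk k).aemeasurable).2 (hk k)).smul_measure (measure_ne_top _ _), ?_⟩
  refine Summable.of_nonneg_of_le (fun k => integral_nonneg fun p => norm_nonneg _) (fun k => ?_)
    ((summable_pw_pow c n).mul_left |A|)
  rw [integral_smul_measure, smul_eq_mul, pw_smul_toReal,
    integral_map (measurable_mk k).aemeasurable hG.norm.aestronglyMeasurable, mul_left_comm]
  refine mul_le_mul_of_nonneg_left ?_ (pw_nonneg c k)
  refine (integral_mono (hk k).norm (integrable_const _) fun v =>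
    (hb ⟨k, v⟩).trans (mul_le_mul_of_nonneg_right (le_abs_self A)
      (pow_nonneg (add_nonneg (Nat.cast_nonneg k) zero_le_one) n))).trans_eq ?_
  simp

omit [IsProbabilityMeasure τ] in
/-- The integral as a series over the lengths. -/
theorem hasSum_plaw {G : PL T → ℝ} (hG : Measurable G) (hi : Integrable G (plaw c τ)) :
    HasSum (fun k => pw c k * ∫ v : Fin k → T, G ⟨k, v⟩ ∂(Measure.pi fun _ => τ))
      (∫ p, G p ∂plaw c τ) := by
  refine (hasSum_integral_measure hi).congr_fun fun k => ?_
  rw [integral_smul_measure, smul_eq_mul, pw_smul_toReal,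
    integral_map (measurable_mk k).aemeasurable hG.aestronglyMeasurable]

omit [MeasurableSpace T] in
theorem abs_list_sum_le {ψ : T → PL T → ℝ} {A : ℝ} {n : ℕ}
    (hb : ∀ t p, |ψ t p| ≤ A * ((p.1 : ℝ) + 1) ^ n) (p : PL T) :
    |∑ i, ψ (p.2 i) p| ≤ |A| * ((p.1 : ℝ) + 1) ^ (n + 1) := by
  refine (Finset.abs_sum_le_sum_abs _ _).trans ((Finset.sum_le_sum fun i _ =>
    (hb _ p).trans (mul_le_mul_of_nonneg_right (le_abs_self A) (by positivity))).trans ?_)
  rw [Finset.sum_const, Finset.card_univ, Fintype.card_fin, nsmul_eq_mul, pow_succ]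
  nlinarith [show (0 : ℝ) ≤ |A| * ((p.1 : ℝ) + 1) ^ n by positivity]

theorem measurable_list_sum {ψ : T → PL T → ℝ} (hψ : Measurable fun q : T × PL T => ψ q.1 q.2) :
    Measurable fun p : PL T => ∑ i, ψ (p.2 i) p :=
  measurable_pl fun k => Finset.measurable_sum Finset.univ
    (f := fun i (v : Fin k → T) => ψ (v i) ⟨k, v⟩) fun i _ =>
    hψ.comp ((measurable_pi_apply i).prodMk (measurable_mk k))

theorem measurable_list_sum_gen {ψ : (p : PL T) → Fin p.1 → ℝ}
    (hψ : ∀ k i, Measurable fun v : Fin k → T => ψ ⟨k, v⟩ i) :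
    Measurable fun p : PL T => ∑ i, ψ p i :=
  measurable_pl fun k => Finset.measurable_sum Finset.univ
    (f := fun i (v : Fin k → T) => ψ ⟨k, v⟩ i) fun i _ => hψ k i

omit [MeasurableSpace T] in
theorem abs_list_sum_le_gen {ψ : (p : PL T) → Fin p.1 → ℝ} {A : ℝ} {n : ℕ}
    (hb : ∀ p i, |ψ p i| ≤ A * ((p.1 : ℝ) + 1) ^ n) (p : PL T) :
    |∑ i, ψ p i| ≤ |A| * ((p.1 : ℝ) + 1) ^ (n + 1) := by
  refine (Finset.abs_sum_le_sum_abs _ _).trans ((Finset.sum_le_sum fun i _ =>
    (hb p i).trans (mul_le_mul_of_nonneg_right (le_abs_self A) (by positivity))).trans ?_)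
  rw [Finset.sum_const, Finset.card_univ, Fintype.card_fin, nsmul_eq_mul, pow_succ]
  nlinarith [show (0 : ℝ) ≤ |A| * ((p.1 : ℝ) + 1) ^ n by positivity]

/-- A sum over the positions of a list, moving with the permutations of the list, in terms of one
more element. -/
theorem palm_gen {ψ : (p : PL T) → Fin p.1 → ℝ}
    (hψ : ∀ k i, Measurable fun v : Fin k → T => ψ ⟨k, v⟩ i) {A : ℝ} {n : ℕ}
    (hb : ∀ p i, |ψ p i| ≤ A * ((p.1 : ℝ) + 1) ^ n)
    (hs : ∀ (k : ℕ) (e : Equiv.Perm (Fin k)) (v : Fin k → T) (i : Fin k),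
      ψ ⟨k, v ∘ e⟩ i = ψ ⟨k, v⟩ (e i)) :
    ∫ p, ∑ i, ψ p i ∂plaw c τ =
      c * ∫ p, ∫ t, ψ (PL.add t p) ⟨0, Nat.succ_pos p.1⟩ ∂τ ∂plaw c τ := by
  set H : PL T → ℝ := fun p => ∫ t, ψ (PL.add t p) ⟨0, Nat.succ_pos p.1⟩ ∂τ with hH
  have hHb : ∀ p, |H p| ≤ |A| * 2 ^ n * ((p.1 : ℝ) + 1) ^ n := fun p => by
    refine (norm_integral_le_of_norm_le_const (C := |A| * 2 ^ n * ((p.1 : ℝ) + 1) ^ n)
      (f := fun t => ψ (PL.add t p) ⟨0, Nat.succ_pos p.1⟩) (ae_of_all _ fun t => ?_)).trans (by simp)
    refine (hb _ _).trans ((mul_le_mul_of_nonneg_right (le_abs_self A) (by positivity)).trans ?_)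
    rw [mul_assoc, ← mul_pow]
    refine mul_le_mul_of_nonneg_left (pow_le_pow_left₀ (by positivity) ?_ n) (abs_nonneg A)
    simp only [PL.add]
    push_cast
    linarith [p.1.cast_nonneg (α := ℝ)]
  have hHm : Measurable H := by
    have : Measurable fun q : PL T × T => ψ (PL.add q.2 q.1) ⟨0, Nat.succ_pos q.1.1⟩ :=
      measurable_pl_prod fun k =>
        (hψ (k + 1) 0).comp ((measurable_cons' k).comp measurable_swap)
    exact (this.stronglyMeasurable.integral_prod_right').measurable
  have h1 := hasSum_plaw (c := c) (τ := τ) (measurable_list_sum_gen hψ)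
    (integrable_plaw (measurable_list_sum_gen hψ) (abs_list_sum_le_gen hb))
  have h2 := (hasSum_plaw (c := c) (τ := τ) hHm (integrable_plaw hHm hHb)).mul_left (c : ℝ)
  have key : ∀ k, pw c (k + 1) * ∫ v : Fin (k + 1) → T, ∑ i, ψ ⟨k + 1, v⟩ i
        ∂(Measure.pi fun _ => τ) =
      c * (pw c k * ∫ v : Fin k → T, H ⟨k, v⟩ ∂(Measure.pi fun _ => τ)) := by
    intro k
    set f : Fin (k + 1) → (Fin (k + 1) → T) → ℝ := fun i v => ψ ⟨k + 1, v⟩ i
    have hfm : ∀ i, Measurable (f i) := fun i => hψ (k + 1) i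
    have hfi : ∀ i, Integrable (f i) (Measure.pi fun _ => τ) := fun i =>
      (integrable_const (A * (((k + 1 : ℕ) : ℝ) + 1) ^ n)).mono' (hfm i).aestronglyMeasurable
        (ae_of_all _ fun v => hb _ _)
    have hsame : ∀ i, ∫ v, f i v ∂(Measure.pi fun _ => τ) = ∫ v, f 0 v ∂(Measure.pi fun _ => τ) := by
      intro i
      have hp := measurePreserving_piCongrLeft (fun _ : Fin (k + 1) => τ) (Equiv.swap 0 i)
      rw [← hp.integral_comp' (f i)]
      refine integral_congr_ae (ae_of_all _ fun v => ?_)
      have e : MeasurableEquiv.piCongrLeft (fun _ : Fin (k + 1) => T) (Equiv.swap 0 i) v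
          = v ∘ Equiv.swap 0 i := by
        funext j
        have := MeasurableEquiv.piCongrLeft_apply_apply (β := fun _ : Fin (k + 1) => T)
          (Equiv.swap 0 i) v (Equiv.swap 0 i j)
        simpa using this
      simp only [f, e, hs, Equiv.swap_apply_right]
    show pw c (k + 1) * ∫ v, ∑ i, f i v ∂(Measure.pi fun _ => τ) = _
    rw [integral_finsetSum _ fun i _ => hfi i, Finset.sum_congr rfl fun i _ => hsame i,
      Finset.sum_const, Finset.card_univ, Fintype.card_fin, nsmul_eq_mul]
    have hm := measurePreserving_piFinSuccAbove (fun _ : Fin (k + 1) => τ) 0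
    have e1 : ∫ v, f 0 v ∂(Measure.pi fun _ => τ)
        = ∫ v : Fin k → T, H ⟨k, v⟩ ∂(Measure.pi fun _ => τ) := by
      rw [← hm.symm.integral_comp' (f 0)]
      have hg : Measurable fun q : T × (Fin k → T) => f 0 (Fin.cons q.1 q.2) :=
        (hfm 0).comp (measurable_cons' k)
      have hgi : Integrable (fun q : T × (Fin k → T) => f 0 (Fin.cons q.1 q.2))
          (τ.prod (Measure.pi fun _ => τ)) :=
        (integrable_const (A * (((k + 1 : ℕ) : ℝ) + 1) ^ n)).mono' hg.aestronglyMeasurable
          (ae_of_all _ fun v => hb _ _)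
      have ec : (fun q => f 0 ((MeasurableEquiv.piFinSuccAbove (fun _ : Fin (k + 1) => T) 0).symm q))
          = fun q : T × (Fin k → T) => f 0 (Fin.cons q.1 q.2) := by
        funext q
        congr 1
        simp [MeasurableEquiv.piFinSuccAbove]
        rfl
      rw [ec, integral_prod_symm _ hgi]
      simp only [f, H, PL.add]
      rfl
    rw [e1]
    have := pw_succ c k
    push_cast
    calc pw c (k + 1) * (((k : ℝ) + 1) * ∫ v : Fin k → T, H ⟨k, v⟩ ∂(Measure.pi fun _ => τ))
        = (((k : ℝ) + 1) * pw c (k + 1)) * ∫ v : Fin k → T, H ⟨k, v⟩ ∂(Measure.pi fun _ => τ) := by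
          ring
      _ = _ := by rw [this]; ring
  have h2' := h2.congr_fun key
  rw [← hasSum_nat_add_iff' 1] at h1
  have := h1.unique h2'
  simpa using this

/-- A sum over the elements of a list in terms of one more element. -/
theorem palm {ψ : T → PL T → ℝ} (hψ : Measurable fun q : T × PL T => ψ q.1 q.2) {A : ℝ} {n : ℕ}
    (hb : ∀ t p, |ψ t p| ≤ A * ((p.1 : ℝ) + 1) ^ n) (hs : ∀ t, PL.Sym (ψ t)) :
    ∫ p, ∑ i, ψ (p.2 i) p ∂plaw c τ =
      c * ∫ p, ∫ t, ψ t (PL.add t p) ∂τ ∂plaw c τ :=
  (palm_gen (ψ := fun p i => ψ (p.2 i) p)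
    (fun k i => hψ.comp ((measurable_pi_apply i).prodMk (measurable_mk k))) (fun p _ => hb _ p)
    fun k e v _ => hs _ k e v).trans rfl

/-- The number of elements of a list in a set. -/
def cnt (S : Set T) (p : PL T) : ℝ := ∑ i, S.indicator (fun _ => (1 : ℝ)) (p.2 i)

theorem measurable_cnt {S : Set T} (hS : MeasurableSet S) : Measurable (cnt S) :=
  measurable_list_sum (ψ := fun t _ => S.indicator (fun _ => (1 : ℝ)) t)
    ((measurable_const.indicator hS).comp measurable_fst)

omit [MeasurableSpace T] in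
theorem abs_ind_le (S : Set T) (t : T) : |S.indicator (fun _ => (1 : ℝ)) t| ≤ 1 := by
  by_cases h : t ∈ S <;> simp [h]

omit [MeasurableSpace T] in
theorem abs_cnt_le (S : Set T) (p : PL T) : |cnt S p| ≤ 1 * ((p.1 : ℝ) + 1) ^ 1 := by
  simpa [cnt] using abs_list_sum_le (ψ := fun t _ => S.indicator (fun _ => (1 : ℝ)) t) (A := 1)
    (n := 0) (fun t p => by simpa using abs_ind_le S t) p

omit [MeasurableSpace T] in
theorem cnt_add (S : Set T) (t : T) (p : PL T) :
    cnt S (PL.add t p) = S.indicator (fun _ => (1 : ℝ)) t + cnt S p := by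
  obtain ⟨k, v⟩ := p
  exact (Fin.sum_univ_succ (fun i : Fin (k + 1) =>
    S.indicator (fun _ => (1 : ℝ)) ((Fin.cons t v : Fin (k + 1) → T) i))).trans (by simp [cnt])

omit [MeasurableSpace T] in
theorem cnt_sym (S : Set T) : PL.Sym (cnt S) := fun _ e v =>
  Equiv.sum_comp e fun i => S.indicator (fun _ => (1 : ℝ)) (v i)

theorem mean_cnt {S : Set T} (hS : MeasurableSet S) :
    ∫ p, cnt S p ∂plaw c τ = c * τ.real S := by
  rw [show cnt S = fun p => ∑ i, S.indicator (fun _ => (1 : ℝ)) (p.2 i) from rfl,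
    palm (ψ := fun t _ => S.indicator (fun _ => (1 : ℝ)) t) (A := 1) (n := 0)
      ((measurable_const.indicator hS).comp measurable_fst)
      (fun t p => by simpa using abs_ind_le S t) fun _ _ _ _ => rfl]
  simp [integral_indicator_const, hS]

theorem var_cnt {S : Set T} (hS : MeasurableSet S) :
    ∫ p, (cnt S p - c * τ.real S) ^ 2 ∂plaw c τ = c * τ.real S := by
  have hm := measurable_cnt hS
  have h1 : ∫ p, cnt S p * cnt S p ∂plaw c τ = c * τ.real S * (1 + c * τ.real S) := by
    have e : (fun p => cnt S p * cnt S p)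
        = fun p => ∑ i, (fun t q => S.indicator (fun _ => (1 : ℝ)) t * cnt S q) (p.2 i) p := by
      funext p
      rw [← Finset.sum_mul]
      rfl
    rw [e, palm (ψ := fun t q => S.indicator (fun _ => (1 : ℝ)) t * cnt S q) (A := 1) (n := 1)
      (((measurable_const.indicator hS).comp measurable_fst).mul (hm.comp measurable_snd))
      (fun t p => ?_) fun t k e v => by simp only [cnt_sym S k e v]]
    · have e2 : ∀ p, ∫ t, S.indicator (fun _ => (1 : ℝ)) t * cnt S (PL.add t p) ∂τ
          = τ.real S * (1 + cnt S p) := fun p => by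
        have e3 : ∀ t, S.indicator (fun _ => (1 : ℝ)) t * cnt S (PL.add t p)
            = S.indicator (fun _ => (1 : ℝ)) t * (1 + cnt S p) := fun t => by
          by_cases h : t ∈ S <;> simp [cnt_add, h]
        simp only [e3, integral_mul_const, integral_indicator_const _ hS, smul_eq_mul, mul_one]
      simp only [e2, integral_const_mul]
      rw [integral_add (integrable_const _) (integrable_plaw hm (abs_cnt_le S)), mean_cnt hS]
      simp
      ring
    · rw [abs_mul]
      exact (mul_le_mul (abs_ind_le S t) (abs_cnt_le S p) (abs_nonneg _) zero_le_one).trans (by simp)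
  set a := (c : ℝ) * τ.real S
  have hi : Integrable (cnt S) (plaw c τ) := integrable_plaw hm (abs_cnt_le S)
  have hi2 : Integrable (fun p => cnt S p * cnt S p) (plaw c τ) :=
    integrable_plaw (A := 1) (n := 2) (hm.mul hm) fun p => by
      rw [abs_mul]
      exact (mul_le_mul (abs_cnt_le S p) (abs_cnt_le S p) (abs_nonneg _)
        (by positivity)).trans_eq (by ring)
  simp only [sub_sq, mul_assoc (2 : ℝ), pow_two (cnt S _)]
  rw [integral_add (hi2.sub' ((hi.mul_const a).const_mul 2)) (integrable_const _),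
    integral_sub hi2 ((hi.mul_const a).const_mul 2), integral_const_mul, integral_mul_const, h1,
    mean_cnt hS]
  simp
  ring

/-- The number of elements is within `√` of its mean. -/
theorem dev_cnt {S : Set T} (hS : MeasurableSet S) :
    ∫ p, |cnt S p - c * τ.real S| ∂plaw c τ ≤ √(c * τ.real S) := by
  set a := (c : ℝ) * τ.real S with ha
  have hm := measurable_cnt hS
  have hi : Integrable (fun p => |cnt S p - a|) (plaw c τ) :=
    ((integrable_plaw hm (abs_cnt_le S)).sub (integrable_const a)).abs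
  have hi2 : Integrable (fun p => (cnt S p - a) ^ 2) (plaw c τ) :=
    integrable_plaw (A := (1 + |a|) ^ 2) (n := 2) ((hm.sub_const a).pow_const 2) fun p => by
      rw [abs_pow, ← mul_pow]
      refine pow_le_pow_left₀ (abs_nonneg _) ((abs_sub _ _).trans ?_) 2
      nlinarith [abs_cnt_le S p, abs_nonneg a, p.1.cast_nonneg (α := ℝ)]
  rcases eq_or_lt_of_le (show 0 ≤ a by positivity) with h0 | h0
  · rw [← h0] at hi hi2 ⊢
    have hv : ∫ p, (cnt S p - 0) ^ 2 ∂plaw c τ = 0 := by
      conv_lhs => rw [h0, ha]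
      rw [var_cnt hS, ← ha, ← h0]
    have := (integral_eq_zero_iff_of_nonneg (fun p => sq_nonneg _) hi2).1 hv
    rw [Real.sqrt_zero]
    refine (integral_eq_zero_of_ae ?_).le
    filter_upwards [this] with p hp
    simpa using hp
  · have hs := Real.sq_sqrt h0.le
    refine (integral_mono hi ((hi2.div_const (2 * √a)).add (integrable_const (√a / 2)))
      fun p => ?_).trans_eq ?_
    · have hpos : 0 < √a := Real.sqrt_pos.2 h0
      simp only [Pi.add_apply]
      rw [div_add_div _ _ (by positivity) two_ne_zero, le_div_iff₀ (by positivity)]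
      nlinarith [sq_nonneg (|cnt S p - a| - √a), sq_abs (cnt S p - a)]
    · rw [integral_add' (hi2.div_const _) (integrable_const _), integral_div, var_cnt hS, ← ha]
      simp only [integral_const, probReal_univ, one_smul]
      field_simp
      linarith

/-- Functions of lists hardly feel one more element of a frequent kind. -/
theorem shift_le {S : Set T} (hS : MeasurableSet S) {G : PL T → ℝ} (hG : Measurable G) {B : ℝ}
    (hb : ∀ p, |G p| ≤ B) (hs : PL.Sym G) :
    |(c : ℝ) * ∫ p, ∫ t, S.indicator (fun _ => (1 : ℝ)) t * G (PL.add t p) ∂τ ∂plaw c τ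
      - c * τ.real S * ∫ p, G p ∂plaw c τ| ≤ B * √(c * τ.real S) := by
  have hm := measurable_cnt hS
  have hB : 0 ≤ B := (abs_nonneg _).trans (hb ⟨0, Fin.elim0⟩)
  rw [← palm (ψ := fun t q => S.indicator (fun _ => (1 : ℝ)) t * G q) (A := B) (n := 0)
    (((measurable_const.indicator hS).comp measurable_fst).mul (hG.comp measurable_snd))
    (fun t p => by
      rw [abs_mul, pow_zero, mul_one]
      exact (mul_le_mul (abs_ind_le S t) (hb p) (abs_nonneg _) zero_le_one).trans_eq (one_mul B))
    fun t k e v => by simp only [hs k e v]]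
  have hi : Integrable (fun p => cnt S p * G p) (plaw c τ) :=
    integrable_plaw (A := B) (n := 1) (hm.mul hG) fun p => by
      rw [abs_mul, mul_comm B]
      exact mul_le_mul ((abs_cnt_le S p).trans_eq (one_mul _)) (hb p) (abs_nonneg _) (by positivity)
  have hiG : Integrable G (plaw c τ) := integrable_plaw (A := B) (n := 0) hG fun p => by
    simpa using hb p
  simp only [← Finset.sum_mul]
  rw [show (fun p : PL T => (∑ i, S.indicator (fun _ => (1 : ℝ)) (p.2 i)) * G p)
      = fun p => cnt S p * G p from rfl, ← integral_const_mul,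
    ← integral_sub hi (hiG.const_mul _)]
  refine abs_integral_le_integral_abs.trans ?_
  have hd : Integrable (fun p => |cnt S p - c * τ.real S|) (plaw c τ) :=
    ((integrable_plaw hm (abs_cnt_le S)).sub (integrable_const _)).abs
  refine (integral_mono (hi.sub (hiG.const_mul _)).abs (hd.const_mul B) fun p => ?_).trans ?_
  · simp only [Pi.sub_apply]
    rw [← sub_mul, abs_mul, mul_comm B]
    exact mul_le_mul_of_nonneg_left (hb p) (abs_nonneg _)
  · rw [integral_const_mul]
    exact mul_le_mul_of_nonneg_left (dev_cnt hS) hB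

end Vale.Agent.P168
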