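import Vale.Agent.P168.Conc.Stable

/-!
P168: one more clause of a kind changes the averages by the root of the number of such clauses,
and the averages against the energy of a kind factorise up to its fluctuation.
-/

open MeasureTheory ProbabilityTheory Filter Topology
open scoped NNReal ENNReal

noncomputable section

namespace Vale.Agent.P168

open P157.Casc (avg gibbs com path casW casX mlev)

variable {Kc N K n r M : ℕ} [NeZero N] [NeZero n] (μ : Measure (Clause Kc)) (ν : Measure ℝ)
  [IsProbabilityMeasure μ] [IsProbabilityMeasure ν]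

theorem shift_rep (L : ℝ) (c s : ℝ≥0) (j : ℕ) (x : ℕ → ℝ) {g : Tst K r M} {B : ℝ}
    (hg : ∀ U σ, |g U σ| ≤ B) :
    (s : ℝ) * kindLaw.real {j} *
        |plusR (N := N) μ ν L c s K n j x g - repM (N := N) μ ν L c s K n x g| ≤
      B * √(s * kindLaw.real {j}) := by
  set τ := kindLaw.prod (unif (Fin N))
  set S : Set (ℕ × Fin N) := {t | t.1 = j}
  have hS : MeasurableSet S := measurable_fst (measurableSet_singleton j)
  set I : Env Kc N K n → ℝ := fun q => ∫ site, rep1 L x g q site ∂unif (Fin M → Fin N)
  have hIm : Measurable I :=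
    Measurable.comp (g := fun p : (ℕ → ℝ) × Env Kc N K n =>
        ∫ site, rep1 L p.1 g p.2 site ∂unif (Fin M → Fin N)) (f := fun q => (x, q))
      (measurable_repInner L g) (measurable_const.prodMk measurable_id)
  have hIb : ∀ q, |I q| ≤ B := fun q => abs_unif_avg fun site => abs_rep1 L x hg q site
  set G : Pert N → ℝ := fun p => ∫ u, I (joinQ (p, u)) ∂restLaw μ ν N c K n
  have hGm : Measurable G :=
    (Measurable.comp (g := fun q : Env Kc N K n => I q) (f := joinQ) hIm
      measurable_joinQ).stronglyMeasurable.integral_prod_right'.measurable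
  have hGb : ∀ p, |G p| ≤ B := fun p =>
    (norm_integral_le_of_norm_le_const (C := B) (f := fun u => I (joinQ (p, u)))
      (ae_of_all _ fun u => hIb _)).trans (by simp)
  have hGs : PL.Sym G := fun k e v => by
    have hmp : MeasurePreserving (Prod.map id (permQ (K := K) (n := n) e))
        (restLaw μ ν N c K n) (restLaw μ ν N c K n) :=
      (MeasurePreserving.id (baseLaw μ ν N c)).prod (mp_permQ (K := K) (n := n) e)
    have hmeas : Measurable fun u => I (joinQ ((⟨k, v ∘ e⟩ : Pert N), u)) :=
      Measurable.comp (g := fun q : Env Kc N K n => I q)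
        (f := fun u : Base Kc N × ((P157.Casc.Node K n → ℝ) × (P157.Casc.Node K n → Lab)) =>
          joinQ ((⟨k, v ∘ e⟩ : Pert N), u)) hIm
        (measurable_joinQ.comp (measurable_const.prodMk measurable_id))
    show ∫ u, I (joinQ ((⟨k, v ∘ e⟩ : Pert N), u)) ∂restLaw μ ν N c K n = _
    conv_lhs => rw [← hmp.map_eq]
    rw [integral_map hmp.measurable.aemeasurable hmeas.aestronglyMeasurable]
    refine integral_congr_ae (ae_of_all _ fun u => ?_)
    dsimp only [I, rep1, joinQ, Prod.map, id]
    refine integral_congr_ae (ae_of_all _ fun site => ?_)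
    exact congrArg (fun w => avg w r (obs g site)) (sW_perm L x u.1 e v u.2)
  have hshift := shift_le (c := s) (τ := τ) hS hGm hGb hGs
  have hp : τ.real S = kindLaw.real {j} := by
    rw [show S = {j} ×ˢ (Set.univ : Set (Fin N)) from by ext t; simp [S], measureReal_prod_prod]
    simp
  have hI : ∫ p, G p ∂plaw s τ = repM (N := N) μ ν L c s K n x g :=
    ((sys_split μ ν c s (integrable_bdd hIm hIb)).2).symm
  set P : Env Kc N K n → ℝ := fun q => ∫ s0, I (addQ j s0 q) ∂unif (Fin N)
  have hPm : Measurable P :=
    measurable_unif_avg fun s0 => hIm.comp (measurable_addQ j s0)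
  have hPb : ∀ q, |P q| ≤ B := fun q => abs_unif_avg fun s0 => hIb _
  have hX : ∫ p, ∫ t, S.indicator (fun _ => (1 : ℝ)) t * G (PL.add t p) ∂τ ∂plaw s τ =
      kindLaw.real {j} * plusR (N := N) μ ν L c s K n j x g := by
    show _ = _ * ∫ q, P q ∂sysLaw μ ν N c s K n
    rw [(sys_split μ ν c s (integrable_bdd hPm hPb)).2, ← integral_const_mul]
    refine integral_congr_ae (ae_of_all _ fun p => ?_)
    have e : ∀ t : ℕ × Fin N, S.indicator (fun _ => (1 : ℝ)) t * G (PL.add t p) =
        if t.1 = j then G (PL.add (j, t.2) p) else 0 := fun t => by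
      obtain ⟨t1, t2⟩ := t
      by_cases h : t1 = j
      · subst h; simp [S]
      · simp [S, h]
    dsimp only
    rw [integral_congr_ae (ae_of_all _ e),
      integral_kind (a := fun s0 => G (PL.add (j, s0) p)) (B := B) fun s0 => hGb _]
    congr 1
    simp only [G]
    rw [integral_integral_swap]
    · rfl
    exact integrable_bdd (Measurable.comp (g := fun z : Fin N × Env Kc N K n => I (addQ j z.1 z.2))
      (f := fun z : Fin N × (Base Kc N × ((P157.Casc.Node K n → ℝ) × (P157.Casc.Node K n → Lab))) =>
        (z.1, joinQ (p, z.2)))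
      (measurable_from_prod_countable_right fun s0 => hIm.comp (measurable_addQ j s0))
      (measurable_fst.prodMk (measurable_joinQ.comp (measurable_const.prodMk measurable_snd))))
      fun z => hIb _
  rw [hp, hI, hX, ← mul_assoc, ← mul_sub, abs_mul,
    abs_of_nonneg (mul_nonneg s.coe_nonneg measureReal_nonneg)] at hshift
  exact hshift

/-- Averages against the energy factorise up to its fluctuation. -/
theorem eKrep_fact (L : ℝ) (c s : ℝ≥0) (j : ℕ) (x : ℕ → ℝ) {g : Tst K (r + 1) M} {B : ℝ}
    (hg : ∀ U σ, |g U σ| ≤ B) :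
    |eKrep (N := N) μ ν L c s K n j x g
        - repM (N := N) μ ν L c s K n x g * kmean (N := N) μ ν L c s K n j x| ≤
      B * fl (N := N) μ ν L c s K n j x := by
  have hB : 0 ≤ B := (abs_nonneg _).trans (hg (fun _ _ => 0) fun _ _ => true)
  set k0 := kmean (N := N) μ ν L c s K n j x
  set I : Env Kc N K n → ℝ := fun q => ∫ site, rep1 L x g q site ∂unif (Fin M → Fin N)
  have hIm : Measurable I :=
    Measurable.comp (g := fun p : (ℕ → ℝ) × Env Kc N K n =>
        ∫ site, rep1 L p.1 g p.2 site ∂unif (Fin M → Fin N)) (f := fun q => (x, q))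
      (measurable_repInner L g) (measurable_const.prodMk measurable_id)
  set J : Env Kc N K n → ℝ := fun q => ∫ site, avg (sW L x q) (r + 1)
    (fun st => obs g site st * eK j q (st 0)) ∂unif (Fin M → Fin N)
  have hJm : Measurable J := by
    refine measurable_unif_avg fun site => ?_
    have hm : Measurable fun q : Env Kc N K n => (x, q) := measurable_const.prodMk measurable_id
    refine Measurable.comp (g := fun p : (ℕ → ℝ) × Env Kc N K n => avg (sW L p.1 p.2) (r + 1)
        (fun st => obs g site st * eK j p.2 (st 0)))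
      (f := fun q : Env Kc N K n => (x, q)) ?_ hm
    exact measurable_avg_sW L (F := fun (p : (ℕ → ℝ) × Env Kc N K n) st =>
      obs g site st * eK j p.2 (st 0))
      fun st => ((measurable_eK j (st 0)).comp measurable_snd).const_mul _
  have hn := (integrable_nK (N := N) (K := K) (n := n) μ ν c s j).1
  have hJi : Integrable J (sysLaw μ ν N c s K n) :=
    (hn.const_mul B).mono' hJm.aestronglyMeasurable
      (ae_of_all _ fun q => abs_unif_avg fun site => P157.Casc.abs_avg' (sW_pos L x q) fun st => by
        rw [abs_mul]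
        exact mul_le_mul (hg _ _) (abs_eK_le j q _) (abs_nonneg _) hB)
  have hIi : Integrable I (sysLaw μ ν N c s K n) :=
    integrable_bdd hIm fun q => abs_unif_avg fun site => abs_rep1 L x hg q site
  show |∫ q, J q ∂sysLaw μ ν N c s K n - (∫ q, I q ∂sysLaw μ ν N c s K n) * k0| ≤ _
  rw [← integral_mul_const, ← integral_sub hJi (hIi.mul_const k0)]
  refine abs_integral_le_integral_abs.trans ?_
  rw [fl, ← integral_const_mul]
  refine integral_mono (hJi.sub (hIi.mul_const k0)).abs
    ((integrable_gibbs_sum μ ν (N := N) (K := K) (n := n) (L := L) c s x j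
      (f := fun q st => |eK j q st - k0|) (fun st => ((measurable_eK j st).sub_const k0).norm)
      (a := 1) (b := |k0|) fun q st => by
        rw [abs_abs]
        exact (abs_sub _ _).trans (by linarith [abs_eK_le j q st])).1.const_mul B) fun q => ?_
  have e : J q - I q * k0 = ∫ site, avg (sW L x q) (r + 1)
      (fun st => obs g site st * (eK j q (st 0) - k0)) ∂unif (Fin M → Fin N) := by
    simp only [J, I, rep1]
    rw [← integral_mul_const, ← integral_sub Integrable.of_finite Integrable.of_finite]
    refine integral_congr_ae (ae_of_all _ fun site => ?_)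
    dsimp only
    rw [mul_comm _ k0, ← P157.Casc.avg_smul', ← P157.Casc.avg_sub']
    congr 1
    funext st
    ring
  rw [e]
  refine abs_unif_avg fun site => ?_
  refine (P157.Casc.Itp.abs_avg_le (sW_pos L x q) (F' := fun st => B * |eK j q (st 0) - k0|)
    fun st => ?_).trans_eq ?_
  · rw [abs_mul]
    exact mul_le_mul_of_nonneg_right (hg _ _) (abs_nonneg _)
  · rw [P157.Casc.avg_smul', P157.Casc.Itp.avg_one (sW_pos L x q) 0 fun st => |eK j q st - k0|]

end Vale.Agent.P168
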