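import Vale.Agent.P168.Conc.Rep

/-!
P168: one more perturbing clause of a kind hardly changes the averages, and the energy of a kind
is the effect of one more clause.
-/

open MeasureTheory ProbabilityTheory Filter Topology
open scoped NNReal ENNReal

noncomputable section

namespace Vale.Agent.P168

open P157.Casc (avg gibbs com path casW casX mlev)

variable {Kc N K n r M : ℕ}

/-- The environment with one more clause of kind `j` in front. -/
def addQ (j : ℕ) (s0 : Fin N) (q : Env Kc N K n) : Env Kc N K n :=
  ((q.1.1, PL.add (j, s0) q.1.2), q.2)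

theorem measurable_addQ (j : ℕ) (s0 : Fin N) :
    Measurable (addQ (Kc := Kc) (K := K) (n := n) j s0) :=
  ((measurable_fst.comp measurable_fst).prodMk
    (Measurable.comp (g := fun p : Pert N => PL.add (j, s0) p) (f := fun q : Env Kc N K n => q.1.2)
      (Measurable.comp (g := fun t : (ℕ × Fin N) × Pert N => PL.add t.1 t.2)
        (f := fun p : Pert N => ((j, s0), p)) measurable_add
        (measurable_const.prodMk measurable_id))
      (measurable_snd.comp measurable_fst))).prodMk measurable_snd

/-- A test times the sign of the clause `i` of kind `j` at the first replica. -/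
def innK (L : ℝ) (x : ℕ → ℝ) (j : ℕ) (g : Tst K (r + 1) M) (i : ℕ) (s0 : Fin N)
    (q : Env Kc N K n) : ℝ :=
  ∫ site, avg (sW L x q) (r + 1)
    (fun st => obs g site st * kS j i s0 (path q.2.2 (st 0).1) (st 0).2) ∂unif (Fin M → Fin N)

theorem measurable_innK (L : ℝ) (x : ℕ → ℝ) (j : ℕ) (g : Tst K (r + 1) M) (i : ℕ) (s0 : Fin N) :
    Measurable fun q : Env Kc N K n => innK L x j g i s0 q := by
  refine measurable_unif_avg fun site => ?_
  have hm : Measurable fun q : Env Kc N K n => (x, q) := measurable_const.prodMk measurable_id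
  refine Measurable.comp (g := fun p : (ℕ → ℝ) × Env Kc N K n => avg (sW L p.1 p.2) (r + 1)
      (fun st => obs g site st * kS j i s0 (path p.2.2.2 (st 0).1) (st 0).2))
    (f := fun q : Env Kc N K n => (x, q)) ?_ hm
  refine measurable_avg_sW L (F := fun (p : (ℕ → ℝ) × Env Kc N K n) st =>
    obs g site st * kS j i s0 (path p.2.2.2 (st 0).1) (st 0).2) fun st => ?_
  exact (Measurable.comp (g := fun y : Fin K → Lab => kS j i s0 y (st 0).2)
    (f := fun p : (ℕ → ℝ) × Env Kc N K n => path p.2.2.2 (st 0).1) (measurable_kS j i s0 _)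
    ((P157.Casc.measurable_path _).comp
      (measurable_snd.comp (measurable_snd.comp measurable_snd)))).const_mul _

variable [NeZero N] [NeZero n] (μ : Measure (Clause Kc)) (ν : Measure ℝ) [IsProbabilityMeasure μ]
  [IsProbabilityMeasure ν]

omit [NeZero N] in
theorem abs_innK [NeZero N] (L : ℝ) (x : ℕ → ℝ) (j : ℕ) {g : Tst K (r + 1) M} {B : ℝ}
    (hg : ∀ U σ, |g U σ| ≤ B) (i : ℕ) (s0 : Fin N) (q : Env Kc N K n) :
    |innK L x j g i s0 q| ≤ B :=
  abs_unif_avg fun site => P157.Casc.abs_avg' (sW_pos L x q) fun st => by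
    rw [abs_mul, abs_kS, mul_one]
    exact hg _ _

/-- The law of the data other than the perturbing clauses. -/
abbrev restLaw (N : ℕ) (c : ℝ≥0) (K n : ℕ) :
    Measure (Base Kc N × ((P157.Casc.Node K n → ℝ) × (P157.Casc.Node K n → Lab))) :=
  (baseLaw μ ν N c).prod ((casW (mlev K) n).prod (casX K n labLaw))

/-- The environment from the perturbing clauses and the rest. -/
def joinQ (u : Pert N × (Base Kc N × ((P157.Casc.Node K n → ℝ) × (P157.Casc.Node K n → Lab)))) :
    Env Kc N K n := ((u.2.1, u.1), u.2.2)

omit [NeZero N] [NeZero n] in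
theorem measurable_joinQ : Measurable (joinQ (Kc := Kc) (N := N) (K := K) (n := n)) :=
  ((measurable_fst.comp measurable_snd).prodMk measurable_fst).prodMk
    (measurable_snd.comp measurable_snd)

omit [NeZero n] in
/-- The perturbing clauses may be averaged last. -/
theorem sys_split (c s : ℝ≥0) {F : Env Kc N K n → ℝ}
    (hF : Integrable F (sysLaw μ ν N c s K n)) :
    Integrable (fun p => ∫ u, F (joinQ (p, u)) ∂restLaw μ ν N c K n)
        (plaw s (kindLaw.prod (unif (Fin N)))) ∧
      ∫ q, F q ∂sysLaw μ ν N c s K n =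
        ∫ p, ∫ u, F (joinQ (p, u)) ∂restLaw μ ν N c K n ∂plaw s (kindLaw.prod (unif (Fin N))) := by
  set ρ := (casW (mlev K) n).prod (casX K n labLaw)
  set π := plaw s (kindLaw.prod (unif (Fin N)))
  set β := baseLaw μ ν N c
  have h1 := (Measure.measurePreserving_swap (μ := π) (ν := β)).prod (MeasurePreserving.id ρ)
  have h2 := (measurePreserving_prodAssoc π β ρ).symm
  have hmp : MeasurePreserving (joinQ (Kc := Kc) (N := N) (K := K) (n := n)) (π.prod (β.prod ρ))
      (sysLaw μ ν N c s K n) := by
    have h := h1.comp h2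
    exact h
  have hi : Integrable (fun u => F (joinQ u)) (π.prod (β.prod ρ)) :=
    hmp.integrable_comp_of_integrable hF
  refine ⟨hi.integral_prod_left, ?_⟩
  rw [← hmp.map_eq, integral_map hmp.measurable.aemeasurable
    (hmp.map_eq ▸ hF.aestronglyMeasurable), integral_prod _ hi]

/-- The energy of kind `j` against a test. -/
def eKrep (L : ℝ) (c s : ℝ≥0) (K n j : ℕ) (x : ℕ → ℝ) (g : Tst K (r + 1) M) : ℝ :=
  ∫ q, ∫ site, avg (sW L x q) (r + 1) (fun st => obs g site st * eK j q (st 0))
    ∂unif (Fin M → Fin N) ∂sysLaw μ ν N c s K n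

/-- A test with the sign of one more clause of kind `j`. -/
def plusK (L : ℝ) (c s : ℝ≥0) (K n j : ℕ) (x : ℕ → ℝ) (g : Tst K (r + 1) M) : ℝ :=
  ∫ q, ∫ s0, innK L x j g 0 s0 (addQ j s0 q) ∂unif (Fin N) ∂sysLaw μ ν N c s K n

/-- A test with one more clause of kind `j`. -/
def plusR (L : ℝ) (c s : ℝ≥0) (K n j : ℕ) (x : ℕ → ℝ) (g : Tst K r M) : ℝ :=
  ∫ q, ∫ s0, ∫ site, rep1 L x g (addQ j s0 q) site ∂unif (Fin M → Fin N) ∂unif (Fin N)
    ∂sysLaw μ ν N c s K n

omit [NeZero n] in
theorem integral_kind {j : ℕ} {a : Fin N → ℝ} {B : ℝ} (ha : ∀ s0, |a s0| ≤ B) :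
    ∫ t, (if t.1 = j then a t.2 else 0) ∂kindLaw.prod (unif (Fin N)) =
      kindLaw.real {j} * ∫ s0, a s0 ∂unif (Fin N) := by
  have hB : 0 ≤ B := (abs_nonneg _).trans (ha ⟨0, NeZero.pos N⟩)
  have hm : Measurable fun t : ℕ × Fin N => if t.1 = j then a t.2 else 0 :=
    measurable_of_countable _
  rw [integral_prod _ (integrable_bdd hm (B := B) fun t => by
    split_ifs
    · exact ha _
    · simpa using hB)]
  have e : ∀ i, ∫ s0, (if i = j then a s0 else 0) ∂unif (Fin N) =
      Set.indicator {j} (fun _ => ∫ s0, a s0 ∂unif (Fin N)) i := fun i => by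
    by_cases h : i = j <;> simp [h]
  simp only [e, integral_indicator_const _ (measurableSet_singleton j), smul_eq_mul]

theorem palm_energy (L : ℝ) (c s : ℝ≥0) (j : ℕ) (x : ℕ → ℝ) {g : Tst K (r + 1) M} {B : ℝ}
    (hg : ∀ U σ, |g U σ| ≤ B) :
    eKrep (N := N) μ ν L c s K n j x g =
      s * kindLaw.real {j} * beta j * plusK (N := N) μ ν L c s K n j x g := by
  have hB : 0 ≤ B := (abs_nonneg _).trans (hg (fun _ _ => 0) fun _ _ => true)
  set ψ : (p : Pert N) → Fin p.1 → ℝ := fun p i => if (p.2 i).1 = j then
    beta j * ∫ u, innK L x j g i (p.2 i).2 (joinQ (p, u)) ∂restLaw μ ν N c K n else 0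
  have hψb : ∀ p i, |ψ p i| ≤ B * ((p.1 : ℝ) + 1) ^ 0 := fun p i => by
    rw [pow_zero, mul_one]
    simp only [ψ]
    split_ifs
    · rw [abs_mul, abs_of_pos (beta_pos j)]
      refine (mul_le_of_le_one_left (abs_nonneg _) (beta_le j)).trans ?_
      exact (norm_integral_le_of_norm_le_const (C := B)
        (f := fun u => innK L x j g i (p.2 i).2 (joinQ (p, u)))
        (ae_of_all _ fun u => abs_innK L x j hg _ _ _)).trans (by simp)
    · simpa using hB
  have hψm : ∀ k i, Measurable fun v : Fin k → ℕ × Fin N => ψ ⟨k, v⟩ i := fun k i => by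
    refine Measurable.ite (measurableSet_eq_fun
      (measurable_fst.comp (measurable_pi_apply i)) measurable_const) ?_ measurable_const
    have h : Measurable fun w : (ℕ × Fin N) × (Fin k → ℕ × Fin N) =>
        ∫ u, innK L x j g i w.1.2 (joinQ (⟨k, w.2⟩, u)) ∂restLaw μ ν N c K n :=
      measurable_from_prod_countable_right fun a => by
        have h' : Measurable fun z : (Fin k → ℕ × Fin N) ×
            (Base Kc N × ((P157.Casc.Node K n → ℝ) × (P157.Casc.Node K n → Lab))) =>
            innK L x j g i a.2 (joinQ (⟨k, z.1⟩, z.2)) :=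
          Measurable.comp (g := fun q : Env Kc N K n => innK L x j g i a.2 q)
            (f := fun z : (Fin k → ℕ × Fin N) ×
              (Base Kc N × ((P157.Casc.Node K n → ℝ) × (P157.Casc.Node K n → Lab))) =>
              joinQ (⟨k, z.1⟩, z.2)) (measurable_innK L x j g i a.2)
            (measurable_joinQ.comp (((measurable_mk k).comp measurable_fst).prodMk measurable_snd))
        exact h'.stronglyMeasurable.integral_prod_right'.measurable
    exact ((Measurable.comp (g := fun w : (ℕ × Fin N) × (Fin k → ℕ × Fin N) =>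
        ∫ u, innK L x j g i w.1.2 (joinQ (⟨k, w.2⟩, u)) ∂restLaw μ ν N c K n)
      (f := fun v : Fin k → ℕ × Fin N => (v i, v)) h
      ((measurable_pi_apply i).prodMk measurable_id))).const_mul _
  have hψs : ∀ (k : ℕ) (e : Equiv.Perm (Fin k)) (v : Fin k → ℕ × Fin N) (i : Fin k),
      ψ ⟨k, v ∘ e⟩ i = ψ ⟨k, v⟩ (e i) := fun k e v i => by
    simp only [ψ, Function.comp_apply]
    split_ifs with h
    · congr 1
      have hmp : MeasurePreserving (Prod.map id (permQ (K := K) (n := n) e))
          (restLaw μ ν N c K n) (restLaw μ ν N c K n) :=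
        (MeasurePreserving.id (baseLaw μ ν N c)).prod (mp_permQ (K := K) (n := n) e)
      have hmeas : Measurable fun u => innK L x j g i (v (e i)).2 (joinQ (⟨k, v ∘ e⟩, u)) :=
        Measurable.comp (g := fun q : Env Kc N K n => innK L x j g i (v (e i)).2 q)
          (f := fun u : Base Kc N × ((P157.Casc.Node K n → ℝ) × (P157.Casc.Node K n → Lab)) =>
            joinQ ((⟨k, v ∘ e⟩ : Pert N), u)) (measurable_innK L x j g i (v (e i)).2)
          (measurable_joinQ.comp (measurable_const.prodMk measurable_id))
      conv_lhs => rw [← hmp.map_eq]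
      rw [integral_map hmp.measurable.aemeasurable hmeas.aestronglyMeasurable]
      refine integral_congr_ae (ae_of_all _ fun u => ?_)
      dsimp only [innK, joinQ, Prod.map, id]
      refine integral_congr_ae (ae_of_all _ fun site => ?_)
      dsimp only
      refine congrArg₂ (fun w F => avg w (r + 1) F) (sW_perm L x u.1 e v u.2) (funext fun st => ?_)
      simp only [kS, flag, path, permQ, permI_pair]
      rfl
    · rfl
  have hpalm := palm_gen (c := s) (τ := kindLaw.prod (unif (Fin N))) hψm hψb hψs
  set F : Env Kc N K n → ℝ := fun q =>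
    ∫ site, avg (sW L x q) (r + 1) (fun st => obs g site st * eK j q (st 0)) ∂unif (Fin M → Fin N)
  have hFm : Measurable F := by
    refine measurable_unif_avg fun site => ?_
    have hm : Measurable fun q : Env Kc N K n => (x, q) := measurable_const.prodMk measurable_id
    refine Measurable.comp (g := fun p : (ℕ → ℝ) × Env Kc N K n => avg (sW L p.1 p.2) (r + 1)
        (fun st => obs g site st * eK j p.2 (st 0)))
      (f := fun q : Env Kc N K n => (x, q)) ?_ hm
    exact measurable_avg_sW L (F := fun (p : (ℕ → ℝ) × Env Kc N K n) st =>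
      obs g site st * eK j p.2 (st 0))
      fun st => ((measurable_eK j (st 0)).comp measurable_snd).const_mul _
  have hFi : Integrable F (sysLaw μ ν N c s K n) :=
    ((integrable_nK μ ν c s j).1.const_mul B).mono' hFm.aestronglyMeasurable
      (ae_of_all _ fun q => abs_unif_avg fun site => P157.Casc.abs_avg' (sW_pos L x q) fun st => by
        rw [abs_mul]
        exact mul_le_mul (hg _ _) (abs_eK_le j q _) (abs_nonneg _) hB)
  have hF : ∀ p u, F (joinQ (p, u)) =
      ∑ i : Fin p.1, if (p.2 i).1 = j then
        beta j * innK L x j g i (p.2 i).2 (joinQ (p, u)) else 0 := by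
    intro p u
    simp only [F, innK]
    have e : ∀ site st, obs g site st * eK j (joinQ (p, u)) (st (0 : Fin (r + 1))) =
        ∑ i : Fin p.1, (if (p.2 i).1 = j then beta j else 0) *
          (obs g site st * kS j i (p.2 i).2 (path (joinQ (p, u)).2.2 (st 0).1) (st 0).2) :=
      fun site st => by
        simp only [eK, kE, joinQ, Finset.mul_sum]
        refine Finset.sum_congr rfl fun i _ => ?_
        by_cases h : (p.2 i).1 = j <;> simp [h]
        ring
    simp only [e, P157.Casc.avg_sum', P157.Casc.avg_smul']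
    rw [integral_finsetSum _ fun i _ => Integrable.of_finite]
    refine Finset.sum_congr rfl fun i _ => ?_
    rw [integral_const_mul]
    split_ifs <;> simp
  have hl : ∀ p, ∫ u, F (joinQ (p, u)) ∂restLaw μ ν N c K n = ∑ i, ψ p i := fun p => by
    simp only [hF]
    rw [integral_finsetSum _ fun i _ => ?_]
    · refine Finset.sum_congr rfl fun i _ => ?_
      simp only [ψ]
      split_ifs
      · rw [integral_const_mul]
      · exact integral_zero _ _
    · split_ifs
      · exact (integrable_bdd ((measurable_innK L x j g i (p.2 i).2).comp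
          (measurable_joinQ.comp (measurable_const.prodMk measurable_id)))
          fun u => abs_innK L x j hg _ _ _).const_mul _
      · exact integrable_const 0
  set P : Env Kc N K n → ℝ := fun q => ∫ s0, innK L x j g 0 s0 (addQ j s0 q) ∂unif (Fin N)
  have hPm : Measurable P :=
    measurable_unif_avg fun s0 => (measurable_innK L x j g 0 s0).comp (measurable_addQ j s0)
  have hPi : Integrable P (sysLaw μ ν N c s K n) :=
    integrable_bdd hPm fun q => abs_unif_avg fun s0 => abs_innK L x j hg _ _ _
  show ∫ q, F q ∂sysLaw μ ν N c s K n = _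
  rw [(sys_split μ ν c s hFi).2, integral_congr_ae (ae_of_all _ hl), hpalm, plusK,
    (sys_split μ ν c s hPi).2]
  simp only [mul_assoc]
  congr 1
  simp only [← integral_const_mul]
  refine integral_congr_ae (ae_of_all _ fun p => ?_)
  dsimp only
  have e : ∀ t : ℕ × Fin N, ψ (PL.add t p) ⟨0, Nat.succ_pos p.1⟩ =
      if t.1 = j then beta j * ∫ u, innK L x j g 0 t.2 (addQ j t.2 (joinQ (p, u)))
        ∂restLaw μ ν N c K n else 0 := fun t => by
    show (if ((Fin.cons t p.2 : Fin (p.1 + 1) → ℕ × Fin N) 0).1 = j then _ else 0) = _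
    simp only [Fin.cons_zero]
    refine ite_congr rfl (fun ht => ?_) fun _ => rfl
    obtain ⟨t1, t2⟩ := t
    subst ht
    rfl
  rw [integral_congr_ae (ae_of_all _ e), integral_kind (a := fun s0 => beta j *
    ∫ u, innK L x j g 0 s0 (addQ j s0 (joinQ (p, u))) ∂restLaw μ ν N c K n) (B := beta j * B)
    fun s0 => ?_]
  · simp only [integral_const_mul]
    rw [integral_integral_swap]
    exact integrable_bdd (Measurable.comp
      (g := fun z : Fin N × Env Kc N K n => innK L x j g 0 z.1 (addQ j z.1 z.2))
      (f := fun z : Fin N × (Base Kc N × ((P157.Casc.Node K n → ℝ) × (P157.Casc.Node K n → Lab))) =>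
        (z.1, joinQ (p, z.2)))
      (measurable_from_prod_countable_right fun s0 =>
        (measurable_innK L x j g 0 s0).comp (measurable_addQ j s0))
      (measurable_fst.prodMk (measurable_joinQ.comp (measurable_const.prodMk measurable_snd))))
      fun z => abs_innK L x j hg _ _ _
  · rw [abs_mul, abs_of_pos (beta_pos j)]
    refine mul_le_mul_of_nonneg_left ?_ (beta_pos j).le
    exact (norm_integral_le_of_norm_le_const (C := B)
      (f := fun u => innK L x j g 0 s0 (addQ j s0 (joinQ (p, u))))
      (ae_of_all _ fun u => abs_innK L x j hg _ _ _)).trans (by simp)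

end Vale.Agent.P168
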