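import Vale.Agent.P168.Conc.Flag
import Vale.Agent.P168.Conc.Shift

/-!
P168: one more clause tilts the weights by `1 + b X`; the defect of the identity in the variable
`b = tanh t`.
-/

open MeasureTheory ProbabilityTheory Filter Topology
open scoped NNReal ENNReal

noncomputable section

namespace Vale.Agent.P168

open P157.Casc (avg gibbs com path casW casX mlev)

variable {Kc N K n r M : ℕ}

theorem exp_mul_sign {X t : ℝ} (hX : |X| = 1) :
    Real.exp (t * X) = Real.cosh t * (1 + Real.tanh t * X) := by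
  have hc := (Real.cosh_pos t).ne'
  rcases (abs_eq zero_le_one).1 hX with rfl | rfl
  · rw [Real.tanh_eq_sinh_div_cosh, mul_one, mul_one, mul_add, mul_one, mul_div_cancel₀ _ hc,
      Real.cosh_add_sinh]
  · rw [Real.tanh_eq_sinh_div_cosh, mul_neg_one, mul_add, mul_one, mul_neg, mul_one, mul_neg,
      mul_div_cancel₀ _ hc, ← sub_eq_add_neg, Real.cosh_sub_sinh]

/-- The environment with the labels of the clauses after the first. -/
def oldQ (q : Env Kc N K n) : Env Kc N K n := (q.1, (q.2.1, fun v => old (q.2.2 v)))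

theorem measurable_oldQ : Measurable (oldQ (Kc := Kc) (N := N) (K := K) (n := n)) := by
  unfold oldQ old
  fun_prop

/-- The sign of the first clause of kind `j` at the site `s0`. -/
def xS (j : ℕ) (s0 : Fin N) (q : Env Kc N K n) (st : St N K n) : ℝ :=
  kS j 0 s0 (path q.2.2 st.1) st.2

theorem abs_xS (j : ℕ) (s0 : Fin N) (q : Env Kc N K n) (st : St N K n) : |xS j s0 q st| = 1 :=
  abs_kS _ _ _ _ _

theorem measurable_xS (j : ℕ) (s0 : Fin N) (st : St N K n) :
    Measurable fun q : Env Kc N K n => xS j s0 q st :=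
  Measurable.comp (g := fun y : Fin K → Lab => kS j 0 s0 y st.2)
    (f := fun q : Env Kc N K n => path q.2.2 st.1) (measurable_kS j 0 s0 _)
    ((P157.Casc.measurable_path _).comp (measurable_snd.comp measurable_snd))

/-- The tilt of one more clause of kind `j`. -/
def tiltB (x : ℕ → ℝ) (j : ℕ) : ℝ := Real.tanh (clX x j * beta j)

theorem abs_tiltB (x : ℕ → ℝ) (j : ℕ) : |tiltB x j| < 1 := Real.abs_tanh_lt_one _

theorem sW_addQ (L : ℝ) (x : ℕ → ℝ) (j : ℕ) (s0 : Fin N) (q : Env Kc N K n) (st : St N K n) :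
    sW L x (addQ j s0 q) st = Real.cosh (clX x j * beta j) *
      (sW L x (oldQ q) st * (1 + tiltB x j * xS j s0 q st)) := by
  have e : sW L x (addQ j s0 q) st
      = sW L x (oldQ q) st * Real.exp (clX x j * beta j * xS j s0 q st) := by
    simp only [sW, sysW, sysY, addQ, oldQ, clZ, pertE_add, xS, mul_assoc, ← Real.exp_add]
    ring_nf
    rfl
  rw [e, exp_mul_sign (abs_xS j s0 q st), tiltB]
  ring

theorem one_add_pos {b X : ℝ} (hb : |b| < 1) (hX : |X| ≤ 1) : 0 < 1 + b * X := by
  have h : |b * X| < 1 := by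
    rw [abs_mul]
    exact (mul_le_of_le_one_right (abs_nonneg _) hX).trans_lt hb
  linarith [(abs_lt.1 h).1]

/-- Averages under tilted weights. -/
theorem avg_tilt {T : Type*} [Fintype T] [Nonempty T] {u X : T → ℝ} (hu : ∀ t, 0 < u t)
    {C : ℝ} (hC : C ≠ 0) {b : ℝ} (r : ℕ) (F : (Fin r → T) → ℝ) :
    avg (fun t => C * (u t * (1 + b * X t))) r F =
      avg u r (fun st => F st * ∏ a, (1 + b * X (st a))) /
        (1 + b * ∑ t, gibbs u t * X t) ^ r := by
  have hs : 0 < ∑ t, u t := Finset.sum_pos (fun t _ => hu t) Finset.univ_nonempty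
  have hden : ∑ t, C * (u t * (1 + b * X t)) = C * ((∑ t, u t) * (1 + b * ∑ t, gibbs u t * X t)) := by
    have hm : (∑ t, u t) * ∑ t, gibbs u t * X t = ∑ t, u t * X t := by
      rw [Finset.mul_sum]
      refine Finset.sum_congr rfl fun t _ => ?_
      rw [gibbs]
      field_simp
    rw [mul_add (∑ t, u t), mul_one, mul_left_comm (∑ t, u t), hm, Finset.mul_sum (a := b),
      ← Finset.sum_add_distrib, Finset.mul_sum]
    exact Finset.sum_congr rfl fun t _ => by ring
  have hg : ∀ t, gibbs (fun t => C * (u t * (1 + b * X t))) t =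
      gibbs u t * (1 + b * X t) * (1 + b * ∑ t, gibbs u t * X t)⁻¹ := fun t => by
    rw [gibbs, hden, mul_div_mul_left _ _ hC, gibbs]
    simp only [div_eq_mul_inv, mul_inv]
    ring
  simp only [avg, hg, Finset.prod_mul_distrib, Finset.prod_const, Finset.card_univ, Fintype.card_fin,
    inv_pow, div_eq_mul_inv, Finset.sum_mul]
  refine Finset.sum_congr rfl fun st _ => ?_
  ring

/-- The tilted average with the mark at the first replica, at given environment and sites. -/
def psiV (L : ℝ) (x : ℕ → ℝ) (j : ℕ) (b : ℝ) (g : Tst K (r + 1) M) (q : Env Kc N K n) (s0 : Fin N)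
    (site : Fin M → Fin N) : ℝ :=
  avg (sW L x (oldQ q)) (r + 1)
      (fun st => obs g site st * (xS j s0 q (st 0) * ∏ a : Fin r, (1 + b * xS j s0 q (st a.succ)))) /
    (1 + b * ∑ t, gibbs (sW L x (oldQ q)) t * xS j s0 q t) ^ (r + 1)

theorem measurable_psiV (L : ℝ) (x : ℕ → ℝ) (j : ℕ) (b : ℝ) (g : Tst K (r + 1) M) (s0 : Fin N)
    (site : Fin M → Fin N) : Measurable fun q : Env Kc N K n => psiV L x j b g q s0 site := by
  have hm : Measurable fun q : Env Kc N K n => (x, oldQ q) :=
    measurable_const.prodMk measurable_oldQ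
  have hg : ∀ t : St N K n, Measurable fun q : Env Kc N K n => gibbs (sW L x (oldQ q)) t := fun t =>
    Measurable.comp (g := fun p : (ℕ → ℝ) × Env Kc N K n => gibbs (sW L p.1 p.2) t)
      (f := fun q : Env Kc N K n => (x, oldQ q)) (measurable_gibbs L t) hm
  have hx := fun t : St N K n => measurable_xS (Kc := Kc) j s0 t
  refine Measurable.div (Finset.measurable_sum Finset.univ
    (f := fun (st : Fin (r + 1) → St N K n) (q : Env Kc N K n) =>
      (∏ i, gibbs (sW L x (oldQ q)) (st i)) *
        (obs g site st * (xS j s0 q (st 0) * ∏ a : Fin r, (1 + b * xS j s0 q (st a.succ)))))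
    fun st _ => (Finset.measurable_prod Finset.univ
      (f := fun (i : Fin (r + 1)) (q : Env Kc N K n) => gibbs (sW L x (oldQ q)) (st i))
      fun i _ => hg (st i)).mul (((hx _).mul (Finset.measurable_prod Finset.univ
      (f := fun (a : Fin r) (q : Env Kc N K n) => 1 + b * xS j s0 q (st a.succ))
      fun a _ => ((hx _).const_mul b).const_add 1)).const_mul _)) ?_
  exact (((Finset.measurable_sum Finset.univ
    (f := fun (t : St N K n) (q : Env Kc N K n) => gibbs (sW L x (oldQ q)) t * xS j s0 q t)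
    fun t _ => (hg t).mul (hx t)).const_mul b).const_add 1).pow_const _

theorem sub_eq_psiV [NeZero n] (L : ℝ) (x : ℕ → ℝ) (j : ℕ) (g : Tst K (r + 1) M)
    (q : Env Kc N K n) (s0 : Fin N) (site : Fin M → Fin N) :
    avg (sW L x (addQ j s0 q)) (r + 1)
        (fun st => obs g site st * kS j 0 s0 (path (addQ j s0 q).2.2 (st 0).1) (st 0).2) -
      tiltB x j * avg (sW L x (addQ j s0 q)) (r + 1) (obs g site) =
      (1 - tiltB x j ^ 2) * psiV L x j (tiltB x j) g q s0 site := by
  set b := tiltB x j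
  set u := sW L x (oldQ q)
  set X := xS j s0 q
  have hC : Real.cosh (clX x j * beta j) ≠ 0 := (Real.cosh_pos _).ne'
  have hw : sW L x (addQ j s0 q) =
      fun t => Real.cosh (clX x j * beta j) * (u t * (1 + b * X t)) :=
    funext fun t => sW_addQ L x j s0 q t
  rw [hw, avg_tilt (sW_pos L x _) hC, avg_tilt (sW_pos L x _) hC, psiV]
  simp only [mul_div_assoc']
  rw [← sub_div, ← P157.Casc.avg_smul', ← P157.Casc.avg_smul', ← P157.Casc.avg_sub']
  congr 2
  funext st
  show obs g site st * X (st 0) * ∏ a, (1 + b * X (st a)) -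
      b * (obs g site st * ∏ a, (1 + b * X (st a))) =
    (1 - b ^ 2) * (obs g site st * (X (st 0) * ∏ a : Fin r, (1 + b * X (st a.succ))))
  rw [Fin.prod_univ_succ]
  have h2 : X (st 0) ^ 2 = 1 := by
    rw [← sq_abs, show |X (st 0)| = 1 from abs_xS j s0 q (st 0), one_pow]
  linear_combination (obs g site st * b * ∏ a : Fin r, (1 + b * X (st a.succ))) * h2

theorem abs_psiV [NeZero n] (L : ℝ) (x : ℕ → ℝ) (j : ℕ) {b : ℝ} (hb : |b| < 1)
    {g : Tst K (r + 1) M} {B : ℝ} (hg : ∀ U σ, |g U σ| ≤ B) (q : Env Kc N K n) (s0 : Fin N)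
    (site : Fin M → Fin N) :
    |psiV L x j b g q s0 site| ≤ B * 2 ^ r / (1 - |b|) ^ (r + 1) := by
  have hB : 0 ≤ B := (abs_nonneg _).trans (hg (fun _ _ => 0) fun _ _ => true)
  have hm : |∑ t, gibbs (sW L x (oldQ q)) t * xS j s0 q t| ≤ 1 := by
    obtain ⟨g0, g1⟩ := gibbs_sW L x (oldQ q)
    refine (Finset.abs_sum_le_sum_abs _ _).trans (le_of_eq ?_)
    simp only [abs_mul, abs_xS, mul_one, abs_of_nonneg (g0 _), g1]
  rw [psiV, abs_div, abs_pow, abs_of_pos (one_add_pos hb hm)]
  refine div_le_div₀ (by positivity) (P157.Casc.abs_avg' (sW_pos L x _) fun st => ?_)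
    (pow_pos (by linarith) _) (pow_le_pow_left₀ (by linarith) ?_ _)
  · rw [abs_mul, abs_mul, abs_xS, one_mul, Finset.abs_prod]
    refine mul_le_mul (hg _ _) ((Finset.prod_le_prod (fun _ _ => abs_nonneg _) fun a _ => ?_).trans_eq
      (by rw [Finset.prod_const, Finset.card_univ, Fintype.card_fin]))
      (Finset.prod_nonneg fun _ _ => abs_nonneg _) hB
    refine (abs_add_le _ _).trans ?_
    rw [abs_one, abs_mul, abs_xS, mul_one]
    linarith
  · have h : |b * ∑ t, gibbs (sW L x (oldQ q)) t * xS j s0 q t| ≤ |b| := by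
      rw [abs_mul]
      exact mul_le_of_le_one_right (abs_nonneg _) hm
    linarith [neg_abs_le (b * ∑ t, gibbs (sW L x (oldQ q)) t * xS j s0 q t)]

variable [NeZero N] [NeZero n] (μ : Measure (Clause Kc)) (ν : Measure ℝ) [IsProbabilityMeasure μ]
  [IsProbabilityMeasure ν]

/-- The tilted average with the mark at the first replica. -/
def psiB (L : ℝ) (c s : ℝ≥0) (K n j : ℕ) (x : ℕ → ℝ) (b : ℝ) (g : Tst K (r + 1) M) : ℝ :=
  ∫ q, ∫ s0, ∫ site, psiV L x j b g q s0 site ∂unif (Fin M → Fin N) ∂unif (Fin N)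
    ∂sysLaw μ ν N c s K n

theorem sub_eq_psiB (L : ℝ) (c s : ℝ≥0) (j : ℕ) (x : ℕ → ℝ) {g : Tst K (r + 1) M} {B : ℝ}
    (hg : ∀ U σ, |g U σ| ≤ B) :
    plusK (N := N) μ ν L c s K n j x g - tiltB x j * plusR (N := N) μ ν L c s K n j x g =
      (1 - tiltB x j ^ 2) * psiB (N := N) μ ν L c s K n j x (tiltB x j) g := by
  have h1 : Measurable fun q : Env Kc N K n =>
      ∫ s0, innK L x j g 0 s0 (addQ j s0 q) ∂unif (Fin N) :=
    measurable_unif_avg fun s0 => (measurable_innK L x j g 0 s0).comp (measurable_addQ j s0)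
  have h2 : Measurable fun q : Env Kc N K n =>
      ∫ s0, ∫ site, rep1 L x g (addQ j s0 q) site ∂unif (Fin M → Fin N) ∂unif (Fin N) :=
    measurable_unif_avg fun s0 => measurable_unif_avg fun site =>
      Measurable.comp (g := fun p : (ℕ → ℝ) × Env Kc N K n => rep1 L p.1 g p.2 site)
        (f := fun q : Env Kc N K n => (x, addQ j s0 q)) (measurable_rep1 L g site)
        (measurable_const.prodMk (measurable_addQ j s0))
  rw [plusK, plusR, psiB, ← integral_const_mul, ← integral_sub
    (integrable_bdd h1 fun q => abs_unif_avg fun s0 => abs_innK L x j hg _ _ _)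
    ((integrable_bdd h2 fun q => abs_unif_avg fun s0 => abs_unif_avg fun site =>
      abs_rep1 L x hg _ _).const_mul _), ← integral_const_mul]
  refine integral_congr_ae (ae_of_all _ fun q => ?_)
  dsimp only
  rw [← integral_const_mul, ← integral_sub Integrable.of_finite Integrable.of_finite,
    ← integral_const_mul]
  refine integral_congr_ae (ae_of_all _ fun s0 => ?_)
  dsimp only [innK]
  rw [← integral_const_mul, ← integral_sub Integrable.of_finite Integrable.of_finite,
    ← integral_const_mul]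
  exact integral_congr_ae (ae_of_all _ fun site => sub_eq_psiV L x j g q s0 site)

/-- The test of one replica that is one. -/
def gOne (K : ℕ) : Tst K 1 0 := fun _ _ => 1

omit [IsProbabilityMeasure μ] [IsProbabilityMeasure ν] in
theorem kmean_eq (L : ℝ) (c s : ℝ≥0) (j : ℕ) (x : ℕ → ℝ) :
    kmean (N := N) μ ν L c s K n j x = eKrep (N := N) μ ν L c s K n j x (gOne K) := by
  refine integral_congr_ae (ae_of_all _ fun q => ?_)
  simp only [gOne, obs, one_mul]
  rw [integral_const, probReal_univ, one_smul,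
    P157.Casc.Itp.avg_one (sW_pos L x q) 0 fun st => eK j q st]

theorem rep_gOne (L : ℝ) (c s : ℝ≥0) (j : ℕ) (x : ℕ → ℝ) :
    repM (N := N) μ ν L c s K n x (gOne K) = 1 ∧
      plusR (N := N) μ ν L c s K n j x (gOne K) = 1 := by
  have h : ∀ (q : Env Kc N K n) site, rep1 L x (gOne K) q site = 1 := fun q site =>
    P157.Casc.avg_const' (sW_pos L x q) 1 1
  constructor
  · simp [repM, h]
  · simp [plusR, h]

/-- The defect of the identity at the tilt of kind `j`. -/
theorem defect_le (L : ℝ) (c s : ℝ≥0) (j : ℕ) (x : ℕ → ℝ)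
    (hs : 0 < (s : ℝ) * kindLaw.real {j}) {g : Tst K (r + 1) M} {B : ℝ}
    (hg : ∀ U σ, |g U σ| ≤ B) :
    (1 - tiltB x j ^ 2) * |psiB (N := N) μ ν L c s K n j x (tiltB x j) g
        - repM (N := N) μ ν L c s K n x g *
          psiB (N := N) μ ν L c s K n j x (tiltB x j) (gOne K)| ≤
      B * fl (N := N) μ ν L c s K n j x / (s * kindLaw.real {j} * beta j)
        + B / √(s * kindLaw.real {j}) := by
  set b := tiltB x j
  set σ := (s : ℝ) * kindLaw.real {j}
  have hB : 0 ≤ B := (abs_nonneg _).trans (hg (fun _ _ => 0) fun _ _ => true)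
  have hb := abs_tiltB x j
  have hb2 : 0 ≤ 1 - b ^ 2 := by nlinarith [abs_lt.1 hb]
  have hσβ : 0 < σ * beta j := mul_pos hs (beta_pos j)
  set R := repM (N := N) μ ν L c s K n x g
  set A := plusK (N := N) μ ν L c s K n j x g
  set M1 := plusK (N := N) μ ν L c s K n j x (gOne K)
  set P := plusR (N := N) μ ν L c s K n j x g
  have hA : |A - R * M1| ≤ B * fl (N := N) μ ν L c s K n j x / (σ * beta j) := by
    rw [le_div_iff₀ hσβ]
    have h := eKrep_fact μ ν (N := N) (K := K) (n := n) L c s j x hg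
    rw [palm_energy μ ν L c s j x hg, kmean_eq, palm_energy μ ν L c s j x (g := gOne K) (B := 1)
      (fun _ _ => abs_one.le)] at h
    rw [← abs_of_pos hσβ, ← abs_mul]
    refine le_of_eq_of_le (congrArg _ ?_) h
    ring
  have hP : |P - R| ≤ B / √σ := by
    have h := shift_rep μ ν (N := N) (K := K) (n := n) L c s j x hg
    rw [le_div_iff₀ (Real.sqrt_pos.2 hs)]
    nlinarith [Real.sq_sqrt hs.le, Real.sqrt_pos.2 hs, abs_nonneg (P - R)]
  have e1 := sub_eq_psiB μ ν (N := N) (n := n) L c s j x hg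
  have e2 := sub_eq_psiB μ ν (N := N) (n := n) L c s j x (g := gOne K) (B := 1)
    fun _ _ => abs_one.le
  rw [(rep_gOne μ ν L c s j x).2, mul_one] at e2
  rw [← abs_of_nonneg hb2, ← abs_mul, mul_sub, ← e1, mul_left_comm, ← e2]
  rw [show A - b * P - R * (M1 - b) = (A - R * M1) - b * (P - R) by ring]
  refine (abs_sub _ _).trans (add_le_add hA ?_)
  rw [abs_mul]
  exact (mul_le_of_le_one_left (abs_nonneg _) hb.le).trans hP

end Vale.Agent.P168
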